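import Crest.Agent.R208.GP4a
import Crest.Agent.R208.THD1
import Crest.Agent.R208.FH11
import Crest.Agent.X262.Van.Step
import Crest.Agent.R208.DEG2

-- ▼ part X262/PD/Fine
section

/-!
# Row 262, PD (helper97): an abstract Mayer-Vietoris induction for germs

`Fine E M` : a complex `D` on a group `M` with admissible elements `Sm U` and null elements `Nu U`
for the open sets `U` of `E`, and multiplication by smooth functions.  `Ex K` : exactness of the
germs along `K`.  `ex_compact`: exactness along the images of compact convex sets under charts of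
`X` implies exactness along every compact subset of `X`.
-/

set_option autoImplicit false
set_option linter.unusedSectionVars false

open Set Filter Topology Module
open scoped ContDiff
open Crest.Agent.R208.F Crest.Agent.R208.FI

noncomputable section

namespace Crest.Agent.X262.PD

variable {E : Type*} [NormedAddCommGroup E] [NormedSpace ℝ E] [FiniteDimensional ℝ E]

/-- `χ` vanishes near the points of `U'` outside `U` -/
def Off (χ : E → ℝ) (U' U : Set E) : Prop := ∀ x ∈ U', x ∉ U → ∀ᶠ y in 𝓝 x, χ y = 0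

variable (E) in
/-- a complex with partitions of unity -/
structure Fine (M : Type*) [AddCommGroup M] where
  /-- admissible on `U` -/
  Sm : Set E → AddSubgroup M
  /-- null on `U` -/
  Nu : Set E → AddSubgroup M
  /-- the differential -/
  D : M → M
  /-- multiplication by functions -/
  mu : (E → ℝ) → M → M
  sm_mono : ∀ {U U' : Set E}, U' ⊆ U → Sm U ≤ Sm U'
  nu_mono : ∀ {U U' : Set E}, U' ⊆ U → Nu U ≤ Nu U'
  D_sm : ∀ {U : Set E} {t : M}, IsOpen U → t ∈ Sm U → D t ∈ Sm U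
  D_nu : ∀ {U : Set E} {t : M}, IsOpen U → t ∈ Sm U → t ∈ Nu U → D t ∈ Nu U
  D_sub : ∀ {U : Set E} {s t : M}, IsOpen U → s ∈ Sm U → t ∈ Sm U → D (s - t) - (D s - D t) ∈ Nu U
  DD : ∀ {U : Set E} {t : M}, IsOpen U → t ∈ Sm U → D (D t) ∈ Nu U
  mu_sm : ∀ {U U' : Set E} {χ : E → ℝ} {t : M}, IsOpen U → IsOpen U' → ContDiff ℝ ∞ χ →
    Off χ U' U → t ∈ Sm U → mu χ t ∈ Sm U'
  mu_nu : ∀ {U U' : Set E} {χ : E → ℝ} {t : M}, IsOpen U → IsOpen U' → ContDiff ℝ ∞ χ →
    Off χ U' U → t ∈ Sm U → t ∈ Nu U → mu χ t ∈ Nu U'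
  mu_sub : ∀ (χ : E → ℝ) (s t : M), mu χ (s - t) = mu χ s - mu χ t
  mu_one : ∀ {U : Set E} {χ : E → ℝ} {t : M}, IsOpen U → ContDiff ℝ ∞ χ → t ∈ Sm U →
    t - (mu χ t + mu (fun x => 1 - χ x) t) ∈ Nu U
  nu_empty : ∀ t ∈ Sm ∅, t ∈ Nu ∅

namespace Fine

variable {M : Type*} [AddCommGroup M] (C : Fine E M)

/-- exactness of the germs along `K` -/
def Ex (K : Set E) : Prop := ∀ U : Set E, IsOpen U → K ⊆ U → ∀ t ∈ C.Sm U, C.D t ∈ C.Nu U →
  ∃ U' : Set E, IsOpen U' ∧ K ⊆ U' ∧ U' ⊆ U ∧ ∃ s ∈ C.Sm U', t - C.D s ∈ C.Nu U'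

theorem ex_empty : C.Ex ∅ := fun _ _ _ _ ht _ =>
  ⟨∅, isOpen_empty, subset_rfl, empty_subset _, 0, zero_mem _, C.nu_empty _
    (sub_mem (C.sm_mono (empty_subset _) ht) (C.D_sm isOpen_empty (zero_mem _)))⟩

theorem off_self (χ : E → ℝ) {U U' : Set E} (h : U' ⊆ U) : Off χ U' U :=
  fun _ hx hx' => absurd (h hx) hx'

variable {C}

theorem D_congr {U : Set E} {s t : M} (hU : IsOpen U) (hs : s ∈ C.Sm U) (ht : t ∈ C.Sm U)
    (h : s - t ∈ C.Nu U) : C.D s - C.D t ∈ C.Nu U := by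
  have h1 := C.D_nu hU (sub_mem hs ht) h
  have h2 := C.D_sub hU hs ht
  have := sub_mem h1 h2
  rwa [sub_sub_cancel] at this

/-- locality of null elements -/
theorem nu_glue {U U₁ U₂ : Set E} {χ : E → ℝ} {t : M} (hU : IsOpen U) (h1 : IsOpen U₁)
    (h2 : IsOpen U₂) (hχ : ContDiff ℝ ∞ χ) (o1 : Off (fun x => 1 - χ x) U U₁) (o2 : Off χ U U₂)
    (hs : t ∈ C.Sm U) (s1 : t ∈ C.Sm U₁) (s2 : t ∈ C.Sm U₂) (n1 : t ∈ C.Nu U₁) (n2 : t ∈ C.Nu U₂) :
    t ∈ C.Nu U := by
  have a := C.mu_one hU hχ hs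
  have b := C.mu_nu h2 hU hχ o2 s2 n2
  have c := C.mu_nu h1 hU (contDiff_const.sub hχ) o1 s1 n1
  have := add_mem a (add_mem b c)
  rwa [sub_add_cancel] at this

/-- **Mayer-Vietoris** -/
theorem Ex.union {K₁ K₂ : Set E} (c1 : IsClosed K₁) (c2 : IsClosed K₂) (e1 : C.Ex K₁)
    (e2 : C.Ex K₂) (e12 : C.Ex (K₁ ∩ K₂)) : C.Ex (K₁ ∪ K₂) := by
  intro U hU hK t ht hD
  obtain ⟨U₁, o1, k1, u1, s₁, hs₁, n1⟩ := e1 U hU (subset_union_left.trans hK) t ht hD
  obtain ⟨U₂, o2, k2, u2, s₂, hs₂, n2⟩ := e2 U hU (subset_union_right.trans hK) t ht hD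
  have o12 : IsOpen (U₁ ∩ U₂) := o1.inter o2
  have hs₁' : s₁ ∈ C.Sm (U₁ ∩ U₂) := C.sm_mono inter_subset_left hs₁
  have hs₂' : s₂ ∈ C.Sm (U₁ ∩ U₂) := C.sm_mono inter_subset_right hs₂
  have hcl : C.D (s₁ - s₂) ∈ C.Nu (U₁ ∩ U₂) := by
    have a := C.D_sub o12 hs₁' hs₂'
    have b := sub_mem (C.nu_mono inter_subset_right n2) (C.nu_mono (U := U₁) inter_subset_left n1)
    have := add_mem a b
    convert this using 1
    abel
  obtain ⟨W, oW, kW, uW, r, hr, nr⟩ := e12 _ o12 (inter_subset_inter k1 k2) _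
    (sub_mem hs₁' hs₂') hcl
  obtain ⟨χ, hχ, z0, z1, -⟩ := R208.GP.exists_cut (c1.sdiff oW) (c2.sdiff oW)
    (disjoint_left.2 fun x h1 h2 => h1.2 (kW ⟨h1.1, h2.1⟩))
  have hχ' : ContDiff ℝ ∞ fun x => 1 - χ x := contDiff_const.sub hχ
  set A : Set E := {x | ∀ᶠ y in 𝓝 x, χ y = 0} with hA
  set B : Set E := {x | ∀ᶠ y in 𝓝 x, χ y = 1} with hB
  have oA : IsOpen A := isOpen_setOfPred_eventually_nhds
  have oB : IsOpen B := isOpen_setOfPred_eventually_nhds
  have hB' : ∀ x ∈ B, ∀ᶠ y in 𝓝 x, 1 - χ y = 0 := fun x hx =>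
    Filter.Eventually.mono hx fun y hy => by rw [hy, sub_self]
  set V₁ : Set E := W ∪ (U₁ ∩ A) with hV₁
  set V₂ : Set E := W ∪ (U₂ ∩ B) with hV₂
  have p1 : IsOpen V₁ := oW.union (o1.inter oA)
  have p2 : IsOpen V₂ := oW.union (o2.inter oB)
  have v1 : V₁ ⊆ U₁ := union_subset (uW.trans inter_subset_left) inter_subset_left
  have v2 : V₂ ⊆ U₂ := union_subset (uW.trans inter_subset_right) inter_subset_left
  have f1 : Off χ V₁ W := fun x hx hx' => (hx.resolve_left hx').2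
  have f2 : Off (fun x => 1 - χ x) V₂ W := fun x hx hx' => hB' x (hx.resolve_left hx').2
  have g1 : Off (fun x => 1 - χ x) (V₁ ∪ V₂) V₁ := fun x hx hx' =>
    f2 x (hx.resolve_left hx') fun h => hx' (Or.inl h)
  have g2 : Off χ (V₁ ∪ V₂) V₂ := fun x hx hx' =>
    f1 x (hx.resolve_right hx') fun h => hx' (Or.inl h)
  have p12 : IsOpen (V₁ ∪ V₂) := p1.union p2
  -- the difference `s₁ - s₂ = D r + b`, `b` null on `W`
  set b : M := s₁ - s₂ - C.D r with hb
  have sW1 : s₁ ∈ C.Sm W := C.sm_mono uW hs₁'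
  have sW2 : s₂ ∈ C.Sm W := C.sm_mono uW hs₂'
  have hbW : b ∈ C.Sm W := sub_mem (sub_mem sW1 sW2) (C.D_sm oW hr)
  have r1 : C.mu χ r ∈ C.Sm V₁ := C.mu_sm oW p1 hχ f1 hr
  have r2 : C.mu (fun x => 1 - χ x) r ∈ C.Sm V₂ := C.mu_sm oW p2 hχ' f2 hr
  set a₁ : M := s₁ - C.D (C.mu χ r) with ha₁
  set a₂ : M := s₂ - (0 - C.D (C.mu (fun x => 1 - χ x) r)) with ha₂
  have A1 : a₁ ∈ C.Sm V₁ := sub_mem (C.sm_mono v1 hs₁) (C.D_sm p1 r1)
  have A2 : a₂ ∈ C.Sm V₂ := sub_mem (C.sm_mono v2 hs₂) (sub_mem (zero_mem _) (C.D_sm p2 r2))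
  have W1 : W ⊆ V₁ := subset_union_left
  have W2 : W ⊆ V₂ := subset_union_left
  have D0 : ∀ {V : Set E}, IsOpen V → C.D 0 ∈ C.Nu V := fun hV =>
    C.D_nu hV (zero_mem _) (zero_mem _)
  -- `a₁ = a₂` on `W`
  have A12 : a₁ - a₂ ∈ C.Nu W := by
    have q1 := C.sm_mono W1 r1
    have q2 := C.sm_mono W2 r2
    have h1 : C.D (r - C.mu χ r) - C.D (C.mu (fun x => 1 - χ x) r) ∈ C.Nu W := by
      refine D_congr oW (sub_mem hr q1) q2 ?_
      have := C.mu_one oW hχ hr
      convert this using 1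
      abel
    have h2 := C.D_sub oW hr q1
    have := add_mem nr (sub_mem h1 h2)
    convert this using 1
    rw [ha₁, ha₂, hb]
    abel
  have T1 : t - C.D a₁ ∈ C.Nu V₁ := by
    have h1 := C.D_sub p1 (C.sm_mono v1 hs₁) (C.D_sm p1 r1)
    have h2 := C.DD p1 r1
    have := add_mem (sub_mem (C.nu_mono v1 n1) h1) h2
    convert this using 1
    rw [ha₁]
    abel
  have T2 : t - C.D a₂ ∈ C.Nu V₂ := by
    have h0 := C.D_sm p2 r2
    have h1 := C.D_sub p2 (C.sm_mono v2 hs₂) (sub_mem (zero_mem _) h0)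
    have h2 := C.DD p2 r2
    have h3 := C.D_sub p2 (zero_mem _) h0
    have := add_mem (add_mem (sub_mem (C.nu_mono v2 n2) h1) (sub_mem h3 h2)) (D0 p2)
    convert this using 1
    rw [ha₂]
    abel
  -- the glued primitive
  set s : M := C.mu (fun x => 1 - χ x) a₁ + C.mu χ a₂ with hs
  have S : s ∈ C.Sm (V₁ ∪ V₂) :=
    add_mem (C.mu_sm p1 p12 hχ' g1 A1) (C.mu_sm p2 p12 hχ g2 A2)
  have A12s : a₁ - a₂ ∈ C.Sm W := sub_mem (C.sm_mono W1 A1) (C.sm_mono W2 A2)
  have E1 : a₁ - s ∈ C.Nu V₁ := by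
    have h1 := C.mu_one p1 hχ A1
    have h2 := C.mu_nu oW p1 hχ f1 A12s A12
    rw [C.mu_sub] at h2
    have := add_mem h1 h2
    convert this using 1
    rw [hs]
    abel
  have E2 : a₂ - s ∈ C.Nu V₂ := by
    have h1 := C.mu_one p2 hχ A2
    have h2 := C.mu_nu oW p2 hχ' f2 A12s A12
    rw [C.mu_sub] at h2
    have := sub_mem h1 h2
    convert this using 1
    rw [hs]
    abel
  have VU : V₁ ∪ V₂ ⊆ U := union_subset (v1.trans u1) (v2.trans u2)
  refine ⟨V₁ ∪ V₂, p12, ?_, VU, s, S, ?_⟩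
  · rintro x (hx | hx)
    · by_cases hW : x ∈ W
      · exact Or.inl (Or.inl hW)
      · exact Or.inl (Or.inr ⟨k1 hx, z0 x ⟨hx, hW⟩⟩)
    · by_cases hW : x ∈ W
      · exact Or.inl (Or.inl hW)
      · exact Or.inr (Or.inr ⟨k2 hx, z1 x ⟨hx, hW⟩⟩)
  · have G : t - C.D s ∈ C.Sm (V₁ ∪ V₂) := sub_mem (C.sm_mono VU ht) (C.D_sm p12 S)
    refine nu_glue p12 p1 p2 hχ g1 g2 G (C.sm_mono subset_union_left G)
      (C.sm_mono subset_union_right G) ?_ ?_
    · have := add_mem T1 (D_congr p1 A1 (C.sm_mono subset_union_left S) E1)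
      rwa [sub_add_sub_cancel] at this
    · have := add_mem T2 (D_congr p2 A2 (C.sm_mono subset_union_right S) E2)
      rwa [sub_add_sub_cancel] at this

/-- finite unions of members of a family closed under intersections -/
theorem ex_biUnion {G : Set E → Prop} (hc : ∀ K, G K → IsClosed K)
    (hi : ∀ K K', G K → G K' → G (K ∩ K')) (he : ∀ K, G K → C.Ex K) (m : ℕ) :
    ∀ K : Fin m → Set E, (∀ i, G (K i)) → C.Ex (⋃ i, K i) := by
  induction m with
  | zero => intro K _; rw [iUnion_of_empty]; exact C.ex_empty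
  | succ m ih =>
    intro K hK
    have h1 : ⋃ i, K i = K 0 ∪ ⋃ i : Fin m, K i.succ := by
      ext x
      simp only [mem_iUnion, mem_union, Fin.exists_fin_succ]
    rw [h1]
    refine Ex.union (hc _ (hK 0)) (isClosed_iUnion_of_finite fun i => hc _ (hK _)) (he _ (hK 0))
      (ih _ fun i => hK _) ?_
    rw [inter_iUnion]
    exact ih _ fun i => hi _ _ (hK 0) (hK _)

theorem ex_finite {G : Set E → Prop} (hc : ∀ K, G K → IsClosed K)
    (hi : ∀ K K', G K → G K' → G (K ∩ K')) (he : ∀ K, G K → C.Ex K) {ι : Type*} (s : Finset ι)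
    (K : ι → Set E) (hK : ∀ i ∈ s, G (K i)) : C.Ex (⋃ i ∈ s, K i) := by
  have h := ex_biUnion hc hi he s.card (fun j => K (s.equivFin.symm j))
    fun j => hK _ (s.equivFin.symm j).2
  convert h using 1
  ext x
  simp only [mem_iUnion]
  constructor
  · rintro ⟨i, hi, hx⟩
    exact ⟨s.equivFin ⟨i, hi⟩, by simpa using hx⟩
  · rintro ⟨j, hx⟩
    exact ⟨_, (s.equivFin.symm j).2, hx⟩

/-- exactness is a property of germs -/
theorem ex_of_basis {K : Set E}
    (h : ∀ U, IsOpen U → K ⊆ U → ∃ K', K ⊆ K' ∧ K' ⊆ U ∧ C.Ex K') : C.Ex K := by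
  intro U hU hK t ht hD
  obtain ⟨K', h1, h2, h3⟩ := h U hU hK
  obtain ⟨U', o, k, u, hs⟩ := h3 U hU h2 t ht hD
  exact ⟨U', o, h1.trans k, u, hs⟩

variable {n : ℕ} {X : Set E}

/-- the local hypothesis: exactness on convex coordinate patches -/
def Base (C : Fine E M) (n : ℕ) (X : Set E) : Prop :=
  ∀ (f : Eu n → E) (W : Set (Eu n)) (O : Set E) (ℓ : E → Eu n), Loc X f W O ℓ → Convex ℝ W →
    W.Nonempty → ∀ t ∈ C.Sm O, C.D t ∈ C.Nu O → ∃ s ∈ C.Sm O, t - C.D s ∈ C.Nu O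

theorem ex_convex (hb : C.Base n X) {f : Eu n → E} {W : Set (Eu n)} {O : Set E} {ℓ : E → Eu n}
    (h : Loc X f W O ℓ) {A : Set (Eu n)} (hA : IsCompact A) (hc : Convex ℝ A) (hAW : A ⊆ W) :
    C.Ex (f '' A) := by
  rcases A.eq_empty_or_nonempty with rfl | hne
  · rw [image_empty]; exact C.ex_empty
  intro U hU hK t ht hD
  have ho : IsOpen (W ∩ f ⁻¹' U) := h.fC.continuousOn.isOpen_inter_preimage h.oW hU
  obtain ⟨δ, hδ, hs⟩ := hA.exists_thickening_subset_open ho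
    (fun a ha => ⟨hAW ha, hK ⟨a, ha, rfl⟩⟩)
  have h1 := h.restrict (hs.trans inter_subset_left) Metric.isOpen_thickening
  have h2 : Loc X f (Metric.thickening δ A) (O ∩ ℓ ⁻¹' Metric.thickening δ A ∩ U) ℓ := by
    refine ⟨h1.oW, h1.oO.inter hU, h1.fC, h1.lC.mono inter_subset_left, ?_, h1.inv,
      fun q hq => h1.maps q hq.1⟩
    rw [← inter_assoc, ← h1.img]
    exact (inter_eq_left.2 (by rintro _ ⟨a, ha, rfl⟩; exact (hs ha).2)).symm
  obtain ⟨s, h3, h4⟩ := hb f _ _ ℓ h2 (hc.thickening δ)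
    (hne.mono (Metric.self_subset_thickening hδ A)) t (C.sm_mono inter_subset_right ht)
    (C.nu_mono inter_subset_right hD)
  refine ⟨_, h2.oO, ?_, inter_subset_right, s, h3, h4⟩
  rintro _ ⟨a, ha, rfl⟩
  exact (h2.mem (Metric.self_subset_thickening hδ A ha)).2

theorem ex_chart (hb : C.Base n X) {f : Eu n → E} {W : Set (Eu n)} {O : Set E} {ℓ : E → Eu n}
    (h : Loc X f W O ℓ) {K : Set E} (hK : IsCompact K) (hKX : K ⊆ X ∩ O) : C.Ex K := by
  refine ex_of_basis fun U hU hKU => ?_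
  have ho : IsOpen (W ∩ f ⁻¹' U) := h.fC.continuousOn.isOpen_inter_preimage h.oW hU
  have hA : IsCompact (ℓ '' K) :=
    hK.image_of_continuousOn (h.lC.continuousOn.mono fun x hx => (hKX hx).2)
  have hr : ∀ a ∈ ℓ '' K, ∃ r > 0, Metric.closedBall a r ⊆ W ∩ f ⁻¹' U := by
    rintro _ ⟨x, hx, rfl⟩
    refine Metric.nhds_basis_closedBall.mem_iff.1 (ho.mem_nhds ⟨h.maps x (hKX hx).2, ?_⟩)
    rw [mem_preimage, h.right_inv (hKX hx).1 (hKX hx).2]
    exact hKU hx
  choose! r hr0 hr1 using hr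
  obtain ⟨s, hs, hcov⟩ := hA.elim_nhds_subcover (fun a => Metric.closedBall a (r a))
    fun a ha => Metric.closedBall_mem_nhds a (hr0 a ha)
  refine ⟨⋃ a ∈ s, f '' Metric.closedBall a (r a), fun x hx => ?_, ?_, ?_⟩
  · obtain ⟨a, ha, hx'⟩ := mem_iUnion₂.1 (hcov ⟨x, hx, rfl⟩)
    exact mem_iUnion₂.2 ⟨a, ha, ℓ x, hx', h.right_inv (hKX hx).1 (hKX hx).2⟩
  · refine iUnion₂_subset fun a ha => ?_
    rintro _ ⟨u, hu, rfl⟩
    exact (hr1 a (hs a ha) hu).2
  · refine ex_finite (G := fun K => ∃ A, IsCompact A ∧ Convex ℝ A ∧ A ⊆ W ∧ K = f '' A)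
      ?_ ?_ ?_ s _ fun a ha => ⟨_, isCompact_closedBall _ _, convex_closedBall _ _,
        (hr1 a (hs a ha)).trans inter_subset_left, rfl⟩
    · rintro _ ⟨A, h1, -, h2, rfl⟩
      exact (h1.image_of_continuousOn (h.fC.continuousOn.mono h2)).isClosed
    · rintro _ _ ⟨A, h1, h2, h3, rfl⟩ ⟨B, g1, g2, g3, rfl⟩
      refine ⟨A ∩ B, h1.inter g1, h2.inter g2, inter_subset_left.trans h3, ?_⟩
      exact (h.chart.injOn.image_inter h3 g3).symm
    · rintro _ ⟨A, h1, h2, h3, rfl⟩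
      exact ex_convex hb h h1 h2 h3

/-- **exactness along every compact subset of `X`** -/
theorem ex_compact (hX : Sub n X) (hb : C.Base n X) {K : Set E} (hK : IsCompact K)
    (hKX : K ⊆ X) : C.Ex K := by
  have hr : ∀ x ∈ K, ∃ r > 0, ∃ (f : Eu n → E) (W : Set (Eu n)) (O : Set E) (ℓ : E → Eu n),
      Loc X f W O ℓ ∧ Metric.closedBall x r ⊆ O := by
    intro x hx
    obtain ⟨f, W, O, ℓ, h, hO⟩ := hX.exists_loc (hKX hx)
    obtain ⟨r, h0, h1⟩ := Metric.nhds_basis_closedBall.mem_iff.1 (h.oO.mem_nhds hO)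
    exact ⟨r, h0, f, W, O, ℓ, h, h1⟩
  choose! r hr0 hr1 using hr
  obtain ⟨s, hs, hcov⟩ := hK.elim_nhds_subcover (fun a => Metric.closedBall a (r a))
    fun a ha => Metric.closedBall_mem_nhds a (hr0 a ha)
  have e : K = ⋃ a ∈ s, K ∩ Metric.closedBall a (r a) := by
    rw [← inter_iUnion₂]
    exact (inter_eq_left.2 hcov).symm
  rw [e]
  refine ex_finite (G := fun K => IsCompact K ∧ ∃ (f : Eu n → E) (W : Set (Eu n)) (O : Set E)
      (ℓ : E → Eu n), Loc X f W O ℓ ∧ K ⊆ X ∩ O) (fun K h => h.1.isClosed) ?_ ?_ s _ ?_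
  · rintro K K' ⟨h1, f, W, O, ℓ, h2, h3⟩ ⟨g1, -⟩
    exact ⟨h1.inter g1, f, W, O, ℓ, h2, inter_subset_left.trans h3⟩
  · rintro K ⟨h1, f, W, O, ℓ, h2, h3⟩
    exact ex_chart hb h2 h1 h3
  · intro a ha
    obtain ⟨f, W, O, ℓ, h, h1⟩ := hr1 a (hs a ha)
    exact ⟨hK.inter_right Metric.isClosed_closedBall, f, W, O, ℓ, h,
      fun x hx => ⟨hKX hx.1, h1 hx.2⟩⟩

end Fine

end Crest.Agent.X262.PD
end
end

-- ▼ part X262/PD/Test
section

/-!
# Row 262, PD (helper97): test forms, integration by parts, the fundamental lemma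
-/

set_option autoImplicit false
set_option linter.unusedSectionVars false

open Set Filter Topology Module
open scoped ContDiff
open Crest.Agent.R208 Crest.Agent.R208.F Crest.Agent.R208.FI Crest.Agent.R208.T

noncomputable section

namespace Crest.Agent.X262.PD

section alg
variable {T : Type*} [AddCommGroup T] [Module ℝ T] [FiniteDimensional ℝ T]

/-- the wedge pairing is non degenerate -/
theorem exists_wedge {n : ℕ} (hn : finrank ℝ T = n) {a : Ext T} (ha : a ≠ 0) :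
    ∃ (c : Ext T) (w : Fin n → T), evA T n (a * c) w ≠ 0 := by
  classical
  have h1 : ∃ q v, evA T q a v ≠ 0 := by
    by_contra h
    push Not at h
    exact ha (eq_zero_of_evA fun q => AlternatingMap.ext (h q))
  obtain ⟨q, v, hv⟩ := h1
  have hli : LinearIndependent ℝ v := by
    by_contra h
    exact hv ((evA T q a).map_linearDependent v h)
  set S : Submodule ℝ T := Submodule.span ℝ (range v) with hS
  have hq : finrank ℝ S = q := by rw [hS, finrank_span_eq_card hli, Fintype.card_fin]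
  set r := finrank ℝ (T ⧸ S) with hr
  have hqr : q + r = n := by
    have := S.finrank_quotient_add_finrank
    omega
  subst hqr
  let b := Module.finBasis ℝ (T ⧸ S)
  choose u hu using fun i => S.mkQ_surjective (b i)
  let c : Ext (T ⧸ S) := ExteriorAlgebra.ιMulti ℝ r fun i => b.coord i
  refine ⟨pb S.mkQ c, Fin.append v u, ?_⟩
  rw [evA_mul_pb S.mkQ c (fun q hq => evA_iMulti_ne (by omega) _) u a v
    (fun i => (Submodule.Quotient.mk_eq_zero S).2 (Submodule.subset_span ⟨i, rfl⟩))]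
  refine mul_ne_zero hv ?_
  rw [evA_iMulti]
  have : (Matrix.of fun i j => b.coord j (S.mkQ (u i))) = 1 := by
    ext i j
    rw [Matrix.of_apply, hu, Basis.coord_apply, Basis.repr_self, Finsupp.single_apply,
      Matrix.one_apply]
  rw [this, Matrix.det_one]
  exact one_ne_zero

theorem pb_zero_eq {T' : Type*} [AddCommGroup T'] [Module ℝ T'] (c : Ext T') :
    pb (0 : T →ₗ[ℝ] T') c = algebraMap ℝ (Ext T) (evA T' 0 c Fin.elim0) := by
  refine ext_evA fun q => ?_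
  ext v
  rw [evA_pb]
  rcases q with _ | q
  · rw [evA_zero_algebraMap]
    congr 1
    exact Subsingleton.elim _ _
  · rw [evA_succ_algebraMap]
    exact (evA T' (q + 1) c).map_coord_zero 0 rfl

end alg

variable {E : Type*} [NormedAddCommGroup E] [NormedSpace ℝ E] [FiniteDimensional ℝ E]
  {n : ℕ} {X U U' : Set E} {o a b φ ψ : E → Ext E} {χ : E → ℝ}

/-- test forms with support in `U` -/
structure Cs (X U : Set E) (φ : E → Ext E) : Prop where
  sm : Sm X φ
  off : ∀ x ∈ X, x ∉ U → ∀ᶠ y in 𝓝 x, φ y = 0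

theorem Cs.univ (h : Sm X φ) : Cs X univ φ := ⟨h, fun _ _ h => absurd (mem_univ _) h⟩

theorem Cs.of_subset (h : Sm X φ) (hU : X ⊆ U) : Cs X U φ := ⟨h, fun _ hx h => absurd (hU hx) h⟩

theorem Cs.mono (h : Cs X U φ) (hU : U ⊆ U') : Cs X U' φ :=
  ⟨h.sm, fun x hx hx' => h.off x hx fun h' => hx' (hU h')⟩

theorem Cs.zero : Cs X U (0 : E → Ext E) := ⟨Sm.zero, fun _ _ _ => Eventually.of_forall fun _ => rfl⟩

theorem Cs.add (h : Cs X U φ) (h' : Cs X U ψ) : Cs X U (φ + ψ) :=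
  ⟨h.sm.add h'.sm, fun x hx hx' => by
    filter_upwards [h.off x hx hx', h'.off x hx hx'] with y h1 h2
    rw [Pi.add_apply, h1, h2, add_zero]⟩

theorem Cs.smul (r : ℝ) (h : Cs X U φ) : Cs X U (r • φ) :=
  ⟨h.sm.smul r, fun x hx hx' => by
    filter_upwards [h.off x hx hx'] with y h1
    rw [Pi.smul_apply, h1, smul_zero]⟩

theorem Cs.neg (h : Cs X U φ) : Cs X U (-φ) := by
  rw [← neg_one_smul ℝ φ]; exact h.smul _

theorem Cs.sub (h : Cs X U φ) (h' : Cs X U ψ) : Cs X U (φ - ψ) := by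
  rw [sub_eq_add_neg]; exact h.add h'.neg

theorem d_ev_zero {x : E} (h : ∀ᶠ y in 𝓝 x, φ y = 0) : ∀ᶠ y in 𝓝 x, d φ y = 0 := by
  have h1 : φ =ᶠ[𝓝 x] fun _ => 0 := h
  filter_upwards [d_congr_nhds h1] with y hy
  rw [hy, d_const]

theorem Cs.d (h : Cs X U φ) : Cs X U (d φ) :=
  ⟨h.sm.d, fun x hx hx' => d_ev_zero (h.off x hx hx')⟩

theorem Cs.dp (j : ℕ) (h : Cs X U φ) : Cs X U (dp j φ) :=
  ⟨h.sm.dp j, fun x hx hx' => (h.off x hx hx').mono fun y hy => by rw [T.dp, hy, map_zero]⟩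

theorem Cs.inv (h : Cs X U φ) : Cs X U (fun x => F.inv (φ x)) :=
  ⟨h.sm.inv, fun x hx hx' => (h.off x hx hx').mono fun y hy => by rw [hy, map_zero]⟩

/-- multiplication by a function -/
def fm (χ : E → ℝ) (a : E → Ext E) : E → Ext E := fun x => χ x • a x

theorem sm_fm (hχ : ContDiff ℝ ∞ χ) (ha : Sm X a) : Sm X (fm χ a) := fun x hx =>
  hχ.contDiffAt.smul (ha x hx)

theorem Cs.fm (hχ : ContDiff ℝ ∞ χ) (ho : Off χ U' U) (h : Cs X U' φ) : Cs X U (fm χ φ) := by
  refine ⟨sm_fm hχ h.sm, fun x hx hx' => ?_⟩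
  by_cases h1 : x ∈ U'
  · exact (ho x h1 hx').mono fun y hy => by rw [PD.fm, hy, zero_smul]
  · exact (h.off x hx h1).mono fun y hy => by rw [PD.fm, hy, smul_zero]

theorem sm_fm_off (hχ : ContDiff ℝ ∞ χ) (ho : Off χ U' U) (ha : Sm (X ∩ U) a) :
    Sm (X ∩ U') (fm χ a) := by
  intro x hx
  by_cases h : x ∈ U
  · exact hχ.contDiffAt.smul (ha x ⟨hx.1, h⟩)
  · exact contDiffAt_const.congr_of_eventuallyEq
      ((ho x hx.2 h).mono fun y hy => by rw [fm, hy, zero_smul])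

theorem Cs.mul_left (ha : Sm (X ∩ U) a) (h : Cs X U φ) : Cs X U (a * φ) := by
  have h0 : ∀ x ∈ X, x ∉ U → ∀ᶠ y in 𝓝 x, (a * φ) y = 0 := fun x hx hx' =>
    (h.off x hx hx').mono fun y hy => by rw [Pi.mul_apply, hy, mul_zero]
  refine ⟨fun x hx => ?_, h0⟩
  by_cases h1 : x ∈ U
  · exact contDiffAt_mul (ha x ⟨hx, h1⟩) (h.sm x hx)
  · exact contDiffAt_const.congr_of_eventuallyEq (h0 x hx h1)

theorem Cs.mul_right (ha : Sm (X ∩ U) a) (h : Cs X U φ) : Cs X U (φ * a) := by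
  have h0 : ∀ x ∈ X, x ∉ U → ∀ᶠ y in 𝓝 x, (φ * a) y = 0 := fun x hx hx' =>
    (h.off x hx hx').mono fun y hy => by rw [Pi.mul_apply, hy, zero_mul]
  refine ⟨fun x hx => ?_, h0⟩
  by_cases h1 : x ∈ U
  · exact contDiffAt_mul (h.sm x hx) (ha x ⟨hx, h1⟩)
  · exact contDiffAt_const.congr_of_eventuallyEq (h0 x hx h1)

theorem cont_of_sm (h : Sm X a) : ContinuousOn a X := fun x hx =>
  (h x hx).continuousAt.continuousWithinAt

theorem eqv_mul_cs (hU : IsOpen U) (h : Eqv (X ∩ U) a b) (hφ : Cs X U φ) :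
    Eqv X (a * φ) (b * φ) := by
  refine eqv_iff.2 fun x hx => ?_
  by_cases h1 : x ∈ U
  · rw [Pi.mul_apply, Pi.mul_apply, map_mul, map_mul, eqv_of_open hU h hx h1]
  · rw [Pi.mul_apply, Pi.mul_apply, (hφ.off x hx h1).self_of_nhds, mul_zero, mul_zero]

theorem J_eqv (hX : Clo n X) (h : Eqv X a b) : J n X o a = J n X o b := by
  refine J_congr hX fun x hx w hw => ?_
  have := ResZero.evA h hx hw
  rwa [Pi.sub_apply, map_sub, AlternatingMap.sub_apply, sub_eq_zero] at this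

theorem J_add' (hX : Clo n X) (ho : Ori n X o) (ha : Sm X a) (hb : Sm X b) :
    J n X o (a + b) = J n X o a + J n X o b := J_add hX ho (cont_of_sm ha) (cont_of_sm hb)

theorem J_sub' (hX : Clo n X) (ho : Ori n X o) (ha : Sm X a) (hb : Sm X b) :
    J n X o (a - b) = J n X o a - J n X o b := J_sub hX ho (cont_of_sm ha) (cont_of_sm hb)

theorem J_smul' (r : ℝ) : J n X o (r • a) = r * J n X o a := J_smul r

theorem J_neg' : J n X o (-a) = - J n X o a := J_neg

theorem J_zero' : J n X o (0 : E → Ext E) = 0 := J_zero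

theorem J_sum' (hX : Clo n X) (ho : Ori n X o) {ι : Type*} (s : Finset ι) {w : ι → E → Ext E}
    (h : ∀ i ∈ s, Sm X (w i)) : J n X o (∑ i ∈ s, w i) = ∑ i ∈ s, J n X o (w i) := by
  rw [← J_sum hX ho s fun i hi => cont_of_sm (h i hi)]
  congr 1
  funext x
  rw [Finset.sum_apply]

theorem J_d' (hX : Clo n X) (ho : Ori n X o) (ha : Sm X a) : J n X o (d a) = 0 :=
  J_d hX ho fun x hx => (ha x hx).of_le (by exact_mod_cast le_top)

theorem J_coh (hX : Clo n X) (ho : Ori n X o) (ha : Sm X a) (hb : Sm X b) (h : Coh X a b) :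
    J n X o a = J n X o b := by
  obtain ⟨ξ, h1, h2⟩ := h
  rw [← sub_eq_zero, ← J_sub' hX ho ha hb, J_eqv hX h2, J_d' hX ho h1]

/-- forms of the wrong degree have integral zero -/
theorem J_hom_ne (hX : Clo n X) {j : ℕ} (h : Hom j a) (hj : n ≠ j) : J n X o a = 0 :=
  J_eq_zero hX fun x _ w _ => by rw [h x n hj]; rfl

theorem J_dp (hX : Clo n X) : J n X o (dp n a) = J n X o a :=
  J_congr hX fun x _ w _ => by rw [T.dp, evA_dpl, if_pos rfl]

/-- **integration by parts** -/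
theorem J_parts (hX : Clo n X) (ho : Ori n X o) (ha : Sm (X ∩ U) a) (hφ : Cs X U φ) :
    J n X o (a * d φ) = J n X o ((fun x => F.inv (d a x)) * φ) := by
  have h1 := J_d' hX ho (hφ.mul_left ha.inv).sm
  have h2 : ∀ x ∈ X, d ((fun x => F.inv (a x)) * φ) x =
      (a * d φ - (fun x => F.inv (d a x)) * φ) x := by
    intro x hx
    by_cases h : x ∈ U
    · have := d_mul (ha.inv.diff ⟨hx, h⟩) (hφ.sm.diff hx)
      rw [F.inv_inv, CW.d_inv (ha.diff ⟨hx, h⟩)] at this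
      refine this.trans ?_
      simp only [Pi.sub_apply, Pi.mul_apply, neg_mul]
      abel
    · rw [(d_ev_zero ((hφ.mul_left ha.inv).off x hx h)).self_of_nhds]
      simp only [Pi.sub_apply, Pi.mul_apply]
      rw [(hφ.off x hx h).self_of_nhds, (hφ.d.off x hx h).self_of_nhds, mul_zero, mul_zero,
        sub_zero]
  rw [J_congr' hX h2, J_sub' hX ho (hφ.d.mul_left ha).sm (hφ.mul_left ha.d.inv).sm,
    sub_eq_zero] at h1
  exact h1

theorem exists_bump {x : E} {N : Set E} (hN : N ∈ 𝓝 x) :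
    ∃ ρ : E → ℝ, ContDiff ℝ ∞ ρ ∧ tsupport ρ ⊆ N ∧ ρ x = 1 ∧ ∀ y, 0 ≤ ρ y := by
  obtain ⟨ρ, h1, -, h2, h3, h4⟩ := exists_contDiff_tsupport_subset (n := ⊤) hN
  exact ⟨ρ, h2, h1, h4, fun y => (h3 ⟨y, rfl⟩).1⟩

theorem off_of_tsupport (h : tsupport χ ⊆ U) (V : Set E) : Off χ V U := fun _ _ hx =>
  notMem_tsupport_iff_eventuallyEq.1 fun h' => hx (h h')

/-- **the fundamental lemma** -/
theorem resZero_of_test (hX : Clo n X) (ho : Ori n X o) (hU : IsOpen U) (ha : Sm (X ∩ U) a)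
    (h : ∀ φ, Cs X U φ → J n X o (a * φ) = 0) : ResZero (X ∩ U) a := by
  intro x hx
  rw [Tan_inter_open hU hx.2]
  by_contra hne
  obtain ⟨c, w, hc⟩ := exists_wedge (hX.finrank_Tan hx.1) hne
  obtain ⟨π, hπ⟩ := (Tan X x).subtype.exists_leftInverse_of_injective (Submodule.ker_subtype _)
  have e1 : evA E n (a x * pb π c) (fun i => (w i : E)) ≠ 0 := by
    have := evA_pb n (Tan X x).subtype (a x * pb π c) w
    rw [map_mul, pb_comp, hπ, pb_id] at this
    exact fun h0 => hc (this.trans h0)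
  obtain ⟨δ, hδ, -⟩ := hX.exists_det hx.1 (w := fun i => (w i : E)) fun i => (w i).2
  have e2 : evA E n (a x * pb π c) (frame n X x) ≠ 0 := fun h0 => e1 (by rw [hδ, h0, mul_zero])
  obtain ⟨ρ, r1, r2, r3, -⟩ := exists_bump (hU.mem_nhds hx.2)
  have c1 : Cs X U (fm ρ fun _ => pb π c) :=
    (Cs.univ fun _ _ => contDiffAt_const).fm r1 (off_of_tsupport r2 _)
  set g := dens n X o (a * fm ρ fun _ => pb π c) with hg
  have gc : ContinuousOn g X := continuousOn_dens hX ho (cont_of_sm (c1.mul_left ha).sm)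
  have g0 : g x ≠ 0 := by
    rw [hg, dens, Pi.mul_apply, fm, r3, one_smul]
    exact mul_ne_zero e2 fun h0 => ho.ne x hx.1 (Real.sign_eq_zero_iff.1 h0)
  have g1 : ∀ᶠ y in 𝓝[X] x, 0 < g x * g y :=
    (continuousWithinAt_const.mul (gc x hx.1)).eventually (lt_mem_nhds (mul_self_pos.2 g0))
  obtain ⟨N, hN, hN'⟩ := mem_nhdsWithin_iff_exists_mem_nhds_inter.1 g1
  obtain ⟨σ, s1, s2, s3, s4⟩ := exists_bump hN
  have c2 : Cs X U (fm (fun y => g x * σ y) (fm ρ fun _ => pb π c)) :=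
    c1.fm (contDiff_const.mul s1) (Fine.off_self _ subset_rfl)
  have e3 : ∀ y, dens n X o (a * fm (fun y => g x * σ y) (fm ρ fun _ => pb π c)) y =
      σ y * (g x * g y) := by
    intro y
    have : (a * fm (fun y => g x * σ y) (fm ρ fun _ => pb π c)) =
        fun y => (g x * σ y) • (a * fm ρ fun _ => pb π c) y := by
      funext y
      simp only [Pi.mul_apply, fm, mul_smul_comm]
    rw [this, dens_fun_smul, ← hg]
    ring
  refine (J_pos_of hX ho (cont_of_sm (c2.mul_left ha).sm) (fun y hy => ?_) hx.1 ?_).ne' (h _ c2)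
  · rw [e3]
    by_cases h1 : y ∈ N
    · exact mul_nonneg (s4 y) (hN' ⟨h1, hy⟩).le
    · rw [image_eq_zero_of_notMem_tsupport fun h2 => h1 (s2 h2), zero_mul]
  · rw [e3, s3, one_mul]
    exact mul_self_pos.2 g0

theorem eqv_of_test (hX : Clo n X) (ho : Ori n X o) (hU : IsOpen U) (ha : Sm (X ∩ U) a)
    (hb : Sm (X ∩ U) b) (h : ∀ φ, Cs X U φ → J n X o (a * φ) = J n X o (b * φ)) :
    Eqv (X ∩ U) a b :=
  resZero_of_test hX ho hU (ha.sub hb) fun φ hφ => by
    rw [sub_mul, J_sub' hX ho (hφ.mul_left ha).sm (hφ.mul_left hb).sm, h φ hφ, sub_self]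

end Crest.Agent.X262.PD
end
end

-- ▼ part X262/PD/Cpt
section

/-!
# Row 262, PD (helper97): the Poincare lemmas on convex coordinate patches
-/

set_option autoImplicit false
set_option linter.unusedSectionVars false

open MeasureTheory Set Filter Topology Module
open scoped ContDiff
open Crest.Agent.R208 Crest.Agent.R208.F Crest.Agent.R208.FI Crest.Agent.R208.T
open Crest.Agent.R208.CW (SMap)

noncomputable section

namespace Crest.Agent.X262.PD

section univ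
variable {E : Type*} [NormedAddCommGroup E] [NormedSpace ℝ E] [FiniteDimensional ℝ E]

theorem tan_univ (x : E) : Tan (univ : Set E) x = ⊤ := by
  refine eq_top_iff.2 fun v _ => ?_
  have h := mem_Tan_of_curve (X := (univ : Set E)) (γ := fun t : ℝ => x + t • v) (v := v) (t := 0)
    (by simpa using ((hasDerivAt_id (0 : ℝ)).smul_const v).const_add x)
    (Eventually.of_forall fun _ => mem_univ _)
  simpa using h

theorem eq_of_eqv_univ {a b : E → Ext E} (h : Eqv (univ : Set E) a b) : a = b := by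
  funext x
  have h1 := eqv_iff.1 h x (mem_univ x)
  obtain ⟨π, hπ⟩ := (Tan (univ : Set E) x).subtype.exists_rightInverse_of_surjective
    (by rw [Submodule.range_subtype, tan_univ])
  have h2 := congrArg (pb π) h1
  rwa [pb_comp, pb_comp, hπ, pb_id, pb_id] at h2

theorem inv_of_even {k : ℕ} (hk : Even k) {c : Ext E} (h : IsDeg k c) : F.inv c = c := by
  refine ext_evA fun q => ?_
  rw [evA_inv]
  by_cases hq : q = k
  · rw [hq, hk.neg_one_pow, one_smul]
  · rw [h q hq, smul_zero]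

theorem inv_of_odd {k : ℕ} (hk : Odd k) {c : Ext E} (h : IsDeg k c) : F.inv c = -c := by
  refine ext_evA fun q => ?_
  rw [evA_inv, map_neg]
  by_cases hq : q = k
  · rw [hq, hk.neg_one_pow]
    ext v
    simp
  · rw [h q hq, smul_zero, neg_zero]

theorem Hop_eq_zero' {G' : Type*} [NormedAddCommGroup G'] [NormedSpace ℝ G']
    [FiniteDimensional ℝ G'] {Fh : E × ℝ → G'} {a : G' → Ext G'} {z : E}
    (h : ∀ t ∈ Icc (0 : ℝ) 1, a (Fh (z, t)) = 0) : Hop Fh a z = 0 := by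
  have h1 : Hop Fh a z = ∫ t in (0 : ℝ)..1, hopL (ContinuousLinearMap.inl ℝ E ℝ) ((0, 1) : E × ℝ)
    (F.pull Fh a (jv (ContinuousLinearMap.inl ℝ E ℝ) ((0, 1) : E × ℝ) (z, t))) := rfl
  rw [h1]
  refine (intervalIntegral.integral_congr (g := fun _ => 0) fun t ht => ?_).trans
    intervalIntegral.integral_zero
  rw [uIcc_of_le zero_le_one] at ht
  simp only
  rw [jv_inl, pull_of_zero (h t ht), map_zero]

end univ

section flat
variable {H : Type} [NormedAddCommGroup H] [InnerProductSpace ℝ H] [FiniteDimensional ℝ H]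
  [MeasurableSpace H] [BorelSpace H] (μ : Measure H) [μ.IsAddHaarMeasure]

/-- the top coefficient -/
def lam (c : Ext H) : ℝ := evA H (finrank ℝ H) c (Module.finBasis ℝ H)

theorem cH_snd {H' : Type} [NormedAddCommGroup H'] [NormedSpace ℝ H'] [FiniteDimensional ℝ H']
    (A : H × H →L[ℝ] H') (hA : ∀ x, A (x, 0) = 0) (c : Ext H') :
    ∃ r : ℝ, cH (ContinuousLinearMap.inl ℝ H H) (ContinuousLinearMap.inr ℝ H H)
      (pb (A : H × H →ₗ[ℝ] H') c) = algebraMap ℝ (Ext H) r := by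
  rw [cH_apply, iis_pb, pb_comp]
  have : (A : H × H →ₗ[ℝ] H') ∘ₗ ((ContinuousLinearMap.inl ℝ H H : H →L[ℝ] H × H) : H →ₗ[ℝ] H × H)
      = 0 := LinearMap.ext hA
  rw [this, pb_zero_eq]
  exact ⟨_, rfl⟩

theorem pI_snd (A : H × H →L[ℝ] H) (hA : ∀ x, A (x, 0) = 0) (c : H → Ext H) :
    ∃ r : ℝ, ∀ x, pI μ (pull A c) x = algebraMap ℝ (Ext H) r := by
  choose r hr using fun h => cH_snd A hA (c (A (0, h)))
  refine ⟨∫ h, r h ∂μ, fun x => ?_⟩
  rw [pI_eq, Algebra.algebraMap_eq_smul_one, ← integral_smul_const]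
  congr 1
  funext h
  have e : A (x, h) = A (0, h) := by
    rw [← add_zero x, ← zero_add h, ← Prod.mk_add_mk, map_add, hA, zero_add, zero_add]
  rw [pull, A.fderiv, e, hr, Algebra.algebraMap_eq_smul_one]

/-- the normalising factor -/
def nn (t : ℝ) : ℝ := (1 - t) ^ 2 + t ^ 2

theorem nn_pos (t : ℝ) : 0 < nn t := by
  unfold nn
  nlinarith [sq_nonneg (2 * t - 1)]

/-- the homotopy from the identity to a rotation -/
def Ph (p : (H × H) × ℝ) : H × H :=
  ((nn p.2)⁻¹ • ((1 - p.2) • p.1.1 - p.2 • p.1.2), (nn p.2)⁻¹ • (p.2 • p.1.1 + (1 - p.2) • p.1.2))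

theorem contDiff_Ph : ContDiff ℝ ∞ (Ph (H := H)) := by
  have h1 : ContDiff ℝ ∞ fun p : (H × H) × ℝ => (nn p.2)⁻¹ :=
    ContDiff.inv (by unfold nn; fun_prop) fun p => (nn_pos _).ne'
  unfold Ph
  fun_prop

theorem Ph_fst (z : H × H) (t : ℝ) : z.1 = (1 - t) • (Ph (z, t)).1 + t • (Ph (z, t)).2 := by
  have h := (nn_pos t).ne'
  have : z.1 = (nn t)⁻¹ • (nn t • z.1) := (inv_smul_smul₀ h _).symm
  rw [this]
  simp only [Ph, nn]
  module

theorem Ph_snd (z : H × H) (t : ℝ) : z.2 = (1 - t) • (Ph (z, t)).2 - t • (Ph (z, t)).1 := by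
  have h := (nn_pos t).ne'
  have : z.2 = (nn t)⁻¹ • (nn t • z.2) := (inv_smul_smul₀ h _).symm
  rw [this]
  simp only [Ph, nn]
  module

set_option maxHeartbeats 1000000 in
/-- **the Poincare lemma with compact supports** in a convex set -/
theorem cpt_flat {W A B : Set H} (hW : Convex ℝ W) (hA : IsCompact A) (hB : IsCompact B)
    (hAW : A ⊆ W) (hBW : B ⊆ W) {b : H → Ext H} (sb : Sm univ b) (cb : Cl univ b)
    (b0 : ∀ x, x ∉ A → b x = 0) {τ : H → Ext H} (sτ : Sm univ τ) (dτ : Hom (finrank ℝ H) τ)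
    (τ0 : ∀ x, x ∉ B → τ x = 0) :
    ∃ (L : H → Ext H) (C : Set H) (κ : ℝ), IsCompact C ∧ C ⊆ W ∧ Sm univ L ∧
      (∀ x, x ∉ C → L x = 0) ∧ (∫ h, lam (τ h) ∂μ) • b - κ • τ = d L := by
  have cτ : Cl univ τ := fun x _ => by
    rw [(dτ.d x).eq_zero (Nat.lt_succ_self _), map_zero]
  obtain ⟨R₁, hR₁⟩ := hA.isBounded.exists_norm_le
  obtain ⟨R₂, hR₂⟩ := hB.isBounded.exists_norm_le
  set R := |R₁| + |R₂| with hR
  have uu : (univ : Set H) ×ˢ (univ : Set H) = univ := univ_prod_univ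
  have m1 : SMap ((univ : Set H) ×ˢ (univ : Set H)) univ (Prod.fst : H × H → H) :=
    ⟨fun _ _ => contDiffAt_fst, fun _ _ => mem_univ _⟩
  have m2 : SMap ((univ : Set H) ×ˢ (univ : Set H)) univ (Prod.snd : H × H → H) :=
    ⟨fun _ _ => contDiffAt_snd, fun _ _ => mem_univ _⟩
  let A' : H × H →L[ℝ] H := -ContinuousLinearMap.snd ℝ H H
  have m3 : SMap ((univ : Set H) ×ˢ (univ : Set H)) univ A' :=
    ⟨fun _ _ => A'.contDiff.contDiffAt, fun _ _ => mem_univ _⟩
  set Th : H × H → Ext (H × H) := pull Prod.snd τ * pull Prod.fst b with hTh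
  have sTh : Sm (univ ×ˢ univ) Th := (sτ.pull m2).mul (sb.pull m1)
  have cTh : Cl (univ ×ˢ univ) Th :=
    Cl.mul (sτ.pull m2) (sb.pull m1) (cτ.pull m2 sτ) (cb.pull m1 sb)
  have Th0 : ∀ z : H × H, Th z ≠ 0 → z.1 ∈ A ∧ z.2 ∈ B := fun z hz => by
    constructor
    · by_contra h
      exact hz (by rw [hTh, Pi.mul_apply, pull_of_zero (f := Prod.fst) (b0 _ h), mul_zero])
    · by_contra h
      exact hz (by rw [hTh, Pi.mul_apply, pull_of_zero (f := Prod.snd) (τ0 _ h), zero_mul])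
  set C : Set H := (fun p : (H × H) × ℝ => (1 - p.2) • p.1.1 + p.2 • p.1.2) ''
    ((A ×ˢ B) ×ˢ Icc 0 1) with hC
  have cC : IsCompact C := ((hA.prod hB).prod isCompact_Icc).image (by fun_prop)
  have hCW : C ⊆ W := by
    rintro _ ⟨p, ⟨⟨h1, h2⟩, h3, h4⟩, rfl⟩
    exact hW (hAW h1) (hBW h2) (sub_nonneg.2 h4) h3 (sub_add_cancel _ _)
  have key : ∀ z : H × H, ∀ t ∈ Icc (0 : ℝ) 1, (z.1 ∉ C ∨ R < ‖z.2‖) → Th (Ph (z, t)) = 0 := by
    intro z t ht h
    by_contra h0
    obtain ⟨h1, h2⟩ := Th0 _ h0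
    rcases h with h | h
    · exact h ⟨(Ph (z, t), t), ⟨⟨h1, h2⟩, ht⟩, (Ph_fst z t).symm⟩
    · rw [Ph_snd z t] at h
      refine h.not_ge ((norm_sub_le _ _).trans ?_)
      rw [norm_smul, norm_smul, Real.norm_of_nonneg (sub_nonneg.2 ht.2), Real.norm_of_nonneg ht.1]
      have a1 := (hR₁ _ h1).trans (le_abs_self _)
      have a2 := (hR₂ _ h2).trans (le_abs_self _)
      have a3 := mul_le_of_le_one_left (norm_nonneg (Ph (z, t)).1) ht.2
      have a4 := mul_le_of_le_one_left (norm_nonneg (Ph (z, t)).2) (sub_le_self 1 ht.1)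
      linarith
  set K := Hop (Ph (H := H)) Th with hK
  have mu : ∀ z : H × H, z ∈ (univ : Set H) ×ˢ (univ : Set H) := fun z => ⟨mem_univ _, mem_univ _⟩
  have sK : Sm (univ ×ˢ univ) K := fun z _ =>
    contDiffAt_Hop (fun t _ => contDiff_Ph.contDiffAt) (fun t _ => sTh _ (mu _))
  have k1 : Eqv (univ ×ˢ univ) (pull (fun z => Ph (z, 1)) Th - pull (fun z => Ph (z, 0)) Th)
      (d K) :=
    resZero_Hop (fun z _ t _ => contDiff_Ph.contDiffAt.of_le CW.two_le) (fun z _ t _ => mu _)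
      (fun z hz => (sTh z hz).of_le (by exact_mod_cast le_top)) cTh
  have k2 : pull (fun z => Ph (z, 0)) Th = Th := by
    have : (fun z : H × H => Ph (z, 0)) = fun z => z := funext fun z => by simp [Ph, nn]
    rw [this]
    exact funext fun z => pull_id Th z
  -- the rotated form
  obtain ⟨b', sb', b0', hb'⟩ : ∃ b' : H → Ext H, Sm univ b' ∧ (∀ x, x ∉ A → b' x = 0) ∧
      ∀ z : H × H, pull Prod.fst τ z * pull A' b z = pull A' b' z * pull Prod.fst τ z := by
    rcases Nat.even_or_odd (finrank ℝ H) with h | h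
    · exact ⟨b, sb, b0, fun z => CW.even_comm (inv_of_even h (dτ.pull z)) _⟩
    · refine ⟨fun x => F.inv (b x), sb.inv, fun x hx => ?_, fun z => ?_⟩
      · simp only [b0 x hx, map_zero]
      · rw [CW.odd_comm (inv_of_odd h (dτ.pull z))]
        simp only [pull, pb_inv]
  have k3 : pull (fun z => Ph (z, 1)) Th = pull A' b' * pull Prod.fst τ := by
    funext z
    have hd : DifferentiableAt ℝ (fun z : H × H => Ph (z, (1 : ℝ))) z :=
      ((contDiff_Ph.comp (contDiff_id.prodMk contDiff_const)).differentiable (by simp)) z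
    rw [hTh, pull_mul', Pi.mul_apply, Pi.mul_apply, ← hb', pull_comp hd differentiableAt_snd,
      pull_comp hd differentiableAt_fst]
    congr 2
    · funext y; simp [Ph, nn]
    · funext y; simp [Ph, nn, A']
  have vK : Vt R K := fun z hz => Hop_eq_zero' fun t ht => key z t ht (Or.inr hz)
  have v1 : Vt R (pull A' b') := fun z hz => pull_of_zero (b0' _ fun h => by
    have := (hR₁ _ h).trans (le_abs_self _)
    have e : ‖A' z‖ = ‖z.2‖ := norm_neg _
    have := abs_nonneg R₂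
    linarith)
  have v2 : Vt R (pull (Prod.snd : H × H → H) τ) := fun z hz => pull_of_zero (τ0 _ fun h => by
    have := (hR₂ _ h).trans (le_abs_self _)
    have := abs_nonneg R₁
    linarith)
  rw [k2, k3] at k1
  have s1 := sb'.pull m3
  have s2 := sτ.pull m2
  have k4 := eqv_pI μ ((v1.mul_right _).sub (v2.mul_right _)) ((s1.mul (sτ.pull m1)).sub sTh)
    vK.d sK.d k1
  obtain ⟨κ, hκ⟩ := pI_snd μ A' (fun x => by simp [A']) b'
  have hc : ∀ x, pI μ (pull (Prod.snd : H × H → H) τ) x =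
      algebraMap ℝ (Ext H) (∫ h, lam (τ h) ∂μ) := by
    intro x
    rw [pI_eq, Algebra.algebraMap_eq_smul_one, ← integral_smul_const]
    congr 1
    funext h
    rw [cH_of_isDeg (dτ.pull _), pull, fderiv_snd, pb_comp, Algebra.algebraMap_eq_smul_one]
    congr 1
    have : ((ContinuousLinearMap.snd ℝ H H : H × H →L[ℝ] H) : H × H →ₗ[ℝ] H) ∘ₗ
      ((ContinuousLinearMap.inr ℝ H H : H →L[ℝ] H × H) : H →ₗ[ℝ] H × H) = LinearMap.id := rfl
    rw [this, pb_id]
    rfl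
  have sL := sm_pI μ vK sK
  refine ⟨(-(-1 : ℝ) ^ finrank ℝ H) • pI μ K, C, κ, cC, hCW, sL.smul _, fun x hx => ?_, ?_⟩
  · rw [Pi.smul_apply, pI_eq]
    have h2 : ∀ h : H, K (x, h) = 0 := fun h => Hop_eq_zero' fun t ht => key _ t ht (Or.inl hx)
    simp only [h2, map_zero, integral_zero, smul_zero]
  · funext x
    have h1 := congrFun (eq_of_eqv_univ k4) x
    rw [pI_sub μ (v1.mul_right _) (s1.mul (sτ.pull m1)) (v2.mul_right _) sTh (mem_univ x),
      pI_mul_fst μ v1 s1 (mem_univ x), pI_mul_fst μ v2 s2 (mem_univ x), hκ, hc,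
      d_pI μ vK sK (mem_univ x), ← Algebra.smul_def, ← Algebra.smul_def] at h1
    have h2 := d_const_smul (-(-1 : ℝ) ^ finrank ℝ H) (sL.diff (mem_univ x))
    refine Eq.trans ?_ h2.symm
    rw [neg_smul, ← h1, neg_sub]
    rfl

end flat

variable {E : Type*} [NormedAddCommGroup E] [NormedSpace ℝ E] [FiniteDimensional ℝ E]
  {n : ℕ} {X U O : Set E} {o a b φ ψ : E → Ext E} {f : Eu n → E} {W : Set (Eu n)} {ℓ : E → Eu n}

theorem eqv_of_cs (hU : IsOpen U) (h1 : Cs X U φ) (h2 : Cs X U ψ) (h : Eqv (X ∩ U) φ ψ) :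
    Eqv X φ ψ := by
  refine eqv_iff.2 fun x hx => ?_
  by_cases hU' : x ∈ U
  · exact eqv_of_open hU h hx hU'
  · rw [(h1.off x hx hU').self_of_nhds, (h2.off x hx hU').self_of_nhds]

theorem smap_ell (h : Loc X f W O ℓ) : SMap (X ∩ O) univ ℓ :=
  ⟨fun _ hx => h.lC' hx.2, fun _ _ => mem_univ _⟩

/-- transport of compactly supported forms from the chart to `X` -/
theorem exists_ext (h : Loc X f W O ℓ) {C : Set (Eu n)} (hC : IsCompact C) (hCW : C ⊆ W)
    {L : Eu n → Ext (Eu n)} (sL : Sm univ L) (L0 : ∀ u, u ∉ C → L u = 0) :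
    ∃ β, Cs X O β ∧ Eqv (X ∩ O) β (pull ℓ L) := by
  have c1 : IsCompact (f '' C) := hC.image_of_continuousOn (h.fC.continuousOn.mono hCW)
  obtain ⟨χ, hχ, z0, z1, -⟩ := GP.exists_cut h.oO.isClosed_compl c1.isClosed
    (disjoint_left.2 fun x hx => by rintro ⟨u, hu, rfl⟩; exact hx (h.mem (hCW hu)).2)
  have ho : Off χ univ O := fun x _ hx => z0 x hx
  refine ⟨fm χ (pull ℓ L), ⟨?_, fun x _ hx => (z0 x hx).mono fun y hy => ?_⟩,
    Eqv.of_eq fun x hx => ?_⟩
  · have := sm_fm_off hχ ho (sL.pull (smap_ell h))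
    rwa [inter_univ] at this
  · rw [fm, hy, zero_smul]
  · by_cases hx' : ℓ x ∈ C
    · rw [fm, (z1 x ⟨ℓ x, hx', h.right_inv hx.1 hx.2⟩).self_of_nhds, one_smul]
    · rw [fm, pull_of_zero (L0 _ hx'), smul_zero]

/-- transport of test forms from `X` to the chart -/
theorem exists_flat (hX : Clo n X) (h : Loc X f W O ℓ) (hφ : Cs X O φ) (cφ : Cl X φ) :
    ∃ (b : Eu n → Ext (Eu n)) (A : Set (Eu n)), IsCompact A ∧ A ⊆ W ∧ Sm univ b ∧ Cl univ b ∧
      (∀ u, u ∉ A → b u = 0) ∧ Eqv (X ∩ O) (pull ℓ b) φ := by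
  classical
  set K : Set E := X ∩ {x | ∀ᶠ y in 𝓝 x, φ y = 0}ᶜ with hK
  have cK : IsCompact K :=
    hX.compact.inter_right isOpen_setOfPred_eventually_nhds.isClosed_compl
  have KO : K ⊆ O := fun x hx => by
    by_contra h'
    exact hx.2 (hφ.off x hx.1 h')
  have cA : IsCompact (ℓ '' K) := cK.image_of_continuousOn (h.lC.continuousOn.mono KO)
  have AW : ℓ '' K ⊆ W := by rintro _ ⟨x, hx, rfl⟩; exact h.maps x (KO hx)
  set b : Eu n → Ext (Eu n) := fun u => if u ∈ W then pull f φ u else 0 with hb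
  have b0 : ∀ u, u ∉ ℓ '' K → b u = 0 := fun u hu => by
    by_cases hW : u ∈ W
    · rw [hb]
      simp only [if_pos hW]
      refine pull_of_zero ?_
      by_contra h0
      exact hu ⟨f u, ⟨(h.mem hW).1, fun h1 => h0 (Filter.Eventually.self_of_nhds (p := fun y => φ y = 0) h1)⟩, h.inv u hW⟩
    · exact if_neg hW
  have b1 : ∀ u ∈ W, b =ᶠ[𝓝 u] pull f φ := fun u hu =>
    Filter.Eventually.mono (h.oW.mem_nhds hu) fun v hv => if_pos hv
  have b2 : ∀ u, u ∉ W → ∀ᶠ v in 𝓝 u, b v = 0 := fun u hu =>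
    Filter.Eventually.mono (cA.isClosed.isOpen_compl.mem_nhds fun h' => hu (AW h')) b0
  refine ⟨b, _, cA, AW, fun u _ => ?_, fun u _ => ?_, b0, ?_⟩
  · by_cases hW : u ∈ W
    · exact (contDiffAt_pull (h.fC' hW) (by simp) (hφ.sm _ (h.mem hW).1)).congr_of_eventuallyEq
        (b1 u hW)
    · exact contDiffAt_const.congr_of_eventuallyEq (b2 u hW)
  · by_cases hW : u ∈ W
    · rw [d_congr (b1 u hW), d_pull ((h.fC' hW).of_le CW.two_le) (hφ.sm.diff (h.mem hW).1), pull,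
        (res_chart h.chart hW _).1 (cφ _ (h.mem hW).1), map_zero]
    · rw [(d_ev_zero (b2 u hW)).self_of_nhds, map_zero]
  · have m1 : SMap (X ∩ O) W ℓ := ⟨fun _ hx => h.lC' hx.2, fun x hx => h.maps x hx.2⟩
    have m2 : SMap W X f := ⟨fun _ hu => h.fC' hu, fun u hu => (h.mem hu).1⟩
    have m3 : SMap (X ∩ O) X (fun x => x) := (SMap.id X).mono inter_subset_left
    have e1 := eqv_pull_pull m1 m2 m3 (fun x hx => h.right_inv hx.1 hx.2) φ
    refine (Eqv.of_eq fun x hx => ?_).trans (e1.trans (Eqv.of_eq fun x _ => pull_id φ x))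
    simp only [pull, hb, if_pos (h.maps x hx.2)]

/-- **closed test forms of integral zero on a convex patch are exact** -/
theorem cpt_poincare (hX : Clo n X) (ho : Ori n X o) (h : Loc X f W O ℓ) (hW : Convex ℝ W)
    (hne : W.Nonempty) (hφ : Cs X O φ) (cφ : Cl X φ) (h0 : J n X o φ = 0) :
    ∃ β, Cs X O β ∧ Eqv X φ (d β) := by
  obtain ⟨u₀, hu₀⟩ := hne
  obtain ⟨r, hr, hrW⟩ := Metric.nhds_basis_closedBall.mem_iff.1 (h.oW.mem_nhds hu₀)
  obtain ⟨g, g1, g2, g3, g4⟩ := exists_bump (Metric.closedBall_mem_nhds u₀ hr)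
  let v : Ext (Eu n) := ExteriorAlgebra.ιMulti ℝ _ fun i => (Module.finBasis ℝ (Eu n)).coord i
  have hv : lam v = 1 := by
    rw [lam, evA_iMulti, ← Matrix.det_one (n := Fin (finrank ℝ (Eu n)))]
    congr 1
    ext i j
    rw [Matrix.of_apply, Basis.coord_apply, Basis.repr_self, Finsupp.single_apply,
      Matrix.one_apply]
  set τ : Eu n → Ext (Eu n) := fm g fun _ => v with hτ
  have sτ : Sm univ τ := sm_fm g1 fun _ _ => contDiffAt_const
  have dτ : Hom (finrank ℝ (Eu n)) τ := fun x => (IsDeg.iMulti _).smul _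
  have τ0 : ∀ x, x ∉ Metric.closedBall u₀ r → τ x = 0 := fun x hx => by
    rw [hτ, fm, image_eq_zero_of_notMem_tsupport fun h' => hx (g2 h'), zero_smul]
  set c₀ : ℝ := ∫ u, lam (τ u) with hc₀
  have c0 : 0 < c₀ := by
    have : (fun u => lam (τ u)) = g := funext fun u => by
      rw [hτ, fm, lam, map_smul, AlternatingMap.smul_apply, ← lam, hv, smul_eq_mul, mul_one]
    rw [hc₀, this]
    exact g1.continuous.integral_pos_of_hasCompactSupport_nonneg_nonzero
      ((isCompact_closedBall u₀ r).of_isClosed_subset (isClosed_tsupport g) g2) g4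
      (x := u₀) (by rw [g3]; exact one_ne_zero)
  obtain ⟨om, com, eom⟩ := exists_ext h (isCompact_closedBall u₀ r) hrW sτ τ0
  have key : ∀ φ, Cs X O φ → Cl X φ → ∃ (κ : ℝ) (β : E → Ext E), Cs X O β ∧
      Eqv X (c₀ • φ - κ • om) (d β) := by
    intro φ hφ cφ
    obtain ⟨b, A, cA, AW, sb, cb, b0, eb⟩ := exists_flat hX h hφ cφ
    obtain ⟨L, C, κ, cC, hCW, sL, L0, eL⟩ := cpt_flat volume hW cA (isCompact_closedBall u₀ r) AW
      hrW sb cb b0 sτ dτ τ0
    obtain ⟨β, cβ, eβ⟩ := exists_ext h cC hCW sL L0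
    refine ⟨κ, β, cβ, eqv_of_cs h.oO ((hφ.smul _).sub (com.smul _)) cβ.d ?_⟩
    have e1 := eβ.d (hX.sub.inter_open h.oO) (cβ.sm.mono inter_subset_left) (sL.pull (smap_ell h))
    refine Eqv.symm (e1.trans ((d_pull_eqv (smap_ell h) sL).trans ?_))
    rw [← eL, pull_sub', pull_smul', pull_smul']
    exact (eb.smul _).sub (eom.symm.smul _)
  have kJ : ∀ {φ κ β}, Cs X O φ → Cs X O β → Eqv X (c₀ • φ - κ • om) (d β) →
      c₀ * J n X o φ = κ * J n X o om := fun {φ κ β} h1 h2 h3 => by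
    have := J_eqv (o := o) hX h3
    rwa [J_d' hX ho h2.sm, J_sub' hX ho (h1.sm.smul _) (com.sm.smul _), J_smul', J_smul',
      sub_eq_zero] at this
  obtain ⟨om₁, w1, w2, w3, -, -, w4⟩ := exists_bump_form hX ho (h.mem hu₀).1 h.oO (h.mem hu₀).2
  have c1 : Cs X O om₁ := ⟨fun x _ => w1 x, fun x _ hx =>
    notMem_tsupport_iff_eventuallyEq.1 fun h' => hx (w3 h')⟩
  obtain ⟨κ₁, β₁, q1, q2⟩ := key om₁ c1
    (resZero_d_of_isDeg hX fun x _ => Eventually.of_forall w2)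
  have j1 : J n X o om ≠ 0 := fun h' => by
    have := kJ c1 q1 q2
    rw [h', mul_zero] at this
    exact (mul_pos c0 w4).ne' this
  obtain ⟨κ, β, p1, p2⟩ := key φ hφ cφ
  have j2 := kJ hφ p1 p2
  rw [h0, mul_zero, eq_comm, mul_eq_zero] at j2
  rw [j2.resolve_right j1, zero_smul, sub_zero] at p2
  refine ⟨c₀⁻¹ • β, p1.smul _, ?_⟩
  have := p2.smul c₀⁻¹
  rw [inv_smul_smul₀ c0.ne'] at this
  exact this.trans (d_smul_eqv _ p1.sm).symm

end Crest.Agent.X262.PD
end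
end

-- ▼ part X262/PD/Dual
section

/-!
# Row 262, PD (helper97): Poincare duality

* `pd_loc` : a form on `X ∩ U` which kills the closed test forms supported in `U` is exact near any
  compact `K ⊆ U`;  `pd_inj` : the global version;
* `pd_surj` : a functional on closed forms which kills the exact ones is `φ ↦ ∫ a ∧ φ`.
-/

set_option autoImplicit false
set_option linter.unusedSectionVars false

open MeasureTheory Set Filter Topology Module
open scoped ContDiff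
open Crest.Agent.R208 Crest.Agent.R208.F Crest.Agent.R208.FI Crest.Agent.R208.T
open Crest.Agent.R208.CW (SMap)

noncomputable section

namespace Crest.Agent.X262.PD

universe u

variable {E : Type u} [NormedAddCommGroup E] [NormedSpace ℝ E] [FiniteDimensional ℝ E]
  {n : ℕ} {X U O : Set E} {o a b φ ψ : E → Ext E} {f : Eu n → E} {W : Set (Eu n)} {ℓ : E → Eu n}

/-- the Poincare lemma on a convex patch -/
theorem coh_const (h : Loc X f W O ℓ) (hW : Convex ℝ W) (hne : W.Nonempty) (sa : Sm (X ∩ O) a)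
    (ca : Cl (X ∩ O) a) : ∃ κ : ℝ, Coh (X ∩ O) a fun _ => algebraMap ℝ (Ext E) κ := by
  obtain ⟨u₀, hu₀⟩ := hne
  have hm : ∀ x ∈ X ∩ O, ∀ t ∈ Icc (0 : ℝ) 1, (1 - t) • u₀ + t • ℓ x ∈ W := fun x hx t ht =>
    hW hu₀ (h.maps x hx.2) (sub_nonneg.2 ht.2) ht.1 (sub_add_cancel _ _)
  have h1 := coh_homotopy (X := X ∩ O) (Y := X ∩ O)
    (Fh := fun p : E × ℝ => f ((1 - p.2) • u₀ + p.2 • ℓ p.1)) (w := a)
    (fun x hx t ht => (h.fC' (hm x hx t ht)).comp (x, t) (ContDiffAt.add (by fun_prop)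
      (contDiffAt_snd.smul ((h.lC' hx.2).comp (x, t) contDiffAt_fst))))
    (fun x hx t ht => h.mem (hm x hx t ht)) sa ca
  simp only [sub_self, zero_smul, one_smul, zero_add, sub_zero, add_zero] at h1
  refine ⟨evA E 0 (a (f u₀)) Fin.elim0, Coh.trans (Coh.of_eqv ?_) (h1.trans (Coh.of_eqv ?_))⟩
  · refine (Eqv.of_eq fun x _ => (pull_id a x).symm).trans (eqv_pull_of_eq a
      (fun _ _ => differentiableAt_id) (fun x hx => ?_) fun x hx => (h.right_inv hx.1 hx.2).symm)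
    exact ((h.fC' (h.maps x hx.2)).comp x (h.lC' hx.2)).differentiableAt (by simp)
  · refine Eqv.of_eq fun x _ => ?_
    rw [pull, fderiv_fun_const, ← pb_zero_eq]
    rfl

variable (X) in
/-- restriction to the tangent spaces -/
def res : (E → Ext E) →ₗ[ℝ] ((x : X) → Ext (Tan X (x : E))) where
  toFun a x := pb (Tan X (x : E)).subtype (a x)
  map_add' _ _ := funext fun _ => map_add _ _ _
  map_smul' r a := funext fun x => map_smul (pb (Tan X (x : E)).subtype) r (a x)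

theorem res_apply (a : E → Ext E) (x : X) : res X a x = pb (Tan X (x : E)).subtype (a x) := rfl

theorem res_eq_iff : res X a = res X b ↔ Eqv X a b := by
  refine ⟨fun h => eqv_iff.2 fun x hx => ?_, fun h => funext fun x => ?_⟩
  · have := congrFun h ⟨x, hx⟩
    rwa [res_apply, res_apply] at this
  · rw [res_apply, res_apply]
    exact eqv_iff.1 h x x.2

variable (X U) in
/-- the space of test forms -/
def CsS : Submodule ℝ (E → Ext E) where
  carrier := {φ | Cs X U φ}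
  add_mem' := Cs.add
  zero_mem' := Cs.zero
  smul_mem' r _ h := h.smul r

variable (X U) in
/-- the differential on test forms -/
def dS : CsS X U →ₗ[ℝ] ((x : X) → Ext (Tan X (x : E))) where
  toFun φ := res X (d φ.1)
  map_add' φ ψ := by
    rw [← map_add]
    exact res_eq_iff.2 (d_add_eqv φ.2.sm ψ.2.sm)
  map_smul' r φ := by
    rw [RingHom.id_apply, ← map_smul]
    exact res_eq_iff.2 (d_smul_eqv r φ.2.sm)

/-- functionals which are linear on test forms -/
structure Lin (X U : Set E) (T : (E → Ext E) → ℝ) : Prop where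
  add : ∀ φ ψ, Cs X U φ → Cs X U ψ → T (φ + ψ) = T φ + T ψ
  smul : ∀ (r : ℝ) φ, Cs X U φ → T (r • φ) = r * T φ
  eqv : ∀ φ ψ, Cs X U φ → Cs X U ψ → Eqv X φ ψ → T φ = T ψ

theorem Lin.zero {T : (E → Ext E) → ℝ} (h : Lin X U T) : T 0 = 0 := by
  have := h.smul 0 0 Cs.zero
  rwa [zero_smul, zero_mul] at this

theorem Lin.resZero {T : (E → Ext E) → ℝ} (h : Lin X U T) (hφ : Cs X U φ) (h0 : ResZero X φ) :
    T φ = 0 := (h.eqv _ _ hφ Cs.zero (resZero_iff.1 h0)).trans h.zero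

theorem lin_J (hX : Clo n X) (ho : Ori n X o) (ha : Sm (X ∩ U) a) :
    Lin X U fun φ => J n X o (a * φ) :=
  ⟨fun φ ψ h1 h2 => by rw [mul_add, J_add' hX ho (h1.mul_left ha).sm (h2.mul_left ha).sm],
    fun r φ _ => by rw [mul_smul_comm, J_smul'],
    fun φ ψ _ _ h => J_eqv hX ((Eqv.refl a).mul h)⟩

/-- a functional which kills the closed test forms is a boundary -/
theorem Lin.exists_prim {T : (E → Ext E) → ℝ} (h : Lin X U T)
    (h0 : ∀ φ, Cs X U φ → Cl X φ → T φ = 0) :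
    ∃ S : (E → Ext E) → ℝ, Lin X U S ∧ ∀ φ, Cs X U φ → S (d φ) = T φ := by
  let T' : Module.Dual ℝ (CsS X U) :=
    { toFun := fun φ => T φ.1
      map_add' := fun φ ψ => h.add _ _ φ.2 ψ.2
      map_smul' := fun r φ => h.smul r _ φ.2 }
  have h1 : T' ∈ (LinearMap.ker (dS X U)).dualAnnihilator := by
    rw [Submodule.mem_dualAnnihilator]
    intro φ hφ
    refine h0 _ φ.2 (resZero_iff.2 (res_eq_iff.1 ?_))
    rw [map_zero]
    exact hφ
  rw [← LinearMap.range_dualMap_eq_dualAnnihilator_ker] at h1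
  obtain ⟨S, hS⟩ := h1
  refine ⟨fun φ => S (res X φ), ⟨fun φ ψ _ _ => by rw [map_add, map_add],
    fun r φ _ => by rw [map_smul, map_smul, smul_eq_mul],
    fun φ ψ _ _ h => by rw [res_eq_iff.2 h]⟩, fun φ hφ => ?_⟩
  exact LinearMap.congr_fun hS ⟨φ, hφ⟩

theorem fm_add (χ : E → ℝ) (φ ψ : E → Ext E) : fm χ (φ + ψ) = fm χ φ + fm χ ψ :=
  funext fun _ => smul_add _ _ _

theorem fm_smul (χ : E → ℝ) (r : ℝ) (φ : E → Ext E) : fm χ (r • φ) = r • fm χ φ :=
  funext fun x => smul_comm (χ x) r (φ x)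

theorem fm_one (χ : E → ℝ) (φ : E → Ext E) : fm χ φ + fm (fun x => 1 - χ x) φ = φ :=
  funext fun x => by simp only [Pi.add_apply, fm, ← add_smul, add_sub_cancel, one_smul]

theorem fm_mul (χ : E → ℝ) (a φ : E → Ext E) : fm χ a * φ = a * fm χ φ :=
  funext fun x => by simp only [Pi.mul_apply, fm, smul_mul_assoc, mul_smul_comm]

theorem eqv_fm (χ : E → ℝ) (h : Eqv X a b) : Eqv X (fm χ a) (fm χ b) :=
  eqv_iff.2 fun x hx => by rw [fm, fm, map_smul, map_smul, eqv_iff.1 h x hx]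

/-- currents modulo smooth forms -/
def cur (hX : Clo n X) (ho : Ori n X o) : Fine E ((E → Ext E) → ℝ) where
  Sm U :=
    { carrier := {T | Lin X U T}
      zero_mem' := ⟨fun _ _ _ _ => (add_zero _).symm, fun _ _ _ => (mul_zero _).symm,
        fun _ _ _ _ _ => rfl⟩
      add_mem' := fun {S T} hS hT =>
        ⟨fun φ ψ h1 h2 => by
            simp only [Pi.add_apply, hS.add φ ψ h1 h2, hT.add φ ψ h1 h2]; ring,
          fun r φ h => by simp only [Pi.add_apply, hS.smul r φ h, hT.smul r φ h]; ring,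
          fun φ ψ h1 h2 h => by simp only [Pi.add_apply, hS.eqv φ ψ h1 h2 h, hT.eqv φ ψ h1 h2 h]⟩
      neg_mem' := fun {S} hS =>
        ⟨fun φ ψ h1 h2 => by simp only [Pi.neg_apply, hS.add φ ψ h1 h2]; ring,
          fun r φ h => by simp only [Pi.neg_apply, hS.smul r φ h]; ring,
          fun φ ψ h1 h2 h => by simp only [Pi.neg_apply, hS.eqv φ ψ h1 h2 h]⟩ }
  Nu U :=
    { carrier := {T | ∃ a, Sm (X ∩ U) a ∧ ∀ φ, Cs X U φ → T φ = J n X o (a * φ)}
      zero_mem' := ⟨0, Sm.zero, fun φ _ => by rw [zero_mul, J_zero']; rfl⟩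
      add_mem' := by
        rintro S T ⟨a, h1, h2⟩ ⟨b, h3, h4⟩
        refine ⟨a + b, h1.add h3, fun φ hφ => ?_⟩
        rw [add_mul, J_add' hX ho (hφ.mul_left h1).sm (hφ.mul_left h3).sm, Pi.add_apply, h2 φ hφ,
          h4 φ hφ]
      neg_mem' := by
        rintro S ⟨a, h1, h2⟩
        refine ⟨-a, h1.neg, fun φ hφ => ?_⟩
        rw [neg_mul, J_neg', Pi.neg_apply, h2 φ hφ] }
  D T φ := T (d φ)
  mu χ T φ := T (fm χ φ)
  sm_mono hU T hT := ⟨fun φ ψ h1 h2 => hT.add φ ψ (h1.mono hU) (h2.mono hU),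
    fun r φ h => hT.smul r φ (h.mono hU),
    fun φ ψ h1 h2 h => hT.eqv φ ψ (h1.mono hU) (h2.mono hU) h⟩
  nu_mono hU := by
    rintro T ⟨a, h1, h2⟩
    exact ⟨a, h1.mono (inter_subset_inter_right _ hU), fun φ hφ => h2 φ (hφ.mono hU)⟩
  D_sm _ hT :=
    ⟨fun φ ψ h1 h2 => (hT.eqv _ _ (h1.add h2).d (h1.d.add h2.d) (d_add_eqv h1.sm h2.sm)).trans
        (hT.add _ _ h1.d h2.d),
      fun r φ h => (hT.eqv _ _ (h.smul r).d (h.d.smul r) (d_smul_eqv r h.sm)).trans
        (hT.smul r _ h.d),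
      fun φ ψ h1 h2 h => hT.eqv _ _ h1.d h2.d (h.d hX.sub h1.sm h2.sm)⟩
  D_nu := by
    rintro U T - - ⟨a, h1, h2⟩
    exact ⟨_, h1.d.inv, fun φ hφ => (h2 _ hφ.d).trans (J_parts hX ho h1 hφ)⟩
  D_sub _ _ _ := ⟨0, Sm.zero, fun φ _ => by
    rw [zero_mul, J_zero']
    exact sub_self _⟩
  DD := fun {U T} _ hT => ⟨0, Sm.zero, fun φ hφ => by
    rw [zero_mul, J_zero']
    exact Lin.resZero (T := T) hT hφ.d.d (d_d' hφ.sm)⟩
  mu_sm _ _ hχ hoff hT :=
    ⟨fun φ ψ h1 h2 => by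
        simp only [fm_add]
        exact hT.add _ _ (h1.fm hχ hoff) (h2.fm hχ hoff),
      fun r φ h => by
        simp only [fm_smul]
        exact hT.smul _ _ (h.fm hχ hoff),
      fun φ ψ h1 h2 h => hT.eqv _ _ (h1.fm hχ hoff) (h2.fm hχ hoff) (eqv_fm _ h)⟩
  mu_nu := by
    rintro U U' χ T - - hχ hoff - ⟨a, h1, h2⟩
    exact ⟨fm χ a, sm_fm_off hχ hoff h1, fun φ hφ => by
      rw [fm_mul]; exact h2 _ (hφ.fm hχ hoff)⟩
  mu_sub _ _ _ := rfl
  mu_one := fun {U χ T} _ hχ hT => ⟨0, Sm.zero, fun φ hφ => by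
    rw [zero_mul, J_zero']
    have := hT.add _ _ (hφ.fm hχ (Fine.off_self _ subset_rfl))
      (hφ.fm (contDiff_const.sub hχ) (Fine.off_self (fun x => 1 - χ x) subset_rfl))
    rw [fm_one] at this
    exact sub_eq_zero.2 this⟩
  nu_empty T hT := ⟨0, Sm.zero, fun φ hφ => by
    rw [zero_mul, J_zero']
    exact Lin.resZero (T := T) hT hφ
      (ResZero.of_zero fun x hx => (hφ.off x hx id).self_of_nhds)⟩

theorem resZero_inv (h : ResZero X fun x => F.inv (a x)) : ResZero X a := fun x hx => by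
  have := congrArg F.inv (h x hx)
  rwa [← pb_inv, F.inv_inv, map_zero] at this

theorem cur_base (hX : Clo n X) (ho : Ori n X o) : (cur hX ho).Base n X := by
  rintro f W O ℓ h hW hne T hT ⟨c, sc, hc⟩
  replace hT : Lin X O T := hT
  replace hc : ∀ φ, Cs X O φ → T (d φ) = J n X o (c * φ) := hc
  have cc : Cl (X ∩ O) c := resZero_inv (resZero_of_test hX ho h.oO sc.d.inv fun φ hφ => by
    rw [← J_parts hX ho sc hφ, ← hc _ hφ.d]
    exact hT.resZero hφ.d.d (d_d' hφ.sm))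
  obtain ⟨κ, γ, sγ, eγ⟩ := coh_const h hW hne sc cc
  obtain ⟨u₀, hu₀⟩ := hne
  obtain ⟨w, w1, w2, w3, -, -, w4⟩ := exists_bump_form hX ho (h.mem hu₀).1 h.oO (h.mem hu₀).2
  have c1 : Cs X O w := ⟨fun x _ => w1 x, fun x _ hx =>
    notMem_tsupport_iff_eventuallyEq.1 fun h' => hx (w3 h')⟩
  have c2 : Cl X w := resZero_d_of_isDeg hX fun x _ => Eventually.of_forall w2
  set a₀ : E → Ext E := -fun x => F.inv (γ x) with ha₀
  have s0 : Sm (X ∩ O) a₀ := sγ.inv.neg
  have p0 : ∀ φ, Cs X O φ → J n X o (a₀ * d φ) = J n X o (d γ * φ) := fun φ hφ => by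
    rw [J_parts hX ho s0 hφ]
    refine J_eqv hX (eqv_mul_cs h.oO (Eqv.of_eq fun x hx => ?_) hφ)
    rw [ha₀, d_neg', Pi.neg_apply, CW.d_inv (sγ.diff hx), neg_neg, F.inv_inv]
  have sk : ∀ r : ℝ, Sm (X ∩ O) fun _ => algebraMap ℝ (Ext E) r := fun _ _ _ => contDiffAt_const
  have jk : ∀ (r : ℝ) φ, J n X o ((fun _ => algebraMap ℝ (Ext E) r) * φ) = r * J n X o φ := by
    intro r φ
    rw [← J_smul']
    exact J_congr' hX fun x _ => (Algebra.smul_def r (φ x)).symm
  have p1 : ∀ φ, Cs X O φ → T (d φ) - J n X o (a₀ * d φ) = κ * J n X o φ := fun φ hφ => by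
    rw [hc φ hφ, p0 φ hφ, ← J_eqv hX (eqv_mul_cs h.oO eγ hφ), sub_mul,
      J_sub' hX ho (hφ.mul_left sc).sm (hφ.mul_left (sk κ)).sm, jk, sub_sub_cancel]
  have k0 : κ = 0 := by
    have := p1 w c1
    rw [hT.resZero c1.d c2, (lin_J hX ho s0).resZero c1.d c2, sub_zero, eq_comm,
      mul_eq_zero] at this
    exact this.resolve_right w4.ne'
  set κ' : ℝ := (T w - J n X o (a₀ * w)) / J n X o w with hκ'
  have s1 : Sm (X ∩ O) (a₀ + fun _ => algebraMap ℝ (Ext E) κ') := s0.add (sk κ')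
  have j1 : ∀ φ, Cs X O φ → J n X o ((a₀ + fun _ => algebraMap ℝ (Ext E) κ') * φ) =
      J n X o (a₀ * φ) + κ' * J n X o φ := fun φ hφ => by
    rw [add_mul, J_add' hX ho (hφ.mul_left s0).sm (hφ.mul_left (sk κ')).sm, jk]
  have L : Lin X O (T - fun φ => J n X o ((a₀ + fun _ => algebraMap ℝ (Ext E) κ') * φ)) :=
    ((cur hX ho).Sm O).sub_mem hT (lin_J hX ho s1)
  obtain ⟨S, hS, hS'⟩ := L.exists_prim fun φ hφ cφ => by
    have q1 : Cs X O (φ - (J n X o φ / J n X o w) • w) := hφ.sub (c1.smul _)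
    have q2 : Cl X (φ - (J n X o φ / J n X o w) • w) :=
      Cl.sub hφ.sm (c1.sm.smul _) cφ (Cl.smul _ c1.sm c2)
    obtain ⟨β, b1, b2⟩ := cpt_poincare hX ho h hW ⟨u₀, hu₀⟩ q1 q2 (by
      rw [J_sub' hX ho hφ.sm (c1.sm.smul _), J_smul', div_mul_cancel₀ _ w4.ne', sub_self])
    have e1 := L.eqv _ _ q1 b1.d b2
    have e2 := L.add _ _ q1 (c1.smul (J n X o φ / J n X o w))
    rw [sub_add_cancel, e1, L.smul _ _ c1] at e2
    rw [e2]
    have e3 := p1 β b1
    simp only [Pi.sub_apply]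
    rw [j1 _ b1.d, j1 _ c1, J_d' hX ho b1.sm, hκ', div_mul_cancel₀ _ w4.ne']
    rw [k0, zero_mul] at e3
    linear_combination e3
  refine ⟨S, hS, _, s1, fun φ hφ => ?_⟩
  have := hS' φ hφ
  simp only [Pi.sub_apply] at this ⊢
  change T φ - S (d φ) = _
  rw [this, sub_sub_cancel]

/-- **Poincare duality, relative form** -/
theorem pd_loc (hX : Clo n X) (ho : Ori n X o) {K : Set E} (hK : IsCompact K) (hKX : K ⊆ X)
    (hU : IsOpen U) (hKU : K ⊆ U) (sa : Sm (X ∩ U) a)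
    (h : ∀ φ, Cs X U φ → Cl X φ → J n X o (a * φ) = 0) :
    ∃ U', IsOpen U' ∧ K ⊆ U' ∧ U' ⊆ U ∧ Coh (X ∩ U') a 0 := by
  obtain ⟨T, hT, hT'⟩ := (lin_J hX ho sa).exists_prim h
  obtain ⟨U', o', k', u', S, hS, a', sa', h'⟩ := Fine.ex_compact hX.sub (cur_base hX ho) hK hKX U
    hU hKU T hT ⟨a, sa, hT'⟩
  replace hS : Lin X U' S := hS
  refine ⟨U', o', k', u', -fun x => F.inv (a' x), sa'.inv.neg, ?_⟩
  rw [sub_zero]
  refine eqv_of_test hX ho o' (sa.mono (inter_subset_inter_right _ u')) sa'.inv.neg.d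
    fun φ hφ => ?_
  have e1 : T (d φ) - S (d (d φ)) = J n X o (a' * d φ) := h' _ hφ.d
  rw [hS.resZero hφ.d.d (d_d' hφ.sm), sub_zero, hT' φ (hφ.mono u'), J_parts hX ho sa' hφ] at e1
  rw [e1]
  refine J_eqv hX (eqv_mul_cs o' (Eqv.of_eq fun x hx => ?_) hφ)
  rw [d_neg', Pi.neg_apply, CW.d_inv (sa'.diff hx), neg_neg]

/-- **Poincare duality, injectivity** -/
theorem pd_inj (hX : Clo n X) (ho : Ori n X o) (sa : Sm X a)
    (h : ∀ φ, Sm X φ → Cl X φ → J n X o (a * φ) = 0) : Coh X a 0 := by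
  obtain ⟨U', -, k', -, h'⟩ := pd_loc hX ho hX.compact subset_rfl isOpen_univ (subset_univ _)
    (sa.mono inter_subset_left) fun φ hφ => h φ hφ.sm
  rwa [inter_eq_left.2 k'] at h'

/-- **Poincare duality, surjectivity** -/
theorem pd_surj (hX : Clo n X) (ho : Ori n X o) {T : (E → Ext E) → ℝ} (hT : Lin X univ T)
    (h : ∀ φ, Sm X φ → T (d φ) = 0) :
    ∃ a, Sm X a ∧ Cl X a ∧ ∀ φ, Sm X φ → Cl X φ → T φ = J n X o (a * φ) := by
  obtain ⟨U', o', k', -, S, hS, a, sa, h'⟩ := Fine.ex_compact hX.sub (cur_base hX ho) hX.compact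
    subset_rfl univ isOpen_univ (subset_univ _) T hT
    ⟨0, Sm.zero, fun φ hφ => by rw [zero_mul, J_zero']; exact h φ hφ.sm⟩
  replace hS : Lin X U' S := hS
  replace h' : ∀ φ, Cs X U' φ → T φ - S (d φ) = J n X o (a * φ) := h'
  have e := inter_eq_left.2 k'
  have ca : Cl (X ∩ U') a := resZero_inv (resZero_of_test hX ho o' sa.d.inv fun φ hφ => by
    rw [← J_parts hX ho sa hφ, ← h' _ hφ.d, h φ hφ.sm, hS.resZero hφ.d.d (d_d' hφ.sm), sub_zero])
  rw [e] at sa ca
  refine ⟨a, sa, ca, fun φ sφ cφ => ?_⟩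
  rw [← h' φ (Cs.of_subset sφ k'), hS.resZero (Cs.of_subset sφ k').d cφ, sub_zero]

end Crest.Agent.X262.PD
end
end

-- ▼ part X262/PD/Basis
section

/-!
# Row 262, PD (helper97): finite dimensionality and homogeneous dual bases

* `HR X` : real de Rham cohomology (all degrees); `finite_HR`;
* `PDB n X o deg e f` : homogeneous closed forms `e i` (degree `deg i`) which form a basis of the
  cohomology, with the dual basis `f i` : `∫ f i ∧ e j = δ i j`;  `exists_pdb`.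
-/

set_option autoImplicit false
set_option linter.unusedSectionVars false

open MeasureTheory Set Filter Topology Module
open scoped ContDiff
open Crest.Agent.R208 Crest.Agent.R208.F Crest.Agent.R208.FI Crest.Agent.R208.T
open Crest.Agent.R208.CW (SMap)

noncomputable section

namespace Crest.Agent.X262.PD

universe u

variable {E : Type u} [NormedAddCommGroup E] [NormedSpace ℝ E] [FiniteDimensional ℝ E]
  {n : ℕ} {X : Set E} {o a b φ ψ : E → Ext E}

theorem cl_zero : Cl X (0 : E → Ext E) := fun x _ => by rw [d_zero', Pi.zero_apply, map_zero]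

theorem cl_inv (ha : Sm X a) (h : Cl X a) : Cl X fun x => F.inv (a x) := fun x hx => by
  rw [CW.d_inv (ha.diff hx), map_neg, pb_inv, h x hx, map_zero, neg_zero]

theorem sm_sum {ι : Type*} (s : Finset ι) {w : ι → E → Ext E} (h : ∀ i ∈ s, Sm X (w i)) :
    Sm X (∑ i ∈ s, w i) :=
  Finset.sum_induction w (Sm X) (fun _ _ => Sm.add) Sm.zero h

theorem cl_sum {ι : Type*} (s : Finset ι) {w : ι → E → Ext E} (h : ∀ i ∈ s, Sm X (w i))
    (h' : ∀ i ∈ s, Cl X (w i)) : Cl X (∑ i ∈ s, w i) :=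
  (Finset.sum_induction w (fun a => Sm X a ∧ Cl X a)
    (fun _ _ h1 h2 => ⟨h1.1.add h2.1, Cl.add h1.1 h2.1 h1.2 h2.2⟩) ⟨Sm.zero, cl_zero⟩
    fun i hi => ⟨h i hi, h' i hi⟩).2

theorem eqv_sum {ι : Type*} (s : Finset ι) {w w' : ι → E → Ext E}
    (h : ∀ i ∈ s, Eqv X (w i) (w' i)) : Eqv X (∑ i ∈ s, w i) (∑ i ∈ s, w' i) :=
  eqv_iff.2 fun x hx => by
    rw [Finset.sum_apply, Finset.sum_apply, map_sum, map_sum]
    exact Finset.sum_congr rfl fun i hi => eqv_iff.1 (h i hi) x hx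

theorem coh_sum {ι : Type*} (s : Finset ι) {w w' : ι → E → Ext E}
    (h : ∀ i ∈ s, Coh X (w i) (w' i)) : Coh X (∑ i ∈ s, w i) (∑ i ∈ s, w' i) := by
  classical
  induction s using Finset.induction_on with
  | empty => exact Coh.refl _
  | insert i s hi ih =>
    rw [Finset.sum_insert hi, Finset.sum_insert hi]
    exact (h i (Finset.mem_insert_self _ _)).add
      (ih fun j hj => h j (Finset.mem_insert_of_mem hj))

theorem coh_iff_sub : Coh X a b ↔ Coh X (a - b) 0 := by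
  simp only [Coh, sub_zero]

theorem coh_d (ha : Sm X a) : Coh X (d a) 0 := ⟨a, ha, by rw [sub_zero]; exact Eqv.refl _⟩

theorem coh_mul_left {c : E → Ext E} (hc : Sm X c) (hcc : Cl X c) (h : Coh X a b) :
    Coh X (c * a) (c * b) := by
  obtain ⟨ξ, h1, h2⟩ := h
  refine ⟨(fun x => F.inv (c x)) * ξ, hc.inv.mul h1, ?_⟩
  rw [← mul_sub]
  refine ((Eqv.refl c).mul h2).trans (Eqv.symm ((d_mul_eqv hc.inv h1).trans ?_))
  have := ((resZero_iff.1 (cl_inv hc hcc)).mul (Eqv.refl ξ)).add (Eqv.refl (c * d ξ))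
  rw [zero_mul, zero_add] at this
  simpa only [F.inv_inv] using this

/-- forms of degree larger than the dimension vanish -/
theorem resZero_of_hom (hX : Sub n X) {j : ℕ} (h : Hom j a) (hj : n < j) : ResZero X a :=
  fun x hx => ((h x).pb _).eq_zero (by rw [hX.finrank_Tan hx]; exact hj)


theorem eqv_sum_dp (hX : Sub n X) (a : E → Ext E) :
    Eqv X (∑ j ∈ Finset.range (n + 1), dp j a) a := by
  refine eqv_iff.2 fun x hx => ?_
  rw [Finset.sum_apply, map_sum]
  have := sum_dpl (pb (Tan X x).subtype (a x))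
  rw [hX.finrank_Tan hx] at this
  rw [← this]
  exact Finset.sum_congr rfl fun j _ => (dpl_pb _ _ _).symm

/-- only the complementary degree pairs with a homogeneous form -/
theorem J_dp_mul (hX : Clo n X) (ho : Ori n X o) (sa : Sm X a) (sb : Sm X b) {k : ℕ}
    (hb : Hom k b) (hk : k ≤ n) : J n X o (dp (n - k) a * b) = J n X o (a * b) := by
  rw [← J_eqv hX ((eqv_sum_dp hX.sub a).mul (Eqv.refl b)), Finset.sum_mul,
    J_sum' hX ho _ fun j _ => (sa.dp j).mul sb, Finset.sum_eq_single (n - k)]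
  · exact fun j _ hj => J_hom_ne hX ((hom_dp j a).mul hb) (by omega)
  · exact fun h => absurd (Finset.mem_range.2 (by omega)) h

variable (X) in
/-- closed forms -/
def Zr : Submodule ℝ (E → Ext E) where
  carrier := {a | Sm X a ∧ Cl X a}
  add_mem' h1 h2 := ⟨h1.1.add h2.1, Cl.add h1.1 h2.1 h1.2 h2.2⟩
  zero_mem' := ⟨Sm.zero, cl_zero⟩
  smul_mem' r _ h := ⟨h.1.smul r, Cl.smul r h.1 h.2⟩

variable (X) in
/-- exact forms -/
def Br : Submodule ℝ (Zr X) where
  carrier := {a | Coh X a.1 0}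
  add_mem' {a b} h1 h2 := by
    have := Coh.add h1 h2
    rw [add_zero] at this
    exact this
  zero_mem' := Coh.refl _
  smul_mem' r a h := by
    have := Coh.smul r h
    rw [smul_zero] at this
    exact this

variable (X) in
/-- real de Rham cohomology -/
abbrev HR : Type u := Zr X ⧸ Br X

theorem mk_eq_iff {a b : Zr X} : (Br X).mkQ a = (Br X).mkQ b ↔ Coh X a.1 b.1 := by
  rw [Submodule.mkQ_apply, Submodule.mkQ_apply, Submodule.Quotient.eq]
  exact coh_iff_sub.symm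

/-- the pairing on closed forms -/
def pairZ (hX : Clo n X) (ho : Ori n X o) : Zr X →ₗ[ℝ] Zr X →ₗ[ℝ] ℝ :=
  LinearMap.mk₂ ℝ (fun a b => J n X o (a.1 * b.1))
    (fun a a' b => by
      rw [Submodule.coe_add, add_mul, J_add' hX ho (a.2.1.mul b.2.1) (a'.2.1.mul b.2.1)])
    (fun r a b => by rw [Submodule.coe_smul, smul_mul_assoc, J_smul', smul_eq_mul])
    (fun a b b' => by
      rw [Submodule.coe_add, mul_add, J_add' hX ho (a.2.1.mul b.2.1) (a.2.1.mul b'.2.1)])
    (fun r a b => by rw [Submodule.coe_smul, mul_smul_comm, J_smul', smul_eq_mul])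

theorem J_mul_coh_left (hX : Clo n X) (ho : Ori n X o) {a' : E → Ext E} (sa : Sm X a)
    (sa' : Sm X a') (h : Coh X a a') (sb : Sm X b) (cb : Cl X b) :
    J n X o (a * b) = J n X o (a' * b) :=
  J_coh hX ho (sa.mul sb) (sa'.mul sb) (h.mul_right sb cb)

theorem J_mul_coh_right (hX : Clo n X) (ho : Ori n X o) {b' : E → Ext E} (sa : Sm X a)
    (ca : Cl X a) (sb : Sm X b) (sb' : Sm X b') (h : Coh X b b') :
    J n X o (a * b) = J n X o (a * b') :=
  J_coh hX ho (sa.mul sb) (sa.mul sb') (coh_mul_left sa ca h)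

/-- the pairing on cohomology -/
def pair (hX : Clo n X) (ho : Ori n X o) : HR X →ₗ[ℝ] Module.Dual ℝ (HR X) :=
  (pairZ hX ho).liftQ₂ (Br X) (Br X)
    (fun a ha => LinearMap.ext fun b => by
      have := J_mul_coh_left hX ho a.2.1 Sm.zero ha b.2.1 b.2.2
      rwa [zero_mul, J_zero'] at this)
    (fun b hb => LinearMap.ext fun a => by
      have := J_mul_coh_right hX ho a.2.1 a.2.2 b.2.1 Sm.zero hb
      rwa [mul_zero, J_zero'] at this)

theorem pair_mk (hX : Clo n X) (ho : Ori n X o) (a b : Zr X) :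
    pair hX ho ((Br X).mkQ a) ((Br X).mkQ b) = J n X o (a.1 * b.1) := rfl

/-- **Poincare duality** -/
theorem pair_bijective (hX : Clo n X) (ho : Ori n X o) : Function.Bijective (pair hX ho) := by
  constructor
  · rw [injective_iff_map_eq_zero]
    intro x hx
    obtain ⟨a, rfl⟩ := (Br X).mkQ_surjective x
    refine (Submodule.Quotient.mk_eq_zero _).2 (pd_inj hX ho a.2.1 fun φ h1 h2 => ?_)
    exact LinearMap.congr_fun hx ((Br X).mkQ ⟨φ, h1, h2⟩)
  · intro l
    let g : Zr X →ₗ[ℝ] ((x : X) → Ext (Tan X (x : E))) := res X ∘ₗ (Zr X).subtype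
    have h1 : l ∘ₗ (Br X).mkQ ∈ (LinearMap.ker g).dualAnnihilator := by
      rw [Submodule.mem_dualAnnihilator]
      intro a ha
      have : (Br X).mkQ a = 0 := (Submodule.Quotient.mk_eq_zero _).2
        (Coh.of_eqv (res_eq_iff.1 (by rw [map_zero]; exact ha)))
      rw [LinearMap.comp_apply, this, map_zero]
    rw [← LinearMap.range_dualMap_eq_dualAnnihilator_ker] at h1
    obtain ⟨S, hS⟩ := h1
    have hS' : ∀ a : Zr X, S (res X a.1) = l ((Br X).mkQ a) := fun a => LinearMap.congr_fun hS a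
    obtain ⟨a, sa, ca, h⟩ := pd_surj hX ho (T := fun φ => S (res X φ))
      ⟨fun φ ψ _ _ => by rw [map_add, map_add],
        fun r φ _ => by rw [map_smul, map_smul, smul_eq_mul],
        fun φ ψ _ _ h => by rw [res_eq_iff.2 h]⟩ fun φ hφ => by
      have : (Br X).mkQ ⟨d φ, hφ.d, d_d' hφ⟩ = 0 :=
        (Submodule.Quotient.mk_eq_zero _).2 (coh_d hφ)
      rw [hS' ⟨d φ, hφ.d, d_d' hφ⟩, this, map_zero]
    refine ⟨(Br X).mkQ ⟨a, sa, ca⟩, LinearMap.ext fun x => ?_⟩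
    obtain ⟨b, rfl⟩ := (Br X).mkQ_surjective x
    rw [pair_mk, ← h b.1 b.2.1 b.2.2, hS']

theorem finite_HR (hX : Clo n X) (ho : Ori n X o) : FiniteDimensional ℝ (HR X) :=
  Basis.linearEquiv_dual_iff_finiteDimensional.1
    ⟨LinearEquiv.ofBijective (pair hX ho) (pair_bijective hX ho)⟩

/-- homogeneous dual bases of the cohomology -/
structure PDB (n : ℕ) (X : Set E) (o : E → Ext E) {ι : Type} [Fintype ι] [DecidableEq ι]
    (deg : ι → ℕ) (e f : ι → E → Ext E) : Prop where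
  le : ∀ i, deg i ≤ n
  se : ∀ i, Sm X (e i)
  ce : ∀ i, Cl X (e i)
  he : ∀ i, Hom (deg i) (e i)
  sf : ∀ i, Sm X (f i)
  cf : ∀ i, Cl X (f i)
  hf : ∀ i, Hom (n - deg i) (f i)
  dual : ∀ i j, J n X o (f i * e j) = if i = j then 1 else 0
  span : ∀ a, Sm X a → Cl X a → Coh X a (∑ i, J n X o (f i * a) • e i)

theorem span_hom (hX : Sub n X) : Submodule.span ℝ
    {x : HR X | ∃ (k : ℕ) (a : Zr X), k ≤ n ∧ Hom k a.1 ∧ (Br X).mkQ a = x} = ⊤ := by
  refine eq_top_iff.2 fun x _ => ?_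
  obtain ⟨a, rfl⟩ := (Br X).mkQ_surjective x
  let c : ℕ → Zr X := fun j => ⟨dp j a.1, a.2.1.dp j, Cl.dp j a.2.1 a.2.2⟩
  have : (Br X).mkQ a = ∑ j ∈ Finset.range (n + 1), (Br X).mkQ (c j) := by
    rw [← map_sum, mk_eq_iff, Submodule.coe_sum]
    exact Coh.of_eqv (eqv_sum_dp hX a.1).symm
  rw [this]
  refine Submodule.sum_mem _ fun j hj => Submodule.subset_span ?_
  have h1 : Hom j (c j).1 := hom_dp j a.1
  exact ⟨j, c j, Nat.lt_succ_iff.1 (Finset.mem_range.1 hj), h1, rfl⟩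

theorem exists_hbasis (hX : Clo n X) (ho : Ori n X o) :
    ∃ (N : ℕ) (B : Basis (Fin N) ℝ (HR X)) (deg : Fin N → ℕ) (e : Fin N → Zr X),
      (∀ i, deg i ≤ n) ∧ (∀ i, Hom (deg i) (e i).1) ∧ ∀ i, (Br X).mkQ (e i) = B i := by
  classical
  have := finite_HR hX ho
  obtain ⟨s, hs, h1, h2⟩ := exists_linearIndependent ℝ
    {x : HR X | ∃ (k : ℕ) (a : Zr X), k ≤ n ∧ Hom k a.1 ∧ (Br X).mkQ a = x}
  let B₀ : Basis s ℝ (HR X) := Basis.mk h2 (by rw [Subtype.range_coe, h1, span_hom hX.sub])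
  have : Fintype s := FiniteDimensional.fintypeBasisIndex B₀
  have hB : ∀ i, ∃ (k : ℕ) (a : Zr X), k ≤ n ∧ Hom k a.1 ∧
      (Br X).mkQ a = B₀.reindex (Fintype.equivFin s) i := fun i => by
    rw [Basis.reindex_apply, Basis.mk_apply]
    exact hs (Subtype.prop _)
  choose deg e hd he hb using hB
  exact ⟨_, _, deg, e, hd, he, hb⟩

theorem exists_dual (hX : Clo n X) (ho : Ori n X o) (l : Module.Dual ℝ (HR X)) :
    ∃ g : Zr X, ∀ a : Zr X, J n X o (g.1 * a.1) = l ((Br X).mkQ a) := by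
  obtain ⟨y, hy⟩ := (pair_bijective hX ho).2 l
  obtain ⟨g, rfl⟩ := (Br X).mkQ_surjective y
  exact ⟨g, fun a => by rw [← pair_mk hX ho, hy]⟩

theorem exists_pdb (hX : Clo n X) (ho : Ori n X o) :
    ∃ (N : ℕ) (deg : Fin N → ℕ) (e f : Fin N → E → Ext E), PDB n X o deg e f := by
  obtain ⟨N, B, deg, e, hd, he, hb⟩ := exists_hbasis hX ho
  choose g key using fun i => exists_dual hX ho (B.coord i)
  have dual : ∀ i j, J n X o (dp (n - deg i) (g i).1 * (e j).1) = if i = j then 1 else 0 := by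
    intro i j
    by_cases h : deg i = deg j
    · rw [h, J_dp_mul hX ho (g i).2.1 (e j).2.1 (he j) (hd j), key, hb, Basis.coord_apply,
        Basis.repr_self, Finsupp.single_apply]
      simp only [eq_comm]
    · have := hd i
      have := hd j
      rw [J_hom_ne hX ((hom_dp _ _).mul (he j)) (by omega), if_neg fun h' => h (by rw [h'])]
  refine ⟨N, deg, fun i => (e i).1, fun i => dp (n - deg i) (g i).1, hd, fun i => (e i).2.1,
    fun i => (e i).2.2, he, fun i => (g i).2.1.dp _, fun i => Cl.dp _ (g i).2.1 (g i).2.2,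
    fun i => hom_dp _ _, dual, fun a sa ca => ?_⟩
  obtain ⟨c, h3⟩ : ∃ c : Fin N → ℝ, Coh X a (∑ i, c i • (e i).1) := by
    refine ⟨fun i => B.repr ((Br X).mkQ ⟨a, sa, ca⟩) i, ?_⟩
    have h4 : (Br X).mkQ ⟨a, sa, ca⟩ =
        (Br X).mkQ (∑ i, B.repr ((Br X).mkQ ⟨a, sa, ca⟩) i • e i) := by
      rw [map_sum]
      simp only [map_smul, hb]
      exact (B.sum_repr _).symm
    have := mk_eq_iff.1 h4
    rw [Submodule.coe_sum] at this
    exact this
  have h5 : ∀ i, J n X o (dp (n - deg i) (g i).1 * a) = c i := fun i => by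
    rw [J_mul_coh_right hX ho ((g i).2.1.dp _) (Cl.dp _ (g i).2.1 (g i).2.2) sa
      (sm_sum _ fun j _ => (e j).2.1.smul _) h3, Finset.mul_sum,
      J_sum' hX ho _ fun j _ => ((g i).2.1.dp _).mul ((e j).2.1.smul _)]
    simp only [mul_smul_comm, J_smul', dual, mul_ite, mul_one, mul_zero, Finset.sum_ite_eq,
      Finset.mem_univ, if_true]
  simp only [h5]
  exact h3

namespace PDB

variable {ι : Type} [Fintype ι] [DecidableEq ι] {deg : ι → ℕ} {e f : ι → E → Ext E}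

theorem J_comb (hX : Clo n X) (ho : Ori n X o) (h : PDB n X o deg e f) (c : ι → ℝ) (i : ι) :
    J n X o (f i * ∑ j, c j • e j) = c i := by
  rw [Finset.mul_sum, J_sum' hX ho _ fun j _ => (h.sf i).mul ((h.se j).smul _)]
  simp only [mul_smul_comm, J_smul', h.dual, mul_ite, mul_one, mul_zero, Finset.sum_ite_eq,
    Finset.mem_univ, if_true]

/-- independence -/
theorem indep (hX : Clo n X) (ho : Ori n X o) (h : PDB n X o deg e f) {c : ι → ℝ}
    (hc : Coh X (∑ j, c j • e j) 0) (i : ι) : c i = 0 := by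
  rw [← h.J_comb hX ho c i, J_mul_coh_right hX ho (h.sf i) (h.cf i)
    (sm_sum _ fun j _ => (h.se j).smul _) Sm.zero hc, mul_zero, J_zero']



end PDB

end Crest.Agent.X262.PD
end
end

-- ▼ part X262/PD/Fub
section

/-!
# Row 262, PD (helper97): exterior products of forms and Fubini

* `bx a b = p₁^* a ∧ p₂^* b` on `X ×ˢ Y`;  `ori_bx`, `J_bx`.
-/

set_option autoImplicit false
set_option linter.unusedSectionVars false

open MeasureTheory Set Filter Topology Module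
open scoped ContDiff
open Crest.Agent.R208 Crest.Agent.R208.F Crest.Agent.R208.FI Crest.Agent.R208.T
open Crest.Agent.R208.CW (SMap)

noncomputable section

namespace Crest.Agent.X262.PD

section alg

variable {T : Type*} [NormedAddCommGroup T] [NormedSpace ℝ T] [FiniteDimensional ℝ T]

theorem inv_of_isDeg {k : ℕ} {c : Ext T} (h : IsDeg k c) : F.inv c = (-1 : ℝ) ^ k • c := by
  rcases Nat.even_or_odd k with hk | hk
  · rw [inv_of_even hk h, hk.neg_one_pow, one_smul]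
  · rw [inv_of_odd hk h, hk.neg_one_pow, neg_one_smul]



end alg

section ori

variable {E : Type*} [NormedAddCommGroup E] [NormedSpace ℝ E] [FiniteDimensional ℝ E]
  {n : ℕ} {X : Set E} {o o' a b : E → Ext E}

theorem evA_of_eqv (h : Eqv X (dp n a) (dp n b)) {x : E} (hx : x ∈ X) {w : Fin n → E}
    (hw : ∀ i, w i ∈ Tan X x) : evA E n (a x) w = evA E n (b x) w := by
  have h1 := congrArg (fun c => evA (Tan X x) n c fun i => ⟨w i, hw i⟩) (eqv_iff.1 h x hx)
  simp only [evA_pb, dp, evA_dpl, if_true] at h1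
  exact h1

theorem ori_of_eqv (hX : Clo n X) (ho : Ori n X o) (hc : ContinuousOn o' X)
    (h : Eqv X (dp n o') (dp n o)) : Ori n X o' :=
  ⟨hc, fun x hx => by
    rw [evA_of_eqv h hx (frame_isFrame (hX.finrank_Tan hx)).2]
    exact ho.ne x hx⟩

theorem J_ori_eqv (hX : Clo n X) (ho : Ori n X o) (h : Eqv X (dp n o') (dp n o)) :
    J n X o' a = J n X o a :=
  J_ori_congr hX fun x hx => by
    rw [evA_of_eqv h hx (frame_isFrame (hX.finrank_Tan hx)).2]
    exact mul_self_pos.2 (ho.ne x hx)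

theorem cont_dp (j : ℕ) (h : ContinuousOn a X) : ContinuousOn (dp j a) X :=
  (dplL (E := E) j).continuous.comp_continuousOn h

theorem dp_dp (j : ℕ) (a : E → Ext E) : dp j (dp j a) = dp j a := (hom_dp j a).dp_eq

theorem ori_dp (hX : Clo n X) (ho : Ori n X o) : Ori n X (dp n o) :=
  ori_of_eqv hX ho (cont_dp n ho.cont) (by rw [dp_dp]; exact Eqv.refl _)

theorem J_ori_dp (hX : Clo n X) (ho : Ori n X o) : J n X (dp n o) a = J n X o a :=
  J_ori_eqv hX ho (by rw [dp_dp]; exact Eqv.refl _)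

theorem dp_of_hom_ne {i j : ℕ} (h : Hom i a) (hij : i ≠ j) : dp j a = 0 :=
  funext fun x => dpl_of_isDeg_ne (h x) hij

theorem dp_sum {ι : Type*} (s : Finset ι) (j : ℕ) (w : ι → E → Ext E) :
    dp j (∑ i ∈ s, w i) = ∑ i ∈ s, dp j (w i) :=
  funext fun x => by simp only [dp, Finset.sum_apply, map_sum]


end ori

universe u v

variable {E : Type u} [NormedAddCommGroup E] [NormedSpace ℝ E] [FiniteDimensional ℝ E]
  {G : Type v} [NormedAddCommGroup G] [NormedSpace ℝ G] [FiniteDimensional ℝ G]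
  {m n : ℕ} {X : Set E} {Y : Set G} {oX a a' : E → Ext E} {oY b b' : G → Ext G}

theorem pull_sum' {ι : Type*} (s : Finset ι) (f : E → G) (w : ι → G → Ext G) :
    pull f (∑ i ∈ s, w i) = ∑ i ∈ s, pull f (w i) :=
  funext fun x => by simp only [pull, Finset.sum_apply, map_sum]



/-- the exterior product -/
def bx (a : E → Ext E) (b : G → Ext G) : E × G → Ext (E × G) :=
  pull Prod.fst a * pull Prod.snd b

theorem smap_fst : SMap (X ×ˢ Y) X (Prod.fst : E × G → E) :=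
  ⟨fun _ _ => contDiffAt_fst, fun _ h => h.1⟩

theorem smap_snd : SMap (X ×ˢ Y) Y (Prod.snd : E × G → G) :=
  ⟨fun _ _ => contDiffAt_snd, fun _ h => h.2⟩

theorem sm_bx (ha : Sm X a) (hb : Sm Y b) : Sm (X ×ˢ Y) (bx a b) :=
  (ha.pull smap_fst).mul (hb.pull smap_snd)


theorem hom_bx {k l : ℕ} (ha : Hom k a) (hb : Hom l b) : Hom (k + l) (bx a b) :=
  ha.pull.mul hb.pull

theorem eqv_bx (ha : Eqv X a a') (hb : Eqv Y b b') : Eqv (X ×ˢ Y) (bx a b) (bx a' b') :=
  (ha.pull smap_fst).mul (hb.pull smap_snd)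











theorem bx_sum_left {ι : Type*} (s : Finset ι) (w : ι → E → Ext E) (b : G → Ext G) :
    bx (∑ i ∈ s, w i) b = ∑ i ∈ s, bx (w i) b := by
  rw [bx, pull_sum', Finset.sum_mul]; rfl

theorem bx_sum_right {ι : Type*} (s : Finset ι) (a : E → Ext E) (w : ι → G → Ext G) :
    bx a (∑ i ∈ s, w i) = ∑ i ∈ s, bx a (w i) := by
  rw [bx, pull_sum', Finset.mul_sum]; rfl







theorem pull_bx {H : Type*} [NormedAddCommGroup H] [NormedSpace ℝ H] [FiniteDimensional ℝ H]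
    {f : H → E} {g : H → G} {z : H} (hf : DifferentiableAt ℝ f z) (hg : DifferentiableAt ℝ g z)
    (a : E → Ext E) (b : G → Ext G) :
    pull (fun z => (f z, g z)) (bx a b) z = pull f a z * pull g b z := by
  rw [bx, pull_mul', Pi.mul_apply, pull_comp (hf.prodMk hg) differentiableAt_fst,
    pull_comp (hf.prodMk hg) differentiableAt_snd]
  rfl

theorem dp_bx (hX : Sub m X) (hY : Sub n Y) (a : E → Ext E) (b : G → Ext G) :
    Eqv (X ×ˢ Y) (dp (m + n) (bx a b)) (bx (dp m a) (dp n b)) := by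
  refine ((eqv_bx (eqv_sum_dp hX a) (eqv_sum_dp hY b)).symm.dp _).trans (Eqv.of_eq fun z _ => ?_)
  rw [bx_sum_left, dp_sum, Finset.sum_eq_single m, bx_sum_right, dp_sum, Finset.sum_eq_single n,
    (hom_bx (hom_dp _ _) (hom_dp _ _)).dp_eq]
  · intro j hj h
    exact dp_of_hom_ne (hom_bx (hom_dp _ _) (hom_dp _ _)) (by omega)
  · exact fun h => absurd (Finset.self_mem_range_succ n) h
  · intro i hi h
    rw [bx_sum_right, dp_sum]
    refine Finset.sum_eq_zero fun j hj => dp_of_hom_ne (hom_bx (hom_dp _ _) (hom_dp _ _)) ?_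
    rw [Finset.mem_range] at hi hj
    omega
  · exact fun h => absurd (Finset.self_mem_range_succ m) h

theorem subm_snd (hX : Clo m X) (hY : Clo n Y) :
    Subm m n (X ×ˢ Y) Y (Prod.snd : E × G → G) where
  cloZ := hX.prod hY
  cloX := hY
  smooth := fun _ _ => contDiffAt_snd
  mapsTo := fun _ h => h.2
  sub := by
    rintro ⟨x, y⟩ ⟨hx, hy⟩ w hw
    refine ⟨(0, w), ?_, ?_⟩
    · rw [Tan_prod hX.sub hY.sub hx hy]
      exact ⟨Submodule.zero_mem _, hw⟩
    · rw [hasFDerivAt_snd.fderiv]; rfl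

theorem cont_fst (h : ContinuousOn a X) :
    ContinuousOn (pull (Prod.fst : E × G → E) a) (X ×ˢ Y) := by
  have : pull (Prod.fst : E × G → E) a =
      fun z => pbL (ContinuousLinearMap.fst ℝ E G) (a z.1) := funext fun z => by
    rw [pull, hasFDerivAt_fst.fderiv]; rfl
  rw [this]
  exact (pbL _).continuous.comp_continuousOn (h.comp continuousOn_fst fun _ h => h.1)

theorem cont_snd (h : ContinuousOn b Y) :
    ContinuousOn (pull (Prod.snd : E × G → G) b) (X ×ˢ Y) := by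
  have : pull (Prod.snd : E × G → G) b =
      fun z => pbL (ContinuousLinearMap.snd ℝ E G) (b z.2) := funext fun z => by
    rw [pull, hasFDerivAt_snd.fderiv]; rfl
  rw [this]
  exact (pbL _).continuous.comp_continuousOn (h.comp continuousOn_snd fun _ h => h.2)

theorem cont_bx (ha : ContinuousOn a X) (hb : ContinuousOn b Y) :
    ContinuousOn (bx a b) (X ×ˢ Y) := FI.continuousOn_mul (cont_fst ha) (cont_snd hb)

theorem evA_bx (hb : Hom n b) (a : E → Ext E) (x : E) (y : G) (w : Fin m → E) (v : Fin n → G) :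
    evA (E × G) (m + n) (bx a b (x, y))
      (Fin.append (fun i => (w i, (0 : G))) fun i => ((0 : E), v i)) =
      evA E m (a x) w * evA G n (b y) v := by
  rw [bx, Pi.mul_apply, pull, pull, hasFDerivAt_fst.fderiv, hasFDerivAt_snd.fderiv,
    evA_mul_pb _ _ (fun q hq => hb _ q hq.ne) _ _ _ (fun _ => rfl), evA_pb]
  rfl

theorem ori_bx_hom (hX : Clo m X) (hY : Clo n Y) (hoX : Ori m X oX) (hoY : Ori n Y oY)
    (hd : Hom n oY) : Ori (m + n) (X ×ˢ Y) (bx oX oY) := by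
  refine ori_of (hX.prod hY) (cont_bx hoX.cont hoY.cont) ?_
  rintro ⟨x, y⟩ ⟨hx, hy⟩
  refine ⟨Fin.append (fun i => (frame m X x i, (0 : G))) fun i => ((0 : E), frame n Y y i),
    fun i => ?_, ?_⟩
  · rw [Tan_prod hX.sub hY.sub hx hy]
    refine Fin.addCases (fun j => ?_) (fun j => ?_) i
    · rw [Fin.append_left]
      exact ⟨(frame_isFrame (hX.finrank_Tan hx)).2 j, Submodule.zero_mem _⟩
    · rw [Fin.append_right]
      exact ⟨Submodule.zero_mem _, (frame_isFrame (hY.finrank_Tan hy)).2 j⟩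
  · rw [evA_bx hd]
    exact mul_ne_zero (hoX.ne x hx) (hoY.ne y hy)

theorem dp_bx_dp (hX : Sub m X) (hY : Sub n Y) (a : E → Ext E) (b : G → Ext G) :
    Eqv (X ×ˢ Y) (dp (m + n) (bx a b)) (dp (m + n) (bx a (dp n b))) := by
  have := dp_bx hX hY a (dp n b)
  rw [dp_dp] at this
  exact (dp_bx hX hY a b).trans this.symm

/-- the product orientation -/
theorem ori_bx (hX : Clo m X) (hY : Clo n Y) (hoX : Ori m X oX) (hoY : Ori n Y oY) :
    Ori (m + n) (X ×ˢ Y) (bx oX oY) :=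
  ori_of_eqv (hX.prod hY) (ori_bx_hom hX hY hoX (ori_dp hY hoY) (hom_dp _ _))
    (cont_bx hoX.cont hoY.cont) (dp_bx_dp hX.sub hY.sub _ _)

theorem J_bx_hom (hX : Clo m X) (hY : Clo n Y) (hoX : Ori m X oX) (hoY : Ori n Y oY)
    (hd : Hom n oY) (ha : ContinuousOn a X) (hb : ContinuousOn b Y) (hb' : Hom n b) :
    J (m + n) (X ×ˢ Y) (bx oX oY) (bx a b) = J m X oX a * J n Y oY b := by
  have hS := subm_snd hX hY
  have h := fibre_integration hS (cont_fst hoX.cont) (ori_bx_hom hX hY hoX hoY hd)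
    (fun y _ q hq => hd y q hq.ne) (cont_fst ha) hb fun y _ q hq => hb' y q hq.ne
  refine h.trans ?_
  rw [← J_smul']
  refine J_congr' hY fun y hy => ?_
  rw [J_pull (hS.clo_fibre y) hX (fun _ _ => differentiableAt_fst) ?_ hoX ha]
  · rfl
  · refine ⟨fun z hz => hz.1.1, fun z hz z' hz' h => Prod.ext h (hz.2.trans hz'.2.symm),
      fun x hx => ⟨(x, y), ⟨⟨hx, hy⟩, rfl⟩, rfl⟩⟩

/-- **Fubini** -/
theorem J_bx' (hX : Clo m X) (hY : Clo n Y) (hoX : Ori m X oX) (hoY : Ori n Y oY)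
    (ha : ContinuousOn a X) (hb : ContinuousOn b Y) :
    J (m + n) (X ×ˢ Y) (bx oX oY) (bx a b) = J m X oX a * J n Y oY b := by
  have hP := hX.prod hY
  rw [J_ori_eqv hP (ori_bx_hom hX hY hoX (ori_dp hY hoY) (hom_dp _ _))
      (dp_bx_dp hX.sub hY.sub _ _), ← J_dp hP, J_eqv hP (dp_bx_dp hX.sub hY.sub a b), J_dp hP,
    J_bx_hom hX hY hoX (ori_dp hY hoY) (hom_dp _ _) ha (cont_dp n hb) (hom_dp _ _), J_dp hY,
    J_ori_dp hY hoY]

theorem J_bx (hX : Clo m X) (hY : Clo n Y) (hoX : Ori m X oX) (hoY : Ori n Y oY)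
    (ha : Sm X a) (hb : Sm Y b) :
    J (m + n) (X ×ˢ Y) (bx oX oY) (bx a b) = J m X oX a * J n Y oY b :=
  J_bx' hX hY hoX hoY (cont_of_sm ha) (cont_of_sm hb)

end Crest.Agent.X262.PD
end
end

-- ▼ part X262/PD/Kun
section

/-!
# Row 262, PD (helper97): Leray-Hirsch and Kuenneth

* `leray_hirsch` : `π : P → X` a submersion onto a compact base, `e j` closed homogeneous forms on
  `P`, independent in the cohomology of each fibre and spanning over small convex patches; then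
  every closed form on `P` is cohomologous to `∑ e j ∧ π^* a j` with `a j` closed;
* `span_of_retract` : the spanning hypothesis from a retraction onto a fibre;
* `kunneth`, `PDB.kunneth` : the product case.
-/

set_option autoImplicit false
set_option linter.unusedSectionVars false

open MeasureTheory Set Filter Topology Module
open scoped ContDiff
open Crest.Agent.R208 Crest.Agent.R208.F Crest.Agent.R208.FI Crest.Agent.R208.T
open Crest.Agent.R208.CW (SMap)

noncomputable section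

namespace Crest.Agent.X262.PD

namespace Fine

variable {E : Type*} [NormedAddCommGroup E] [NormedSpace ℝ E] [FiniteDimensional ℝ E]
  {M : Type*} [AddCommGroup M] {n : ℕ} {X : Set E}

theorem off_inter {χ : E → ℝ} {U U' : Set E} (h : Off χ U' U) (V : Set E) :
    Off χ (U' ∩ V) (U ∩ V) := fun x hx hx' => h x hx.1 fun h' => hx' ⟨h', hx.2⟩

/-- restriction to an open set -/
def on (C : Fine E M) {V : Set E} (hV : IsOpen V) : Fine E M where
  Sm U := C.Sm (U ∩ V)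
  Nu U := C.Nu (U ∩ V)
  D := C.D
  mu := C.mu
  sm_mono h := C.sm_mono (inter_subset_inter_left _ h)
  nu_mono h := C.nu_mono (inter_subset_inter_left _ h)
  D_sm h := C.D_sm (h.inter hV)
  D_nu h := C.D_nu (h.inter hV)
  D_sub h := C.D_sub (h.inter hV)
  DD h := C.DD (h.inter hV)
  mu_sm h h' hχ ho := C.mu_sm (h.inter hV) (h'.inter hV) hχ (off_inter ho V)
  mu_nu h h' hχ ho := C.mu_nu (h.inter hV) (h'.inter hV) hχ (off_inter ho V)
  mu_sub := C.mu_sub
  mu_one h := C.mu_one (h.inter hV)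
  nu_empty := by rw [empty_inter]; exact C.nu_empty

/-- the local hypothesis on small patches -/
def BaseIn (C : Fine E M) (n : ℕ) (X V : Set E) : Prop :=
  ∀ (f : Eu n → E) (W : Set (Eu n)) (O : Set E) (ℓ : E → Eu n), Loc X f W O ℓ → O ⊆ V →
    Convex ℝ W → W.Nonempty → ∀ t ∈ C.Sm O, C.D t ∈ C.Nu O → ∃ s ∈ C.Sm O, t - C.D s ∈ C.Nu O

variable {C : Fine E M}

theorem ex_in (hX : Sub n X) {V : Set E} (hV : IsOpen V) (hb : C.BaseIn n X V) {K : Set E}
    (hK : IsCompact K) (hKX : K ⊆ X ∩ V) : C.Ex K := by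
  have h : (C.on hV).Ex K := ex_compact (hX.inter_open hV) (fun f W O ℓ h hW hne =>
    hb f W (O ∩ V) ℓ ⟨h.oW, h.oO.inter hV, h.fC, h.lC.mono inter_subset_left,
      by rw [h.img, inter_assoc, inter_comm V], h.inv, fun q hq => h.maps q hq.1⟩
      inter_subset_right hW hne) hK hKX
  intro U hU hKU t ht hD
  obtain ⟨U', o, k, u, s, h1, h2⟩ := h U hU hKU t (C.sm_mono inter_subset_left ht)
    (C.nu_mono inter_subset_left hD)
  exact ⟨U' ∩ V, o.inter hV, fun x hx => ⟨k hx, (hKX hx).2⟩, inter_subset_left.trans u, s, h1, h2⟩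

theorem ex_compact_loc (hX : Sub n X)
    (hb : ∀ x ∈ X, ∃ V, IsOpen V ∧ x ∈ V ∧ C.BaseIn n X V) {K : Set E} (hK : IsCompact K)
    (hKX : K ⊆ X) : C.Ex K := by
  have hr : ∀ x ∈ K, ∃ r > 0, ∃ V, IsOpen V ∧ C.BaseIn n X V ∧ Metric.closedBall x r ⊆ V := by
    intro x hx
    obtain ⟨V, o, hV, h⟩ := hb x (hKX hx)
    obtain ⟨r, h0, h1⟩ := Metric.nhds_basis_closedBall.mem_iff.1 (o.mem_nhds hV)
    exact ⟨r, h0, V, o, h, h1⟩
  choose! r hr0 hr1 using hr
  obtain ⟨s, hs, hcov⟩ := hK.elim_nhds_subcover (fun a => Metric.closedBall a (r a))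
    fun a ha => Metric.closedBall_mem_nhds a (hr0 a ha)
  have e : K = ⋃ a ∈ s, K ∩ Metric.closedBall a (r a) := by
    rw [← inter_iUnion₂]
    exact (inter_eq_left.2 hcov).symm
  rw [e]
  refine ex_finite (G := fun K => IsCompact K ∧ ∃ V, IsOpen V ∧ C.BaseIn n X V ∧ K ⊆ X ∩ V)
    (fun K h => h.1.isClosed) ?_ ?_ s _ ?_
  · rintro K K' ⟨h1, V, h2, h3, h4⟩ ⟨g1, -⟩
    exact ⟨h1.inter g1, V, h2, h3, inter_subset_left.trans h4⟩
  · rintro K ⟨h1, V, h2, h3, h4⟩
    exact ex_in hX h2 h3 h1 h4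
  · intro a ha
    obtain ⟨V, h1, h2, h3⟩ := hr1 a (hs a ha)
    exact ⟨hK.inter_right Metric.isClosed_closedBall, V, h1, h2, inter_subset_inter hKX h3⟩

end Fine

universe u v

variable {E : Type u} [NormedAddCommGroup E] [NormedSpace ℝ E] [FiniteDimensional ℝ E]
  {H : Type v} [NormedAddCommGroup H] [NormedSpace ℝ H] [FiniteDimensional ℝ H]
  {m p : ℕ} {X : Set E} {P : Set H} {π : H → E} {ι : Type*} [Fintype ι] {e : ι → H → Ext H}
  {deg : ι → ℕ}

theorem tan_singleton (x : E) : Tan ({x} : Set E) x = ⊥ := by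
  refine Submodule.span_eq_bot.2 ?_
  rintro v ⟨γ, -, h1, h2⟩
  exact h1.unique ((hasDerivAt_const _ x).congr_of_eventuallyEq h2)

theorem eqv_fm_off {U U' : Set E} {χ : E → ℝ} {a b : E → Ext E} (hU : IsOpen U)
    (ho : Off χ U' U) (h : Eqv (X ∩ U) a b) : Eqv (X ∩ U') (fm χ a) (fm χ b) := by
  refine eqv_iff.2 fun x hx => ?_
  rw [fm, fm, map_smul, map_smul]
  by_cases h1 : x ∈ U
  · have h2 : Eqv (X ∩ U' ∩ U) a b :=
      h.mono_tan (inter_subset_inter_left _ inter_subset_left)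
    rw [eqv_of_open hU h2 hx h1]
  · rw [(ho x hx.2 h1).self_of_nhds, zero_smul, zero_smul]

theorem evA_sum {T : Type*} [AddCommGroup T] [Module ℝ T] {κ : Type*} (s : Finset κ) (q : ℕ)
    (c : κ → Ext T) (w : Fin q → T) : evA T q (∑ i ∈ s, c i) w = ∑ i ∈ s, evA T q (c i) w := by
  classical
  induction s using Finset.induction_on with
  | empty => simp
  | insert i s hi ih =>
    rw [Finset.sum_insert hi, Finset.sum_insert hi, map_add, AlternatingMap.add_apply, ih]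

theorem ind_pt {z : H} (hπ : DifferentiableAt ℝ π z) (hm : MapsTo π P X)
    (hs : ∀ w ∈ Tan X (π z), ∃ v ∈ Tan P z, fderiv ℝ π z v = w) {α : ι → Ext E} {ε : ι → Ext H}
    (h : pb (Tan P z).subtype
      (∑ j, ε j * pb ((fderiv ℝ π z : H →L[ℝ] E) : H →ₗ[ℝ] E) (α j)) = 0) {d : ℕ}
    (ih : ∀ j, ∀ q < d, evA _ q (pb (Tan X (π z)).subtype (α j)) = 0)
    (w : Fin d → Tan X (π z)) : pb (Tan (P ∩ π ⁻¹' {π z}) z).subtype
      (∑ j, evA _ d (pb (Tan X (π z)).subtype (α j)) w • ε j) = 0 := by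
  let A : Tan P z →ₗ[ℝ] Tan X (π z) :=
    (((fderiv ℝ π z : H →L[ℝ] E) : H →ₗ[ℝ] E) ∘ₗ (Tan P z).subtype).codRestrict _
      fun v => fderiv_mapsTo_Tan hπ hm v.2
  have hA : ∀ c, pb (Tan P z).subtype (pb ((fderiv ℝ π z : H →L[ℝ] E) : H →ₗ[ℝ] E) c) =
      pb A (pb (Tan X (π z)).subtype c) := fun c => by rw [pb_comp, pb_comp]; rfl
  choose v hv hv' using fun i => hs (w i) (w i).2
  refine ext_evA fun r => AlternatingMap.ext fun u => ?_
  have hu : ∀ i, (u i : H) ∈ Tan P z := fun i => Tan_mono_of_subset inter_subset_left z (u i).2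
  have hu0 : ∀ i, A ⟨u i, hu i⟩ = 0 := fun i => Subtype.ext (by
    have := fderiv_mapsTo_Tan (Y := {π z}) hπ (fun y hy => hy.2) (u i).2
    rwa [tan_singleton, Submodule.mem_bot] at this)
  have h1 := congrArg (fun c => evA _ (r + d) c
    (Fin.append (fun i => (⟨u i, hu i⟩ : Tan P z)) fun i => ⟨v i, hv i⟩)) h
  have hw : (fun i => A ⟨v i, hv i⟩) = w := funext fun i => Subtype.ext (hv' i)
  rw [map_sum, evA_sum] at h1
  simp only [map_mul, hA, map_zero, AlternatingMap.zero_apply,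
    evA_mul_pb A _ (ih _) _ _ _ hu0, hw] at h1
  rw [map_sum, evA_sum]
  simp only [map_smul, AlternatingMap.smul_apply, map_zero, AlternatingMap.zero_apply,
    smul_eq_mul]
  rw [← h1]
  refine Finset.sum_congr rfl fun j _ => ?_
  rw [mul_comm, evA_pb r, evA_pb r]
  rfl

/-- the hypotheses of the Leray-Hirsch theorem, except the spanning property -/
structure LH (p : ℕ) (P : Set H) (m : ℕ) (X : Set E) (π : H → E) (deg : ι → ℕ)
    (e : ι → H → Ext H) : Prop where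
  sub : Sub p P
  clo : Clo m X
  smooth : ContDiff ℝ ∞ π
  maps : MapsTo π P X
  subm : ∀ z ∈ P, ∀ w ∈ Tan X (π z), ∃ v ∈ Tan P z, fderiv ℝ π z v = w
  se : ∀ j, Sm P (e j)
  ce : ∀ j, Cl P (e j)
  he : ∀ j, Hom (deg j) (e j)
  ind : ∀ x ∈ X, ∀ c : ι → ℝ, Coh (P ∩ π ⁻¹' {x}) (∑ j, c j • e j) 0 → ∀ j, c j = 0

namespace LH

theorem opn (L : LH p P m X π deg e) {U : Set E} (hU : IsOpen U) : IsOpen (π ⁻¹' U) :=
  hU.preimage L.smooth.continuous

theorem smap (L : LH p P m X π deg e) (U : Set E) : SMap (P ∩ π ⁻¹' U) (X ∩ U) π :=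
  ⟨fun _ _ => L.smooth.contDiffAt, fun _ h => ⟨L.maps h.1, h.2⟩⟩

theorem sm_comb (L : LH p P m X π deg e) {U : Set E} {a : ι → E → Ext E}
    (ha : ∀ j, Sm (X ∩ U) (a j)) : Sm (P ∩ π ⁻¹' U) (∑ j, e j * pull π (a j)) :=
  sm_sum _ fun j _ => ((L.se j).mono inter_subset_left).mul ((ha j).pull (L.smap U))

theorem d_comb (L : LH p P m X π deg e) {U : Set E} {a : ι → E → Ext E}
    (ha : ∀ j, Sm (X ∩ U) (a j)) : Eqv (P ∩ π ⁻¹' U) (d (∑ j, e j * pull π (a j)))
      (∑ j, e j * pull π ((-1 : ℝ) ^ deg j • d (a j))) := by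
  have s1 := fun j => (L.se j).mono (X' := P ∩ π ⁻¹' U) inter_subset_left
  have s2 := fun j => (ha j).pull (L.smap U)
  refine Eqv.trans (b := ∑ j, d (e j * pull π (a j))) (Eqv.of_eq fun z hz => ?_)
    (eqv_sum _ fun j _ => (d_mul_eqv (s1 j) (s2 j)).trans ?_)
  · rw [Finset.sum_apply, ← d_sum _ fun j _ => ((s1 j).mul (s2 j)).diff hz]
    congr 1
    exact funext fun y => Finset.sum_apply _ _ _
  · have h := ((resZero_iff.1 ((L.ce j).mono (X' := P ∩ π ⁻¹' U) inter_subset_left)).mul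
      (Eqv.refl (pull π (a j)))).add
      ((Eqv.refl fun z => F.inv (e j z)).mul (d_pull_eqv (L.smap U) (ha j)))
    rw [zero_mul, zero_add] at h
    refine h.trans (Eqv.of_eq fun z _ => ?_)
    rw [pull_smul', mul_smul_comm, Pi.mul_apply, inv_of_isDeg (L.he j z), smul_mul_assoc]
    rfl

/-- pointwise independence -/
theorem indep (L : LH p P m X π deg e) {U : Set E} (hU : IsOpen U) {a : ι → E → Ext E}
    (h : Eqv (P ∩ π ⁻¹' U) (∑ j, e j * pull π (a j)) 0) (j : ι) : ResZero (X ∩ U) (a j) := by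
  intro x hx
  have key : ∀ d : ℕ, ∀ j, ∀ q < d, evA _ q (pb (Tan X x).subtype (a j x)) = 0 := by
    intro d
    induction d with
    | zero => exact fun _ _ h => absurd h (Nat.not_lt_zero _)
    | succ d ih =>
      intro j q hq
      rcases (Nat.lt_succ_iff.1 hq).lt_or_eq with hq | rfl
      · exact ih j q hq
      refine AlternatingMap.ext fun w => L.ind x hx.1
        (fun j => evA _ q (pb (Tan X x).subtype (a j x)) w) (Coh.of_eqv (resZero_iff.1 ?_)) j
      rintro z ⟨hz, rfl : π z = x⟩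
      have h1 := eqv_of_open (L.opn hU) h hz hx.2
      rw [Pi.zero_apply, map_zero, Finset.sum_apply] at h1
      rw [Finset.sum_apply]
      exact ind_pt (L.smooth.differentiable (by simp) z) L.maps (L.subm z hz) h1 ih w
  have h0 : pb (Tan X x).subtype (a j x) = 0 :=
    ext_evA fun q => by rw [key (q + 1) j q (Nat.lt_succ_self q), map_zero]
  have h1 : ∀ K : Submodule ℝ E, K = Tan X x → pb K.subtype (a j x) = 0 := by
    rintro K rfl; exact h0
  exact h1 _ (Tan_inter_open hU hx.2)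

theorem cl_of_comb (L : LH p P m X π deg e) {U : Set E} (hU : IsOpen U) {a : ι → E → Ext E}
    (ha : ∀ j, Sm (X ∩ U) (a j)) (h : Cl (P ∩ π ⁻¹' U) (∑ j, e j * pull π (a j))) (j : ι) :
    Cl (X ∩ U) (a j) := by
  have h1 := resZero_iff.1 (L.indep hU ((L.d_comb ha).symm.trans (resZero_iff.1 h)) j)
  have h2 := h1.smul ((-1 : ℝ) ^ deg j)
  rw [smul_zero, smul_smul, ← mul_pow, neg_one_mul, neg_neg, one_pow, one_smul] at h2
  exact resZero_iff.2 h2

/-- forms on `P` modulo `∑ e j ∧ π^* a j` -/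
def fine (L : LH p P m X π deg e) : Fine E (H → Ext H) where
  Sm U :=
    { carrier := {t | T.Sm (P ∩ π ⁻¹' U) t}
      zero_mem' := Sm.zero
      add_mem' := Sm.add
      neg_mem' := Sm.neg }
  Nu U :=
    { carrier := {t | ∃ a : ι → E → Ext E, (∀ j, T.Sm (X ∩ U) (a j)) ∧
        Eqv (P ∩ π ⁻¹' U) t (∑ j, e j * pull π (a j))}
      zero_mem' := ⟨0, fun _ => Sm.zero, by
        simp only [Pi.zero_apply, pull_zero', mul_zero, Finset.sum_const_zero]
        exact Eqv.refl _⟩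
      add_mem' := by
        rintro s t ⟨a, h1, h2⟩ ⟨b, h3, h4⟩
        refine ⟨a + b, fun j => (h1 j).add (h3 j), ?_⟩
        simp only [Pi.add_apply, pull_add', mul_add, Finset.sum_add_distrib]
        exact h2.add h4
      neg_mem' := by
        rintro s ⟨a, h1, h2⟩
        refine ⟨-a, fun j => (h1 j).neg, ?_⟩
        simp only [Pi.neg_apply, pull_neg', mul_neg, Finset.sum_neg_distrib]
        exact h2.neg }
  D := d
  mu χ := fm fun z => χ (π z)
  sm_mono hU _ ht := Sm.mono (inter_subset_inter_right _ (preimage_mono hU)) ht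
  nu_mono hU := by
    rintro t ⟨a, h1, h2⟩
    exact ⟨a, fun j => (h1 j).mono (inter_subset_inter_right _ hU),
      h2.mono_tan (inter_subset_inter_right _ (preimage_mono hU))⟩
  D_sm _ ht := Sm.d ht
  D_nu := by
    rintro U t hU ht ⟨a, h1, h2⟩
    exact ⟨_, fun j => (h1 j).d.smul _,
      (h2.d (L.sub.inter_open (L.opn hU)) ht (L.sm_comb h1)).trans (L.d_comb h1)⟩
  D_sub := fun {_ s t} _ hs ht => ⟨0, fun _ => Sm.zero, by
    simp only [Pi.zero_apply, pull_zero', mul_zero, Finset.sum_const_zero]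
    have := (d_sub_eqv hs ht).sub (Eqv.refl (d s - d t))
    rwa [sub_self] at this⟩
  DD _ ht := ⟨0, fun _ => Sm.zero, by
    simp only [Pi.zero_apply, pull_zero', mul_zero, Finset.sum_const_zero]
    exact resZero_iff.1 (d_d' ht)⟩
  mu_sm _ _ hχ ho ht := sm_fm_off (hχ.comp L.smooth)
    (fun z h1 h2 => L.smooth.continuous.continuousAt.eventually (ho _ h1 h2)) ht
  mu_nu := by
    rintro U U' χ t hU - hχ ho - ⟨a, h1, h2⟩
    refine ⟨fun j => fm χ (a j), fun j => sm_fm_off hχ ho (h1 j), (eqv_fm_off (L.opn hU)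
      (fun z h1 h2 => L.smooth.continuous.continuousAt.eventually (ho _ h1 h2)) h2).trans
      (Eqv.of_eq fun z _ => ?_)⟩
    simp only [fm, Finset.sum_apply, Finset.smul_sum, Pi.mul_apply, pull, map_smul, mul_smul_comm]
  mu_sub _ _ _ := funext fun _ => smul_sub _ _ _
  mu_one _ _ _ := ⟨0, fun _ => Sm.zero, by
    simp only [Pi.zero_apply, pull_zero', mul_zero, Finset.sum_const_zero]
    rw [fm_one, sub_self]
    exact Eqv.refl _⟩
  nu_empty _ _ := ⟨0, fun _ => Sm.zero, fun _ h => h.2.elim⟩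

/-- the spanning hypothesis over the small convex patches -/
def Span (P : Set H) (m : ℕ) (X : Set E) (π : H → E) (e : ι → H → Ext H) (V : Set E) : Prop :=
  ∀ (f : Eu m → E) (W : Set (Eu m)) (O : Set E) (ℓ : E → Eu m), Loc X f W O ℓ → O ⊆ V →
    Convex ℝ W → W.Nonempty → ∀ t, Sm (P ∩ π ⁻¹' O) t → Cl (P ∩ π ⁻¹' O) t →
      ∃ c : ι → ℝ, Coh (P ∩ π ⁻¹' O) t (∑ j, c j • e j)

theorem mul_pull_const (π : H → E) (b : H → Ext H) (κ : ℝ) :
    b * pull π (fun _ => algebraMap ℝ (Ext E) κ) = κ • b := funext fun z => by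
  rw [Pi.mul_apply, pull, AlgHom.commutes, ← Algebra.commutes, ← Algebra.smul_def, Pi.smul_apply]

theorem base (L : LH p P m X π deg e) {V : Set E} (hV : Span P m X π e V) :
    L.fine.BaseIn m X V := by
  rintro f W O ℓ h hOV hW hne t st ⟨a, sa, ha⟩
  replace st : Sm (P ∩ π ⁻¹' O) t := st
  replace ha : Eqv (P ∩ π ⁻¹' O) (d t) (∑ j, e j * pull π (a j)) := ha
  have hQ := L.sub.inter_open (L.opn h.oO)
  have ca := L.cl_of_comb h.oO sa (Cl.of_eqv hQ (L.sm_comb sa) st.d ha.symm (d_d' st))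
  choose κ γ sγ eγ using fun j => coh_const h hW hne (sa j) (ca j)
  have sγ' : ∀ j, Sm (X ∩ O) ((-1 : ℝ) ^ deg j • γ j) := fun j => (sγ j).smul _
  have s1 := st.sub (L.sm_comb sγ')
  have e1 : Eqv (P ∩ π ⁻¹' O) (d (t - ∑ j, e j * pull π ((-1 : ℝ) ^ deg j • γ j)))
      (∑ j, κ j • e j) := by
    refine (d_sub_eqv st (L.sm_comb sγ')).trans ((ha.sub (L.d_comb sγ')).trans ?_)
    rw [← Finset.sum_sub_distrib]
    refine eqv_sum _ fun j _ => ?_
    rw [← mul_sub, ← pull_sub', ← mul_pull_const π]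
    refine (Eqv.refl _).mul (Eqv.pull (L.smap O) ?_)
    have h1 := (Eqv.refl (a j)).sub ((d_smul_eqv ((-1 : ℝ) ^ deg j) (sγ j)).smul
      ((-1 : ℝ) ^ deg j))
    rw [smul_smul, ← mul_pow, neg_one_mul, neg_neg, one_pow, one_smul] at h1
    have h2 := (Eqv.refl (a j)).sub (eγ j).symm
    rw [sub_sub_cancel] at h2
    exact h1.trans h2
  obtain ⟨u₀, hu₀⟩ := hne
  have k0 := L.ind _ (h.mem hu₀).1 κ (((Coh.of_eqv e1.symm).trans (coh_d s1)).mono
    (inter_subset_inter_right _ (preimage_mono (singleton_subset_iff.2 (h.mem hu₀).2))))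
  simp only [k0, zero_smul, Finset.sum_const_zero] at e1
  obtain ⟨c, s, ss, hs⟩ := hV f W O ℓ h hOV hW ⟨u₀, hu₀⟩ _ s1 (resZero_iff.2 e1)
  refine ⟨s, ss, fun j => (-1 : ℝ) ^ deg j • γ j + fun _ => algebraMap ℝ (Ext E) (c j),
    fun j => (sγ' j).add fun _ _ => contDiffAt_const, ?_⟩
  simp only [pull_add', mul_add, Finset.sum_add_distrib, mul_pull_const]
  have := ((Eqv.refl t).sub hs.symm)
  rwa [sub_sub, sub_sub_cancel] at this

end LH

/-- **Leray-Hirsch** -/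
theorem leray_hirsch (L : LH p P m X π deg e)
    (hV : ∀ x ∈ X, ∃ V, IsOpen V ∧ x ∈ V ∧ LH.Span P m X π e V) {w : H → Ext H} (sw : Sm P w)
    (cw : Cl P w) : ∃ a : ι → E → Ext E, (∀ j, Sm X (a j)) ∧ (∀ j, Cl X (a j)) ∧
      Coh P w (∑ j, e j * pull π (a j)) := by
  obtain ⟨U, o, k, -, s, ss, a, sa, ha⟩ := Fine.ex_compact_loc (C := L.fine) L.clo.sub
    (fun x hx => (hV x hx).imp fun V h => ⟨h.1, h.2.1, L.base h.2.2⟩) L.clo.compact subset_rfl
    univ isOpen_univ (subset_univ _) w (sw.mono inter_subset_left)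
    ⟨0, fun _ => Sm.zero, by
      simp only [Pi.zero_apply, pull_zero', mul_zero, Finset.sum_const_zero]
      exact resZero_iff.1 (cw.mono inter_subset_left)⟩
  replace ss : Sm (P ∩ π ⁻¹' U) s := ss
  replace ha : Eqv (P ∩ π ⁻¹' U) (w - d s) (∑ j, e j * pull π (a j)) := ha
  have sw' : Sm (P ∩ π ⁻¹' U) w := sw.mono inter_subset_left
  have ca := L.cl_of_comb o sa (Cl.of_eqv (L.sub.inter_open (L.opn o)) (L.sm_comb sa)
    (sw'.sub ss.d) ha.symm (Cl.sub sw' ss.d (cw.mono inter_subset_left) (d_d' ss)))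
  have e1 : X ∩ U = X := inter_eq_left.2 k
  have e2 : P ∩ π ⁻¹' U = P := inter_eq_left.2 fun z hz => k (L.maps hz)
  rw [e1] at sa ca
  rw [e2] at ss ha
  refine ⟨a, sa, ca, s, ss, ?_⟩
  have := (Eqv.refl w).sub ha.symm
  rwa [sub_sub_cancel] at this

/-- spanning from a deformation retraction onto a subset -/
theorem span_of_retract {Q S : Set H} (hS : S ⊆ Q) {Fh : H × ℝ → H}
    (hF : ∀ z ∈ Q, ∀ s ∈ Icc (0 : ℝ) 1, ContDiffAt ℝ ∞ Fh (z, s))
    (hm : ∀ z ∈ Q, ∀ s ∈ Icc (0 : ℝ) 1, Fh (z, s) ∈ Q) (h1 : ∀ z ∈ Q, Fh (z, 1) = z)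
    (h0 : ∀ z ∈ Q, Fh (z, 0) ∈ S) {a b : H → Ext H} (sa : Sm Q a) (ca : Cl Q a) (sb : Sm Q b)
    (cb : Cl Q b) (h : Coh S a b) : Coh Q a b := by
  have hs : ∀ s ∈ Icc (0 : ℝ) 1, ∀ z ∈ Q, ContDiffAt ℝ ∞ (fun y => Fh (y, s)) z :=
    fun s hs z hz => (hF z hz s hs).comp z (contDiffAt_id.prodMk contDiffAt_const)
  have key : ∀ c, Sm Q c → Cl Q c → Coh Q c (pull (fun y => Fh (y, 0)) c) := fun c sc cc =>
    Coh.trans (Coh.of_eqv ((Eqv.of_eq fun x _ => (pull_id c x).symm).trans (eqv_pull_of_eq c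
      (fun _ _ => differentiableAt_id)
      (fun z hz => (hs 1 ⟨zero_le_one, le_rfl⟩ z hz).differentiableAt (by simp))
      fun z hz => (h1 z hz).symm))) (coh_homotopy hF hm sc cc)
  have _ := hS
  exact (key a sa ca).trans
    ((h.pull ⟨hs 0 ⟨le_rfl, zero_le_one⟩, h0⟩).trans (key b sb cb).symm)

section prod

variable {G : Type v} [NormedAddCommGroup G] [NormedSpace ℝ G] [FiniteDimensional ℝ G]
  {n : ℕ} {Y : Set G} {e : ι → E → Ext E}

theorem pull_slice_fst (y : G) (a : E → Ext E) :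
    pull (fun x => (x, y)) (pull (Prod.fst : E × G → E) a) = a := funext fun x => by
  rw [pull_comp (by fun_prop) differentiableAt_fst]
  exact pull_id a x

theorem smap_slice {S : Set G} {y : G} (hy : y ∈ Y) (hS : y ∈ S) :
    SMap X (X ×ˢ Y ∩ Prod.snd ⁻¹' S) fun x => (x, y) :=
  ⟨fun _ _ => contDiffAt_id.prodMk contDiffAt_const, fun _ hx => ⟨⟨hx, hy⟩, hS⟩⟩

theorem pull_comb (f : H → E) (c : ι → ℝ) (e : ι → E → Ext E) :
    pull f (∑ j, c j • e j) = ∑ j, c j • pull f (e j) := by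
  simp only [pull_sum', pull_smul']

/-- **Kuenneth** -/
theorem kunneth (hX : Sub m X) (hY : Clo n Y) (se : ∀ j, Sm X (e j)) (ce : ∀ j, Cl X (e j))
    (he : ∀ j, Hom (deg j) (e j)) (ind : ∀ c : ι → ℝ, Coh X (∑ j, c j • e j) 0 → ∀ j, c j = 0)
    (span : ∀ a, Sm X a → Cl X a → ∃ c : ι → ℝ, Coh X a (∑ j, c j • e j))
    {w : E × G → Ext (E × G)} (sw : Sm (X ×ˢ Y) w) (cw : Cl (X ×ˢ Y) w) :
    ∃ b : ι → G → Ext G, (∀ j, Sm Y (b j)) ∧ (∀ j, Cl Y (b j)) ∧
      Coh (X ×ˢ Y) w (∑ j, bx (e j) (b j)) := by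
  have L : LH (m + n) (X ×ˢ Y) n Y Prod.snd deg fun j => pull Prod.fst (e j) :=
    { sub := hX.prod hY.sub
      clo := hY
      smooth := contDiff_snd
      maps := fun _ h => h.2
      subm := by
        rintro ⟨x, y⟩ ⟨hx, hy⟩ w hw
        refine ⟨(0, w), ?_, ?_⟩
        · rw [Tan_prod hX hY.sub hx hy]
          exact ⟨Submodule.zero_mem _, hw⟩
        · rw [hasFDerivAt_snd.fderiv]; rfl
      se := fun j => (se j).pull smap_fst
      ce := fun j => (ce j).pull smap_fst (se j)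
      he := fun j => (he j).pull
      ind := fun y hy c h => ind c (by
        have := h.pull (smap_slice (X := X) hy (mem_singleton y))
        rwa [← pull_comb, pull_slice_fst, pull_zero'] at this) }
  refine leray_hirsch L (fun y _ => ⟨univ, isOpen_univ, mem_univ _, ?_⟩) sw cw
  rintro f W O ℓ h - hW ⟨u₀, hu₀⟩ t st ct
  have hs := smap_slice (X := X) (h.mem hu₀).1 (h.mem hu₀).2
  obtain ⟨c, hc⟩ := span _ (st.pull hs) (ct.pull hs st)
  have hm : ∀ z ∈ X ×ˢ Y ∩ Prod.snd ⁻¹' O, ∀ s ∈ Icc (0 : ℝ) 1, (1 - s) • u₀ + s • ℓ z.2 ∈ W :=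
    fun z hz s hs => hW hu₀ (h.maps _ hz.2) (sub_nonneg.2 hs.2) hs.1 (sub_add_cancel _ _)
  have s1 := fun j => (L.se j).mono (X' := X ×ˢ Y ∩ Prod.snd ⁻¹' O) inter_subset_left
  have hS : X ×ˢ ({f u₀} : Set G) ⊆ X ×ˢ Y ∩ Prod.snd ⁻¹' O := by
    rintro ⟨x, y⟩ ⟨hx, rfl : y = f u₀⟩
    exact hs.maps hx
  refine ⟨c, span_of_retract hS
    (Fh := fun q => (q.1.1, f ((1 - q.2) • u₀ + q.2 • ℓ q.1.2))) (fun z hz s hs => ?_)
    (fun z hz s hs => ⟨⟨hz.1.1, (h.mem (hm z hz s hs)).1⟩, (h.mem (hm z hz s hs)).2⟩)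
    (fun z hz => ?_) (fun z hz => ⟨hz.1.1, ?_⟩) st ct (sm_sum _ fun j _ => (s1 j).smul _)
    (cl_sum _ (fun j _ => (s1 j).smul _) fun j _ => Cl.smul _ (s1 j)
      ((L.ce j).mono inter_subset_left)) ?_⟩
  · refine ContDiffAt.prodMk (by fun_prop) ((h.fC' (hm z hz s hs)).comp (z, s)
      (ContDiffAt.add (by fun_prop) (contDiffAt_snd.smul ((h.lC' hz.2).comp (z, s) ?_))))
    fun_prop
  · simp only [sub_self, zero_smul, one_smul, zero_add, h.right_inv hz.1.2 hz.2]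
  · simp only [sub_zero, zero_smul, one_smul, add_zero, mem_singleton_iff]
  · have h1 := hc.pull (smap_fst (Y := ({f u₀} : Set G)))
    rw [pull_comb] at h1
    refine Coh.trans (Coh.of_eqv ?_) h1
    refine (Eqv.of_eq fun x _ => (pull_id t x).symm).trans ((eqv_pull_of_eq t
      (g := (fun x => (x, f u₀)) ∘ Prod.fst) (fun _ _ => differentiableAt_id)
      (fun _ _ => by fun_prop) fun z hz => Prod.ext rfl hz.2).trans (Eqv.of_eq fun z _ => ?_))
    rw [pull_comp differentiableAt_fst (by fun_prop)]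

/-- **Kuenneth** with dual bases -/
theorem PDB.kunneth {ι : Type} [Fintype ι] [DecidableEq ι] {deg : ι → ℕ} {o : E → Ext E}
    {e f : ι → E → Ext E} (h : PDB m X o deg e f) (hX : Clo m X) (ho : Ori m X o) (hY : Clo n Y)
    {w : E × G → Ext (E × G)} (sw : Sm (X ×ˢ Y) w) (cw : Cl (X ×ˢ Y) w) :
    ∃ b : ι → G → Ext G, (∀ j, Sm Y (b j)) ∧ (∀ j, Cl Y (b j)) ∧
      Coh (X ×ˢ Y) w (∑ j, bx (e j) (b j)) :=
  PD.kunneth hX.sub hY h.se h.ce h.he (fun _ hc => h.indep hX ho hc)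
    (fun a sa ca => ⟨_, h.span a sa ca⟩) sw cw

end prod

end Crest.Agent.X262.PD
end
end

-- ▼ part X262/PD/Cx

/-!
# Row 262, PD (helper97): Poincare duality, Fubini, Kuenneth and the diagonal for even classes

* `finite_H`, `nondeg_H` : Poincare duality for `CW.H X`;
* `IsProd` : `(p, q) : Z → X × Y` is an oriented diffeomorphism;  `IsProd.integ_mul` (Fubini),
  `IsProd.span` (Kuenneth), `IsProd.diag` (the class of the diagonal).
-/

set_option autoImplicit false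
set_option linter.unusedSectionVars false

open MeasureTheory Set Filter Topology Module
open scoped ContDiff
open Crest.Agent.R208 Crest.Agent.R208.F Crest.Agent.R208.FI Crest.Agent.R208.T
open Crest.Agent.R208.CW (SMap integ)

noncomputable section

namespace Crest.Agent.X262.PD

universe u v

section one

variable {E : Type u} [NormedAddCommGroup E] [NormedSpace ℝ E] [FiniteDimensional ℝ E]
  {n : ℕ} {X : Set E} {o a b : E → Ext E}

theorem dpl_inv (j : ℕ) (c : Ext E) : dpl j (F.inv c) = (-1 : ℝ) ^ j • dpl j c := by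
  refine ext_lin (f := dpl j ∘ₗ (F.inv : Ext E →ₐ[ℝ] Ext E).toLinearMap)
    (g := (-1 : ℝ) ^ j • dpl j) (fun p l => ?_) c
  simp only [LinearMap.comp_apply, AlgHom.toLinearMap_apply, LinearMap.smul_apply]
  rw [PD.inv_of_isDeg (IsDeg.iMulti l), map_smul]
  by_cases h : p = j
  · subst h; rfl
  · rw [dpl_iMulti_ne h, smul_zero, smul_zero]

/-- odd forms have integral zero in even dimension -/
theorem J_odd (hX : Clo n X) (hn : Even n) (h : ∀ x, F.inv (a x) = -a x) : J n X o a = 0 := by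
  rw [← J_dp hX, ← J_zero' (n := n) (X := X) (o := o)]
  congr 1
  funext x
  have h1 := dpl_inv n (a x)
  rw [h, map_neg, hn.neg_one_pow, one_smul, neg_eq_iff_add_eq_zero, ← two_smul ℝ] at h1
  exact (smul_eq_zero.1 h1).resolve_left two_ne_zero

/-- the even part -/
def ev (a : E → Ext E) : E → Ext E := (2⁻¹ : ℝ) • (a + fun x => F.inv (a x))

/-- the odd part -/
def od (a : E → Ext E) : E → Ext E := (2⁻¹ : ℝ) • (a - fun x => F.inv (a x))

theorem ev_add_od (a : E → Ext E) : ev a + od a = a := by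
  rw [ev, od, ← smul_add, add_add_sub_cancel, ← two_smul ℝ, smul_smul, inv_mul_cancel₀ two_ne_zero,
    one_smul]

theorem inv_ev (a : E → Ext E) (x : E) : F.inv (ev a x) = ev a x := by
  simp only [ev, Pi.smul_apply, Pi.add_apply, map_smul, map_add, F.inv_inv, add_comm]

theorem inv_od (a : E → Ext E) (x : E) : F.inv (od a x) = -od a x := by
  simp only [od, Pi.smul_apply, Pi.sub_apply, map_smul, map_sub, F.inv_inv, ← smul_neg, neg_sub]

theorem ev_of_even (h : ∀ x, F.inv (a x) = a x) : ev a = a := by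
  rw [ev, funext h, ← two_smul ℝ, smul_smul, inv_mul_cancel₀ two_ne_zero, one_smul]

theorem ev_of_odd (h : ∀ x, F.inv (a x) = -a x) : ev a = 0 := by
  rw [ev, funext h]
  exact (congrArg _ (add_neg_cancel a)).trans (smul_zero _)

theorem ev_add (a b : E → Ext E) : ev (a + b) = ev a + ev b := funext fun x => by
  simp only [ev, Pi.smul_apply, Pi.add_apply, map_add, smul_add]
  abel

theorem ev_smul (r : ℝ) (a : E → Ext E) : ev (r • a) = r • ev a := funext fun x => by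
  simp only [ev, Pi.smul_apply, Pi.add_apply, map_smul, ← smul_add, smul_comm r]

theorem ev_sum {ι : Type*} (s : Finset ι) (w : ι → E → Ext E) :
    ev (∑ i ∈ s, w i) = ∑ i ∈ s, ev (w i) := funext fun x => by
  simp only [ev, Pi.smul_apply, Pi.add_apply, Finset.sum_apply, map_sum, ← Finset.smul_sum,
    Finset.sum_add_distrib]

theorem ec_ev (sa : Sm X a) (ca : Cl X a) : EC X (ev a) :=
  ⟨inv_ev a, (sa.add sa.inv).smul _,
    Cl.smul _ (sa.add sa.inv) (Cl.add sa sa.inv ca (cl_inv sa ca))⟩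

theorem sm_od (sa : Sm X a) : Sm X (od a) := (sa.sub sa.inv).smul _

theorem cl_od (sa : Sm X a) (ca : Cl X a) : Cl X (od a) :=
  Cl.smul _ (sa.sub sa.inv) (Cl.sub sa sa.inv ca (cl_inv sa ca))

theorem coh_inv (h : Coh X a b) : Coh X (fun x => F.inv (a x)) fun x => F.inv (b x) := by
  obtain ⟨ξ, h1, h2⟩ := h
  refine ⟨-fun x => F.inv (ξ x), h1.inv.neg, eqv_iff.2 fun x hx => ?_⟩
  rw [d_neg', Pi.neg_apply, CW.d_inv (h1.diff hx), neg_neg, pb_inv, ← eqv_iff.1 h2 x hx, ← pb_inv,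
    Pi.sub_apply, Pi.sub_apply, map_sub F.inv]

theorem coh_ev (h : Coh X a b) : Coh X (ev a) (ev b) := (h.add (coh_inv h)).smul _

theorem integ_rcl (hX : Clo n X) (ho : Ori n X o) (ha : EC X a) :
    integ hX ho (rcl ha) = J n X o a :=
  (CW.integ_cls hX ho _).trans (Complex.ext rfl J_zero')

/-- induction on classes -/
theorem H_ind {P : CW.H X → Prop} (h1 : ∀ a (ha : EC X a), P (rcl ha))
    (h2 : ∀ x y, P x → P y → P (x + y)) (h3 : ∀ (c : ℂ) x, P x → P (c • x)) (x : CW.H X) :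
    P x := by
  obtain ⟨a, b, ha, hb, rfl⟩ := exists_rcl x
  exact h2 _ _ (h1 a ha) (h3 _ _ (h1 b hb))

/-- **finite dimensionality** -/
theorem finite_H (hX : Clo n X) (ho : Ori n X o) : FiniteDimensional ℂ (CW.H X) := by
  obtain ⟨N, deg, e, f, h⟩ := exists_pdb hX ho
  have he := fun i => ec_ev (h.se i) (h.ce i)
  refine Module.finite_def.2 (Submodule.fg_def.2 ⟨_, finite_range fun i => rcl (he i), ?_⟩)
  refine eq_top_iff.2 fun x _ => H_ind (fun a ha => ?_) (fun _ _ => add_mem)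
    (fun c _ => Submodule.smul_mem _ c) x
  have h1 := coh_ev (h.span a ha.sm ha.cl)
  rw [ev_of_even ha.inv, ev_sum] at h1
  simp only [ev_smul] at h1
  rw [rcl_congr ha (EC.sum fun i _ => (he i).smul _) h1, rcl_sum _ fun i => (he i).smul _]
  exact Submodule.sum_mem _ fun i _ => by
    rw [rcl_smul _ (he i)]
    exact Submodule.smul_mem _ _ (Submodule.subset_span ⟨i, rfl⟩)

theorem coh_zero_of_even (hX : Clo n X) (ho : Ori n X o) (hn : Even n) (ha : EC X a)
    (h : ∀ φ, EC X φ → J n X o (a * φ) = 0) : Coh X a 0 :=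
  pd_inj hX ho ha.sm fun φ sφ cφ => by
    rw [← ev_add_od φ, mul_add, J_add' hX ho (ha.sm.mul (ec_ev sφ cφ).sm) (ha.sm.mul (sm_od sφ)),
      h _ (ec_ev sφ cφ), zero_add]
    exact J_odd hX hn fun x => by
      rw [Pi.mul_apply, map_mul, ha.inv, inv_od, mul_neg]

/-- **Poincare duality** for even classes -/
theorem nondeg_H (hX : Clo n X) (ho : Ori n X o) (hn : Even n) {x : CW.H X}
    (h : ∀ y, integ hX ho (x * y) = 0) : x = 0 := by
  obtain ⟨a, b, ha, hb, rfl⟩ := exists_rcl x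
  have key : ∀ φ, EC X φ → J n X o (a * φ) = 0 ∧ J n X o (b * φ) = 0 := fun φ hφ => by
    have := h (rcl hφ)
    rw [add_mul, smul_mul_assoc, ← rcl_mul, ← rcl_mul, map_add, map_smul, integ_rcl, integ_rcl,
      smul_eq_mul] at this
    exact ⟨by simpa using congrArg Complex.re this, by simpa using congrArg Complex.im this⟩
  rw [(rcl_eq_zero_iff ha).2 (coh_zero_of_even hX ho hn ha fun φ hφ => (key φ hφ).1),
    (rcl_eq_zero_iff hb).2 (coh_zero_of_even hX ho hn hb fun φ hφ => (key φ hφ).2), smul_zero,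
    add_zero]

/-- closed odd forms -/
structure OC (X : Set E) (a : E → Ext E) : Prop where
  inv : ∀ x, F.inv (a x) = -a x
  sm : Sm X a
  cl : Cl X a

theorem OC.pull {G : Type v} [NormedAddCommGroup G] [NormedSpace ℝ G] [FiniteDimensional ℝ G]
    {Y : Set G} {f : G → E} (h : OC X a) (hf : SMap Y X f) : OC Y (pull f a) :=
  ⟨fun x => by rw [F.pull, ← pb_inv, h.inv, map_neg], h.sm.pull hf, h.cl.pull hf h.sm⟩

theorem OC.mul (ha : OC X a) (hb : OC X b) : EC X (a * b) :=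
  ⟨fun x => by rw [Pi.mul_apply, map_mul, ha.inv, hb.inv, neg_mul_neg], ha.sm.mul hb.sm,
    Cl.mul ha.sm hb.sm ha.cl hb.cl⟩

theorem oc_od (sa : Sm X a) (ca : Cl X a) : OC X (od a) := ⟨inv_od a, sm_od sa, cl_od sa ca⟩

end one

variable {E : Type} [NormedAddCommGroup E] [NormedSpace ℝ E] [FiniteDimensional ℝ E]
  {G : Type} [NormedAddCommGroup G] [NormedSpace ℝ G] [FiniteDimensional ℝ G]
  {H : Type} [NormedAddCommGroup H] [NormedSpace ℝ H] [FiniteDimensional ℝ H]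
  {k m n : ℕ} {Z : Set H} {X : Set E} {Y : Set G} {oZ : H → Ext H} {oX : E → Ext E}
  {oY : G → Ext G} {p : H → E} {q : H → G}

theorem eqv_pull_pull {f : H → E} {g : E → G} (hf : SMap Z X f) (hg : SMap X Y g) {h : H → G}
    (hh : SMap Z Y h) (e : ∀ z ∈ Z, g (f z) = h z) (b : G → Ext G) :
    Eqv Z (pull f (pull g b)) (pull h b) :=
  (Eqv.of_eq fun _ hz => pull_comp (hf.diff hz) (hg.diff (hf.maps hz))).trans
    (eqv_pull_of_eq b (fun _ hz => (hg.comp hf).diff hz) (fun _ hz => hh.diff hz) e)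

/-- a bijective immersion induces a surjection on closed forms -/
theorem exists_pull_of_bij (hZ : Clo k Z) (hf : SMap Z X p) (hb : BijOn p Z X)
    (hi : ∀ z ∈ Z, ∀ v ∈ Tan Z z, fderiv ℝ p z v = 0 → v = 0) {w : H → Ext H} (sw : Sm Z w)
    (cw : Cl Z w) : ∃ θ, Sm X θ ∧ Cl X θ ∧ Eqv Z (pull p θ) w := by
  have h : Van.Par k Z X p ∅ :=
    { clo := hZ
      smap := hf
      injOn := hb.injOn.mono sdiff_subset
      imm := fun z hz _ v hv h0 => hi z hz v hv h0 }
  obtain ⟨θ, h1, -, h2⟩ := h.exists_push isClosed_empty sw (by simp [Van.EqN])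
  have sθ : Sm X θ := fun _ _ => h1.contDiffAt
  refine ⟨θ, sθ, fun x hx => ?_, h2⟩
  obtain ⟨z, hz, rfl⟩ := hb.surjOn hx
  have h3 : ResZero Z (pull p (d θ)) := resZero_iff.2 ((d_pull_eqv hf sθ).symm.trans
    (resZero_iff.1 (Cl.of_eqv hZ.sub (sθ.pull hf) sw h2 cw)))
  have h4 := h.rt_eq_zero isClosed_empty hz (notMem_empty _) (h3 z hz)
  rwa [preimage_empty, sdiff_empty, hb.image_eq] at h4

/-- `(p, q) : Z → X × Y` is an oriented diffeomorphism -/
structure IsProd (k : ℕ) (Z : Set H) (oZ : H → Ext H) (m : ℕ) (X : Set E) (oX : E → Ext E)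
    (n : ℕ) (Y : Set G) (oY : G → Ext G) (p : H → E) (q : H → G) : Prop where
  dim : k = m + n
  cZ : Clo k Z
  cX : Clo m X
  cY : Clo n Y
  oriZ : Ori k Z oZ
  oriX : Ori m X oX
  oriY : Ori n Y oY
  sp : SMap Z X p
  sq : SMap Z Y q
  bij : BijOn (fun z => (p z, q z)) Z (X ×ˢ Y)
  imm : ∀ z ∈ Z, ∀ v ∈ Tan Z z, fderiv ℝ p z v = 0 → fderiv ℝ q z v = 0 → v = 0
  ori : ∀ a, J k Z oZ a = J k Z (pull p oX * pull q oY) a


namespace IsProd

variable (h : IsProd k Z oZ m X oX n Y oY p q)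
include h

theorem smap : SMap Z (X ×ˢ Y) fun z => (p z, q z) :=
  ⟨fun z hz => (h.sp.smooth z hz).prodMk (h.sq.smooth z hz), h.bij.mapsTo⟩

theorem eqv_bx (a : E → Ext E) (b : G → Ext G) :
    Eqv Z (pull (fun z => (p z, q z)) (bx a b)) (pull p a * pull q b) :=
  Eqv.of_eq fun _ hz => pull_bx (h.sp.diff hz) (h.sq.diff hz) a b

/-- **Fubini** for forms -/
theorem J_mul {a : E → Ext E} {b : G → Ext G} (ha : Sm X a) (hb : Sm Y b) :
    J k Z oZ (pull p a * pull q b) = J m X oX a * J n Y oY b := by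
  have hP := h.cX.prod h.cY
  have hZ := h.cZ
  have hd := h.dim
  subst hd
  rw [← J_bx h.cX h.cY h.oriX h.oriY ha hb, h.ori, ← J_pull hZ hP (fun _ hz => h.smap.diff hz)
    h.bij (ori_bx h.cX h.cY h.oriX h.oriY) (cont_of_sm (sm_bx ha hb)), J_eqv hZ (h.eqv_bx a b)]
  refine setIntegral_congr_fun hZ.measurableSet ?_
  rintro _ ⟨z, hz, rfl⟩
  simp only [ContinuousLinearEquiv.symm_apply_apply, dens]
  rw [pull_bx (h.sp.diff hz) (h.sq.diff hz)]
  rfl

/-- **Kuenneth** for forms -/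
theorem kun {ι : Type} [Fintype ι] [DecidableEq ι] {deg : ι → ℕ} {e f : ι → E → Ext E}
    (hb : PDB m X oX deg e f) {w : H → Ext H} (sw : Sm Z w) (cw : Cl Z w) :
    ∃ b : ι → G → Ext G, (∀ j, Sm Y (b j)) ∧ (∀ j, Cl Y (b j)) ∧
      Coh Z w (∑ j, pull p (e j) * pull q (b j)) := by
  obtain ⟨θ, sθ, cθ, hθ⟩ := exists_pull_of_bij h.cZ h.smap h.bij (fun z hz v hv h0 => by
    rw [(h.sp.diff hz).fderiv_prodMk (h.sq.diff hz)] at h0
    exact h.imm z hz v hv (congrArg Prod.fst h0) (congrArg Prod.snd h0)) sw cw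
  obtain ⟨b, sb, cb, h1⟩ := hb.kunneth h.cX h.oriX h.cY sθ cθ
  refine ⟨b, sb, cb, (Coh.of_eqv hθ.symm).trans ((h1.pull h.smap).trans (Coh.of_eqv ?_))⟩
  rw [pull_sum']
  exact eqv_sum _ fun j _ => h.eqv_bx _ _

/-- **Fubini** -/
theorem integ_mul (a : CW.H X) (b : CW.H Y) :
    integ h.cZ h.oriZ (CW.H.map h.sp a * CW.H.map h.sq b) =
      integ h.cX h.oriX a * integ h.cY h.oriY b := by
  induction a using H_ind with
  | h2 x y hx hy => simp only [map_add, add_mul, hx, hy]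
  | h3 c x hx => simp only [map_smul, smul_mul_assoc, hx]
  | h1 a ha =>
    induction b using H_ind with
    | h2 x y hx hy => simp only [map_add, mul_add, hx, hy]
    | h3 c x hx => simp only [map_smul, mul_smul_comm, hx]
    | h1 b hb =>
      rw [← rcl_pull, ← rcl_pull, ← rcl_mul, integ_rcl, integ_rcl, integ_rcl, h.J_mul ha.sm hb.sm,
        Complex.ofReal_mul]

/-- products of odd classes pair trivially with products of even classes -/
theorem integ_odd (hm : Even m) (a : CW.H X) (b : CW.H Y) {u : E → Ext E} {u' : G → Ext G}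
    (hu : OC X u) (hu' : OC Y u') :
    integ h.cZ h.oriZ (CW.H.map h.sp a * CW.H.map h.sq b *
      rcl ((hu.pull h.sp).mul (hu'.pull h.sq))) = 0 := by
  induction a using H_ind with
  | h2 x y hx hy => simp only [map_add, add_mul, hx, hy, add_zero]
  | h3 c x hx => simp only [map_smul, smul_mul_assoc, hx, smul_zero]
  | h1 a ha =>
    induction b using H_ind with
    | h2 x y hx hy => simp only [map_add, mul_add, add_mul, hx, hy, add_zero]
    | h3 c x hx => simp only [map_smul, mul_smul_comm, smul_mul_assoc, hx, smul_zero]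
    | h1 b hb =>
      have e : pull p a * pull q b * (pull p u * pull q u') = pull p (a * u) * pull q (b * u') := by
        have : pull q b * pull p u = pull p u * pull q b :=
          funext fun z => CW.even_comm ((hb.pull h.sq).inv z) _
        rw [pull_mul', pull_mul', mul_assoc, ← mul_assoc (pull q b), this]
        simp only [mul_assoc]
      rw [← rcl_pull, ← rcl_pull, ← rcl_mul, ← rcl_mul, integ_rcl, e,
        h.J_mul (ha.sm.mul hu.sm) (hb.sm.mul hu'.sm), J_odd h.cX hm (a := a * u) fun x => by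
          rw [Pi.mul_apply, map_mul, ha.inv, hu.inv, mul_neg], zero_mul, Complex.ofReal_zero]

/-- **Kuenneth** : induction on the classes of a product -/
theorem ind {P : CW.H Z → Prop} (h0 : P 0)
    (h1 : ∀ a b, P (CW.H.map h.sp a * CW.H.map h.sq b))
    (h1' : ∀ u u' (hu : OC X u) (hu' : OC Y u'), P (rcl ((hu.pull h.sp).mul (hu'.pull h.sq))))
    (h2 : ∀ x y, P x → P y → P (x + y)) (h3 : ∀ (c : ℂ) x, P x → P (c • x)) (x : CW.H Z) :
    P x := by
  refine H_ind (fun w hw => ?_) h2 h3 x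
  obtain ⟨N, deg, e, f, hb⟩ := exists_pdb h.cX h.oriX
  obtain ⟨b, sb, cb, h4⟩ := h.kun hb hw.sm hw.cl
  have E1 := fun j => ((ec_ev (hb.se j) (hb.ce j)).pull h.sp).mul ((ec_ev (sb j) (cb j)).pull h.sq)
  have E2 := fun j => ((oc_od (hb.se j) (hb.ce j)).pull h.sp).mul ((oc_od (sb j) (cb j)).pull h.sq)
  have h5 := coh_ev h4
  have h6 : ∀ j, ev (pull p (e j) * pull q (b j)) =
      pull p (ev (e j)) * pull q (ev (b j)) + pull p (od (e j)) * pull q (od (b j)) := fun j => by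
    conv_lhs => rw [← ev_add_od (e j), ← ev_add_od (b j), pull_add', pull_add', add_mul, mul_add,
      mul_add, ev_add, ev_add, ev_add]
    rw [ev_of_even (E1 j).inv, ev_of_even (E2 j).inv,
      ev_of_odd (a := pull p (od (e j)) * pull q (ev (b j))) fun z => by
        rw [Pi.mul_apply, map_mul, ((oc_od (hb.se j) (hb.ce j)).pull h.sp).inv,
          ((ec_ev (sb j) (cb j)).pull h.sq).inv, neg_mul],
      ev_of_odd (a := pull p (ev (e j)) * pull q (od (b j))) fun z => by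
        rw [Pi.mul_apply, map_mul, ((oc_od (sb j) (cb j)).pull h.sq).inv,
          ((ec_ev (hb.se j) (hb.ce j)).pull h.sp).inv, mul_neg], add_zero, zero_add]
  rw [ev_of_even hw.inv, ev_sum] at h5
  simp only [h6] at h5
  rw [rcl_congr hw (EC.sum fun j _ => (E1 j).add (E2 j)) h5, rcl_sum _ fun j => (E1 j).add (E2 j)]
  refine Finset.sum_induction _ P h2 h0 fun j _ => ?_
  rw [rcl_add (E1 j) (E2 j)]
  refine h2 _ _ ?_ (h1' _ _ (oc_od (hb.se j) (hb.ce j)) (oc_od (sb j) (cb j)))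
  rw [rcl_mul ((ec_ev (hb.se j) (hb.ce j)).pull h.sp) ((ec_ev (sb j) (cb j)).pull h.sq),
    rcl_pull h.sp (ec_ev (hb.se j) (hb.ce j)), rcl_pull h.sq (ec_ev (sb j) (cb j))]
  exact h1 _ _

end IsProd

section diag

variable {E' : Type} [NormedAddCommGroup E'] [NormedSpace ℝ E'] [FiniteDimensional ℝ E']
  {G' : Type} [NormedAddCommGroup G'] [NormedSpace ℝ G'] [FiniteDimensional ℝ G']
  {H' : Type} [NormedAddCommGroup H'] [NormedSpace ℝ H'] [FiniteDimensional ℝ H']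
  {k' m' n' : ℕ} {Z' : Set H'} {X' : Set E'} {Y' : Set G'} {oZ' : H' → Ext H'}
  {oX' : E' → Ext E'} {oY' : G' → Ext G'} {p' : H' → E'} {q' : H' → G'}
  {μ : E' → E} {ν : G' → G} {ρ : H' → H}

/-- **the push-forward of a product is the product of the push-forwards** -/
theorem IsProd.push (h : IsProd k Z oZ m X oX n Y oY p q)
    (h' : IsProd k' Z' oZ' m' X' oX' n' Y' oY' p' q') (hm : Even m) (hm' : Even m')
    (hμ : SMap X' X μ) (hν : SMap Y' Y ν) (hρ : SMap Z' Z ρ) (e1 : ∀ z ∈ Z', p (ρ z) = μ (p' z))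
    (e2 : ∀ z ∈ Z', q (ρ z) = ν (q' z)) {a : CW.H X'} {b : CW.H Y'} {A : CW.H X} {B : CW.H Y}
    (hA : ∀ y, integ h.cX h.oriX (A * y) = integ h'.cX h'.oriX (a * CW.H.map hμ y))
    (hB : ∀ y, integ h.cY h.oriY (B * y) = integ h'.cY h'.oriY (b * CW.H.map hν y))
    (z : CW.H Z) :
    integ h'.cZ h'.oriZ (CW.H.map h'.sp a * CW.H.map h'.sq b * CW.H.map hρ z) =
      integ h.cZ h.oriZ (CW.H.map h.sp A * CW.H.map h.sq B * z) := by
  induction z using h.ind with
  | h0 => simp only [map_zero, mul_zero]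
  | h2 x y hx hy => simp only [map_add, mul_add, hx, hy]
  | h3 c x hx => simp only [map_smul, mul_smul_comm, hx]
  | h1 x y =>
    rw [map_mul (CW.H.map hρ), CW.H.map_map, CW.H.map_map,
      CW.H.map_congr' h'.cZ.sub (h.sp.comp hρ) (hμ.comp h'.sp) e1,
      CW.H.map_congr' h'.cZ.sub (h.sq.comp hρ) (hν.comp h'.sq) e2, ← CW.H.map_map hμ h'.sp,
      ← CW.H.map_map hν h'.sq, mul_mul_mul_comm, ← map_mul, ← map_mul, h'.integ_mul,
      mul_mul_mul_comm, ← map_mul, ← map_mul, h.integ_mul, hA, hB]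
  | h1' u u' hu hu' =>
    rw [h.integ_odd hm _ _ hu hu', ← rcl_pull,
      rcl_congr _ (((hu.pull hμ).pull h'.sp).mul ((hu'.pull hν).pull h'.sq)),
      h'.integ_odd hm' _ _ (hu.pull hμ) (hu'.pull hν)]
    rw [pull_mul']
    exact Coh.of_eqv (((eqv_pull_pull hρ h.sp (hμ.comp h'.sp) e1 u).trans
      (eqv_pull_pull h'.sp hμ (hμ.comp h'.sp) (fun _ _ => rfl) u).symm).mul
      ((eqv_pull_pull hρ h.sq (hν.comp h'.sq) e2 u').trans
      (eqv_pull_pull h'.sq hν (hν.comp h'.sq) (fun _ _ => rfl) u').symm))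

/-- **the class of the diagonal** -/
theorem IsProd.diag {q : H → E} {ν : G' → E} {δ : E → H} (h : IsProd k Z oZ m X oX m X oX p q)
    (h' : IsProd k' Z' oZ' m' X' oX' n' Y' oY' p' q') (hm : Even m) (hm' : Even m')
    (hμ : SMap X' X μ) (hν : SMap Y' X ν) (hρ : SMap Z' Z ρ) (e1 : ∀ z ∈ Z', p (ρ z) = μ (p' z))
    (e2 : ∀ z ∈ Z', q (ρ z) = ν (q' z)) (hδ : SMap X Z δ) (d1 : ∀ x ∈ X, p (δ x) = x)
    (d2 : ∀ x ∈ X, q (δ x) = x) {a : CW.H X'} {b : CW.H Y'} {A B : CW.H X} {D : CW.H Z}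
    (hA : ∀ y, integ h.cX h.oriX (A * y) = integ h'.cX h'.oriX (a * CW.H.map hμ y))
    (hB : ∀ y, integ h.cX h.oriX (B * y) = integ h'.cY h'.oriY (b * CW.H.map hν y))
    (hD : ∀ z, integ h.cZ h.oriZ (D * z) = integ h.cX h.oriX (CW.H.map hδ z)) :
    integ h'.cZ h'.oriZ (CW.H.map h'.sp a * CW.H.map h'.sq b * CW.H.map hρ D) =
      integ h.cX h.oriX (A * B) := by
  rw [h.push h' hm hm' hμ hν hρ e1 e2 hA hB, mul_comm, hD, map_mul, CW.H.map_map, CW.H.map_map,
    CW.H.map_congr' h.cX.sub (h.sp.comp hδ) (SMap.id X) d1,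
    CW.H.map_congr' h.cX.sub (h.sq.comp hδ) (SMap.id X) d2, CW.H.map_id, CW.H.map_id]

end diag

end Crest.Agent.X262.PD
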