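import Crest.Agent.X262.Gc84.Inv
import Crest.Agent.X262.Hb64.Rep
import Crest.Agent.X262.Gwb59.Ax
import Crest.Agent.X262.Bl53.Defs
import Crest.Agent.X262.Hb64.Pt
import Crest.Agent.X262.Lh39.Bun
import Crest.Agent.X262.Blow.Mod
import Crest.Agent.X262.Chn.Defs
import Crest.Agent.X262.Blow.PB
import Crest.Agent.X262.Geo.Dv
import Crest.Agent.X262.Gwb59.Defs
import Crest.Agent.X262.End36.Emb
import Crest.Agent.X262.Hb64.Dict
import Crest.Agent.X262.Emb11.Defs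
import Crest.Agent.X262.End66.Rx
import Crest.Agent.X262.PD.Prd
import Crest.Agent.X262.Hb.DiagD
import Crest.Agent.X262.Vb.Bas0
import Crest.Agent.X262.Hb64.Main
import Crest.Agent.X262.Form88.Main
import Crest.Agent.X262.Syz.Emb
import Crest.Agent.X262.Hb.Dgc
import Crest.Agent.X262.Tr89.Pb
import Crest.Agent.X262.Tr89.Ex
import Crest.Agent.X262.Ends.Rees
import Crest.Agent.X262.Wd54.Gx
import Crest.Agent.X262.Syz.Eqn2
import Crest.Agent.X262.Am12.Main

-- ▼ part X262/Gc84/Stmt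
section

/-!
# Row 262, road B (helper84): the body of `Gwb.GcStmt` (use `(gcStmt : Gwb.GcStmt)`)
-/

set_option autoImplicit false

namespace Crest.Agent.X262.Gc84

open Crest.Agent.X262.Ult

theorem gcStmt :
  ∀ {J H : Type} [Fintype J] [DecidableEq J] [CommRing H] [Algebra ℂ H] (Q : Hyc ℂ J H)
    (A : Submodule ℂ H) (h : J → H) (jA jG jS : J) (e : H),
    (∀ j, Q.IsDiv (h j) fun d => (d j : ℂ)) → (∀ j, h j ∈ A) → 1 ∈ A →
    (∀ d l, In A l → 2 ≤ Multiset.card l → Q.op d l ∈ A) →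
    IsNilpotent (h jS) → IsNilpotent (h jA) → h jG * h jG = h jS * h jG → h jA * e = 0 →
    Q.IsLin e (fun d => d jA = 0) → (∀ a ∈ A, e * a ∈ Me ℂ (h jS) (h jG) e) →
    (∃ d : J →₀ ℕ, d jA = 0 ∧ d jS = 0 ∧ d jG = 1 ∧ ∃ y t : ℂ, y ≠ 0 ∧
      ∃ z ∈ Me ℂ (h jS) (h jG) e,
        Q.op d ((h jG * e) ::ₘ h jG ::ₘ 0) = y • e + t • (h jG * e) + h jS * z) →
    (∀ d l, d jS = 0 → d jG = 0 → In A l → l ≠ 0 →
      Q.op d ((h jG * e) ::ₘ l) ∈ Me ℂ (h jS) (h jG) e) →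
    ∀ d l, d jS = 0 → In A l → l ≠ 0 → ∀ x ∈ Me ℂ (h jS) (h jG) e,
      Q.op d (x ::ₘ l) ∈ Me ℂ (h jS) (h jG) e :=
  fun _ _ _ _ _ _ _ dv hA h1 opA nS nD GG De lin kill num fin d l hS hl hl0 =>
    gc_inv dv hA h1 opA nS nD GG De (fun d l a _ _ _ x _ => lin d a x l) kill num
      (fun d l a b c c' => fin d l b a c c') d l hS hl hl0

end Crest.Agent.X262.Gc84
end

-- ▼ part X262/Supj77/Main
section

/-!
# Row 262, (BL) (helper77): the support axiom of the invariants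

* `supj` : `Bl53.SUPJ V.gw` for the evaluation `Hb64.inst C`.
-/

set_option autoImplicit false

noncomputable section

namespace Crest.Agent.X262.Supj77

open Crest.Agent.X277 Crest.Agent.X277.Lef Crest.Agent.X277.AN.G1 Crest.Agent.X277.BD
  Crest.Agent.X277.BD.Br Crest.Agent.X262.Coh
open Crest.Agent.X262.Gwb
open Crest.Agent.X262.Vb (Pnt NZ TreePts)
open Crest.Agent.X262.Qn (tree_nz tree_on)

/-- scaled coordinates of a point after a field extension -/
theorem isPt_of {Q Y : SV} {m : Pre Y} {μ : Hom Q Y} {L : Type} [Field L] [Algebra ℂ L]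
    (α : Q.F →ₐ[ℂ] L) {z : Pnt m.io Q.F} {w : Pnt m.io L} {u : m.J → Y.F} {c : m.J → Q.F}
    {s : m.J → L} (hs : ∀ j, s j ≠ 0) (hw : ∀ j i, α (z j i) = s j * w j i)
    (h : ∀ j i, m.y j i / u j ∈ μ.p.O ∧ z j i = c j * μ.p.π (m.y j i / u j)) :
    Bl53.IsPt m.T μ α w := fun j =>
  ⟨u j, (s j)⁻¹ * α (c j), fun i => (h j i).1, fun i => by
    rw [mul_assoc, ← map_mul, eq_inv_mul_iff_mul_eq₀ (hs j), ← hw, (h j i).2]; rfl⟩

/-- **the support axiom** -/
theorem supj (C : Coh.Th) [Hb64.Ok C] (V : Vir C (Hb64.th C)) (hV : V.I = Hb64.inst C) :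
    Bl53.SUPJ V.gw := fun {Y} m d x y x' y' l h => by
  classical
  rcases eq_or_ne l 0 with rfl | hl
  · simp only [Vir.op_one, mul_zero]
  rw [V.itg_op' m d hl, V.itg_op' m d hl]
  refine V.gw_two m d (fun E _ _ _ z z' hz => ?_) l
  obtain ⟨a, ha⟩ := Hb64.exists_rep C (m := m.toPre) (z := z) (tree_nz hz 0)
    (Pre.on_iff.1 (tree_on hz 0))
  obtain ⟨a', ha'⟩ := Hb64.exists_rep C (m := m.toPre) (z := z') (tree_nz hz 1)
    (Pre.on_iff.1 (tree_on hz 1))
  obtain ⟨P, hP⟩ := Unf.exists_on ({a, a'} : Finset (BD ℂ E))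
  obtain ⟨ν, ⟨u, c, -, h1⟩, h2⟩ := ha P (hP a (by simp))
  obtain ⟨μ, ⟨u', c', -, h3⟩, h4⟩ := ha' P (hP a' (by simp))
  obtain ⟨L, _, _, _, α, t, p, s, h5, h6, h7, h8, h9⟩ := hz
  have h10 := h (sv P) μ ν ⟨L, _, _, ‹_›, α, t, p 1, p 0, h5, h6,
    fun u => Pre.on_iff.1 (h7 u), isPt_of α (h8 1) (h9 1) h3, isPt_of α (h8 0) (h9 0) h1⟩
  rw [hV, h2, h2, h4, h4]
  exact (map_mul (Hb64.ev C _) _ _).symm.trans
    ((congrArg _ ((mul_comm _ _).trans (h10.trans (mul_comm _ _)))).trans (map_mul _ _ _))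

end Crest.Agent.X262.Supj77
end
end

-- ▼ part X262/BlLnk/Main
section

/-!
# Row 262, (BL) (helper14): curves of degree zero in the factor of a lower model are contracted

* `ev_const`  : on a tree of degree zero in the factor `j` the coordinates are constant;
* `ev_ne`     : some coordinate is not zero;
* `lnkEqStmt` : `Bl53.LnkEqStmt`.
-/

set_option autoImplicit false

noncomputable section

namespace Crest.Agent.X262.BlLnk

open Crest.Agent.X277 Crest.Agent.X277.Lef Crest.Agent.X277.AN.G1 Crest.Agent.X277.BD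
open Crest.Agent.X262.Coh Crest.Agent.X262.Gwb Crest.Agent.X262.Chn Crest.Agent.X262.Bl53
open Crest.Agent.X262.Bub96 (Tr hv)
open Crest.Agent.X262.Hb64 (KP gen map_eq_of_same)
open Polynomial

section Tree

variable {k : Type} [Field k] {J : Type} {io : J → Type}

theorem hv_zero {f : k[X]} (h : f.natDegree ≤ 0) (x : Option k) : hv 0 f x = f.coeff 0 := by
  cases x with
  | none => rfl
  | some x =>
    change f.eval x = _
    rw [eq_C_of_natDegree_le_zero h, eval_C, coeff_C_zero]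

/-- on a tree of degree zero in the factor `j` the coordinates are constant -/
theorem ev_const {j : J} : ∀ (t : Tr k J io), t.OK → t.deg j = 0 → ∀ (x x' : t.Pt) (i : io j),
    t.ev x j i = t.ev x' j i
  | .leaf d g, h, h0, x, x', i => by
    have h1 : d j = 0 := h0
    have h2 : (g j i).natDegree ≤ 0 := h1 ▸ h.1 j i
    change hv (d j) (g j i) x.2 = hv (d j) (g j i) x'.2
    rw [h1, hv_zero h2, hv_zero h2]
  | .glue T p S, h, h0, x, x', i => by
    have h1 : T.deg j + S.deg j = 0 := h0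
    have hT := ev_const (j := j) T h.1 (by omega)
    have hS := ev_const (j := j) S h.2.1 (by omega)
    have key : ∀ y : (Tr.glue T p S).Pt,
        (Tr.glue T p S).ev y j i = T.ev (T.root, some p) j i := by
      rintro ⟨a | a, y⟩
      · exact hT (a, y) _ i
      · exact (hS (a, y) _ i).trans (h.2.2.2 j i)
    rw [key, key]

/-- some coordinate is not zero -/
theorem ev_ne (j : J) : ∀ (t : Tr k J io), t.OK → ∀ x : t.Pt, ∃ i, t.ev x j i ≠ 0
  | .leaf _ _, h, x => h.2 j x.2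
  | .glue T _ _, h, ⟨.inl a, y⟩ => ev_ne j T h.1 (a, y)
  | .glue _ _ S, h, ⟨.inr a, y⟩ => ev_ne j S h.2.1 (a, y)

end Tree

/-- the affine coordinates of a point given by homogeneous coordinates -/
theorem ratio {F E L ι : Type} [Field F] [Algebra ℂ F] [Field E] [Algebra ℂ E] [Field L]
    [Algebra ℂ L] {p : Plc F E} {α : E →ₐ[ℂ] L} {s : ι → F} {y : ι → L} {u : F} {c : L}
    (h1 : ∀ i, s i / u ∈ p.O) (h2 : ∀ i, y i = c * α (p.π (s i / u))) {i₀ : ι} (h0 : y i₀ ≠ 0)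
    (i : ι) : s i / s i₀ ∈ p.O ∧ α (p.π (s i / s i₀)) = y i / y i₀ := by
  have h3 : p.π (s i₀ / u) ≠ 0 := fun h => h0 (by rw [h2, h, map_zero, mul_zero])
  have hc : c ≠ 0 := fun h => h0 (by rw [h2, h, zero_mul])
  have hu : u ≠ 0 := fun h => h3 (by rw [h, div_zero, Plc.π_zero])
  rw [← div_div_div_cancel_right₀ hu (s i) (s i₀), Plc.π_div (h1 i) h3, map_div₀, h2 i, h2 i₀,
    mul_div_mul_left _ _ hc]
  exact ⟨Plc.div_mem (h1 i) h3, rfl⟩

theorem map_eq {K L : Type} [Field K] [Algebra ℂ K] [Field L] [Algebra ℂ L] {U V : PModel ℂ K}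
    (h : Ge U V) {Q : SV} (μ ν : Hom Q (sv U)) (α : Q.F →ₐ[ℂ] L) (t : Tup K)
    (ht : t = ownT (sv V)) (y : t.io → L) (h0 : ∃ i, y i ≠ 0)
    (h1 : ∃ (u : K) (c : L), (∀ i, t.y i / u ∈ μ.p.O) ∧ ∀ i, y i = c * α (μ.p.π (t.y i / u)))
    (h2 : ∃ (u : K) (c : L), (∀ i, t.y i / u ∈ ν.p.O) ∧ ∀ i, y i = c * α (ν.p.π (t.y i / u))) :
    (Mor.comp (mor h) μ).map = (Mor.comp (mor h) ν).map := by
  subst ht
  obtain ⟨i₀, h0⟩ := h0
  obtain ⟨u, c, h1, h1'⟩ := h1
  obtain ⟨u', c', h2, h2'⟩ := h2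
  refine map_eq_of_same (X := sv V) (α := α) (KP.same_of_chart (i := i₀)
    (fun i => ⟨⟨Algebra.mem_top, (ratio h1 h1' h0 i).1⟩, Algebra.mem_top⟩)
    (fun i => ⟨⟨Algebra.mem_top, (ratio h2 h2' h0 i).1⟩, Algebra.mem_top⟩) fun i => ?_)
  exact (ratio h1 h1' h0 i).2.trans (ratio h2 h2' h0 i).2.symm

/-- **curves of degree zero in the factor of a lower model are contracted** -/
theorem lnkEqStmt : LnkEqStmt := by
  intro K _ _ U V h m j hj d hd Q μ ν ⟨L, _, _, _, α, t, x, x', hok, hdeg, _, h1, h2⟩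
  have h3 : t.deg j = 0 := hdeg ▸ hd
  obtain ⟨u, c, h4, h5⟩ := h2 j
  exact map_eq h μ ν α (m.T j) hj (t.ev x j) (ev_ne j t hok x) (h1 j)
    ⟨u, c, h4, fun i => (ev_const t hok h3 x x' i).trans (h5 i)⟩

end Crest.Agent.X262.BlLnk
end
end

-- ▼ part X262/Lh39/Main
section

/-!
# Row 262, LH (helper39), part 2: Leray-Hirsch for bundles of lines

* `PB.push_lam` : `π_* Λ = 1` for `Λ = c1 (mxf lam)`;
* `PB.decomp`   : `x = Λ π^* π_* x + π^* (π_* (Λ x) - μ π_* x)` for all classes `x`;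
* `PB.lh`       : `C.LHAt π (Λ + π^* c) 2`.
-/

set_option autoImplicit false

noncomputable section

namespace Crest.Agent.X262.Lh39

open Crest.Agent.X277 Crest.Agent.X277.Lef Crest.Agent.X277.AN.G1 Crest.Agent.X277.BD
open Crest.Agent.X277.BD.Br (At oP oP_mem pr_mem pb_mem_On)
open Crest.Agent.X262.Coh Crest.Agent.X262.Form88

variable {C : Th} {E Z : SV} {ι : Type} [Fintype ι] {π : Hom E Z} {α : Z.F →ₐ[ℂ] E.F}
  {lam : ι → E.F}

namespace PB

variable (h : PB π α lam)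
include h

theorem push_one_eq (man : C.MAN) (pd : C.PD) : C.push π 1 = 0 :=
  pd.push_neg man π (k := 0) (by rw [h.dim]; omega) (man.dg_one E)

theorem push_pb_eq (man : C.MAN) (pd : C.PD) (y : C.H Z) : C.push π (C.pb π y) = 0 := by
  rw [pd.push_pb, h.push_one_eq man pd, zero_mul]

/-- the tautological class has degree one on the fibres -/
theorem push_lam (man : C.MAN) (pd : C.PD) : C.push π (C.c1 E (mxf ℂ lam)) = 1 := by
  obtain ⟨c, hc⟩ := man.dg_zero Z _ (pd.push_dg man π (k := 1) (j := 0) (by rw [h.dim]; omega)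
    (man.c1_dg E _ h.on))
  have h1 := pd.push_spec π (C.c1 E (mxf ℂ lam)) (C.hc Z ^ Z.dim)
  have h2 := man.c1_num E (mxf ℂ lam :: (List.replicate Z.dim Z.h).map (pb α)) fun a ha => by
    rcases List.mem_cons.1 ha with rfl | ha
    · exact h.on
    · rw [List.map_replicate] at ha
      exact List.eq_of_mem_replicate ha ▸ pb_mem_On h.hp oP_mem
  rw [h.bnum_eq _ (by simp), List.map_replicate, List.map_cons, List.map_replicate, List.prod_cons,
    List.prod_replicate] at h2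
  rw [hc, ← Algebra.smul_def, map_smul, man.itg_hc, map_pow, man.c1_dmn h.hp oP_mem, h2,
    smul_eq_mul] at h1
  rw [hc, (mul_eq_right₀ Z.dgr_ne).1 h1, map_one]

/-- **Leray-Hirsch**, all degrees -/
theorem decomp (A : C.Ax) (hZ : 0 < Z.dim) : ∃ μ ∈ C.dg Z 1, ∀ x : C.H E,
    x = C.c1 E (mxf ℂ lam) * C.pb π (C.push π x) +
      C.pb π (C.push π (C.c1 E (mxf ℂ lam) * x) - μ * C.push π x) := by
  have man := A.man
  have pd := A.pd
  obtain ⟨M, hM, h1⟩ := h.exists_div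
  refine ⟨C.c1 Z M, man.c1_dg Z M hM, ?_⟩
  set Λ := C.c1 E (mxf ℂ lam) with hΛ
  set κ := C.pb (fst E E) Λ + C.pb (snd E E) Λ - C.pb (fst E E) (C.pb π (C.c1 Z M)) with hκ
  obtain ⟨γ, hγ⟩ := pd.mem_range_push (μ := dia E)
    (b := κ * C.pb (pmap π π) (C.push (dia Z) 1)) fun y hy => by
    have h2 : ∀ {G : SV} (g : Hom G (E.prod E)),
        (∀ q, (fst E E).map (g.map q) = (snd E E).map (g.map q)) → C.pb g y = 0 := fun g hg => by
      rw [← man.pb_tri (μ := dia E) (ν := Mor.comp (fst E E) g) fun q =>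
        Cns.prod_pt_ext _ (by rw [fst_pair, Cns.idM_map, Mor.comp_map])
          (by rw [snd_pair, Cns.idM_map, Mor.comp_map, hg]), hy, map_zero]
    rw [mul_right_comm, supp_itg man pd A.dbl A.bc1 h.dmn h.dmn hZ (κ * y) fun G g hg => ?_,
      map_zero]
    rw [map_mul]
    by_cases h3 : (Mor.comp (fst E E) g).map = (Mor.comp (snd E E) g).map
    · rw [h2 g fun q => by simpa only [Mor.comp_map] using congrFun h3 q, mul_zero]
    obtain ⟨a₁, ha₁, a₂, ha₂, a₃, ha₃, φ, h4, h5, h6, h7⟩ :=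
      h1 (Mor.comp (fst E E) g) (Mor.comp (snd E E) g) (fun q => by
        simpa only [Mor.comp_map] using hg q) h3
    have h8 : C.pb g κ = C.c1 G (a₁ + a₂ - a₃ - pr ℂ φ) := by
      rw [man.c1_sub (sub_mem (add_mem ha₁ ha₂) ha₃) (pr_mem φ), man.c1_pr, sub_zero,
        man.c1_sub (add_mem ha₁ ha₂) ha₃, man.c1_add G _ ha₁ _ ha₂, ← man.c1_pb _ _ h.on _ h4,
        ← man.c1_pb _ _ h.on _ h5, ← man.c1_pb _ _ hM _ h6, man.pb_comp, man.pb_comp, man.pb_comp,
        man.pb_comp, hκ, map_sub, map_add]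
    rw [h8]
    refine c1_mul_eq_zero man pd A.pl0 (sub_mem (sub_mem (add_mem ha₁ ha₂) ha₃) (pr_mem φ))
      fun G' v _ hv => ?_
    rw [← man.pb_comp]
    exact h2 _ fun q => by
      simpa only [Mor.comp_map] using not_not.1 (mt (h7 (v.map q)) (hv q))
  have h2 : ∀ x, γ * x = Λ * C.pb π (C.push π x) +
      C.pb π (C.push π (Λ * x) - C.c1 Z M * C.push π x) := fun x => pd.ext fun a => by
    have h3 := pd.push_spec (dia E) γ (C.pb (fst E E) a * C.pb (snd E E) x)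
    rw [hγ, map_mul (C.pb (dia E)), man.pb_tri (τ := idH E) fun q => fst_pair _ _ q,
      man.pb_tri (τ := idH E) fun q => snd_pair _ _ q, man.pb_id, man.pb_id] at h3
    have h4 := A.diag π π (Λ * a) x
    have h5 := A.diag π π a (Λ * x)
    have h6 := A.diag π π (C.pb π (C.c1 Z M) * a) x
    rw [pd.push_spec, map_mul (C.pb (fst E E))] at h4 h6
    rw [pd.push_spec, map_mul (C.pb (snd E E))] at h5
    have h7 : γ * x * a = γ * (a * x) := by ring
    rw [h7, ← h3, map_sub, map_mul (C.pb π), hκ]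
    have h8 : ∀ p q r s t d : C.H (E.prod E),
        (p + q - r) * d * (s * t) = p * s * t * d + s * (q * t) * d - r * s * t * d := by
      intros; ring
    rw [h8, map_sub, map_add, h4, h5, h6, ← map_add, ← map_sub]
    congr 1
    ring
  have h3 := h2 1
  rw [mul_one, mul_one, h.push_one_eq man pd, h.push_lam man pd, map_zero, mul_zero, mul_zero,
    sub_zero, zero_add, map_one] at h3
  intro x
  rw [← h2, h3, one_mul]

theorem lh (A : C.Ax) (hZ : 0 < Z.dim) {c : C.H Z} (hc : c ∈ C.dg Z 1) :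
    C.LHAt π (C.c1 E (mxf ℂ lam) + C.pb π c) 2 where
  span k hk x hx := by
    obtain ⟨μ, hμ, h1⟩ := h.decomp A hZ
    have h2 := A.man.dg_mul E (A.man.c1_dg E _ h.on) hx
    have h3 : C.push π (C.c1 E (mxf ℂ lam) * x) ∈ C.dg Z k :=
      A.pd.push_dg A.man π (by rw [h.dim]; omega) h2
    obtain rfl | rfl : k = 0 ∨ k = 1 := by omega
    · refine ⟨fun i => if i = 0 then C.push π (C.c1 E (mxf ℂ lam) * x) else 0, fun i => ?_, ?_⟩
      · dsimp only
        split_ifs with hi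
        exacts [hi ▸ h3, zero_mem _]
      · have h4 := h1 x
        rw [A.pd.push_neg A.man π (by rw [h.dim]; omega) hx] at h4
        simpa using h4
    · have h4 : C.push π x ∈ C.dg Z 0 := A.pd.push_dg A.man π (by rw [h.dim]; omega) hx
      refine ⟨fun i => if i = 0 then C.push π x else if i = 1 then
        C.push π (C.c1 E (mxf ℂ lam) * x) - (μ + c) * C.push π x else 0, fun i => ?_, ?_⟩
      · dsimp only
        split_ifs with hi hi'
        exacts [hi ▸ h4, hi' ▸ sub_mem h3 (A.man.dg_mul Z (add_mem hμ hc) h4), zero_mem _]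
      · simp only [Finset.sum_range_succ, Finset.sum_range_zero, if_true, one_ne_zero, if_false,
          zero_add, Nat.sub_zero, pow_one, Nat.sub_self, pow_zero, mul_one, map_sub, map_mul,
          map_add]
        have h5 := h1 x
        rw [map_sub, map_mul (C.pb π)] at h5
        linear_combination h5
  fib y := by
    rw [pow_one, add_mul, map_add, ← A.pd.push_spec, h.push_lam A.man A.pd, one_mul, ← map_mul,
      ← A.pd.itg_push π, h.push_pb_eq A.man A.pd, map_zero, add_zero]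

end PB

end Crest.Agent.X262.Lh39
end
end

-- ▼ part X262/Lh39/Blw
section

/-!
# Row 262, LH (helper39), part 3: the exceptional divisor of the blow-up of a codimension two centre

* `exists_pb` : the exceptional divisor is a bundle of lines;
* `lh_bl`     : `b.LH C` for every `b : Bw K` whose upper model is `g.bl h`.
-/

set_option autoImplicit false

open Set

noncomputable section

namespace Crest.Agent.X262.Lh39

open Crest.Agent.X277 Crest.Agent.X277.Lef Crest.Agent.X277.AN.G1 Crest.Agent.X277.BD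
open Crest.Agent.X277.BD.Br (At oP at_mxf mxf_mem oP_mem)
open Crest.Agent.X262.Coh Crest.Agent.X262.Form88 Crest.Agent.X262.Blow

variable {F : Type} [Field F] [Algebra ℂ F] {P : PModel ℂ F} {E Z : SV} {i : Hom Z (sv P)} {d : ℕ}
  {h : SmC P i.p 2 d} {G : Gens P i.p} {j : Hom E (sv (G.bl h))} {π : Hom E Z}

theorem gn_f (h : SmC P i.p 2 d) (G : Gens P i.p) : Cns.Gn (G.bl h) G.f := fun x' =>
  (Gens.exists_gen x').imp fun k hk => ⟨G.ne k, hk⟩

theorem exists_frame (hj : IsEmb j) (hc : ∀ x, (G.r h).map (j.map x) = i.map (π.map x))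
    (hs : ∀ x', (lp ((G.r h).map x')).O ≤ i.p.O → x' ∈ range j.map)
    {α : Z.F →ₐ[ℂ] E.F} (hp : π.p = Plc.ofHom α) {k₀ : Fin (G.M + 1)}
    (h0 : ∀ k, G.f k / G.f k₀ ∈ j.p.O) (z : Z.Pt) :
    ∃ σ, Frame π α (fun k => j.p.π (G.f k / G.f k₀)) z σ ∧
      ∀ f, f ∈ Subfield.closure (range α ∪ {σ 1 / σ 0}) := by
  obtain ⟨a, ha⟩ := exists_pat (i.map z)
  obtain ⟨s, w, hA⟩ := h.crd (i.map z) (le_map i z)
  obtain ⟨x₁, hx₁⟩ := Cns.hom_surjective hp z
  have h1 : ∀ {x}, π.map x = z → (G.r h).map (j.map x) = i.map z := fun hx => hx ▸ hc _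
  have h2 : (lp (i.map z)).O ≤ j.p.O := h1 hx₁ ▸ (Gens.r_dom (j.map x₁)).le.trans (le_map j x₁)
  have h3 : ∀ f ∈ (lp (i.map z)).O, j.p.π f = α (i.p.π f) := fun f hf => by
    have h3 := π_congr (μ := Mor.comp (G.r h) j) (ν := Mor.comp i π) (q₀ := x₁) (f := f)
      (fun q => by rw [Mor.comp_map, Mor.comp_map, hc]) (by rwa [Mor.comp_map, h1 hx₁])
    change j.p.π f = π.p.π (i.p.π f) at h3
    rwa [hp] at h3
  set c := P.y a ^ G.m / G.f k₀ with hcd
  have hc0 : c ≠ 0 := div_ne_zero (pow_ne_zero _ (P.y_ne a)) (G.ne k₀)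
  have h4 : ∀ k, G.g a k * c = G.f k / G.f k₀ := fun k =>
    div_mul_div_cancel₀ (pow_ne_zero _ (P.y_ne a))
  have h5 : ∀ {ι : Type} [Fintype ι] {t : ι → F} {b : F}, InI (lp (i.map z)).O t b →
      (∀ l, t l * c ∈ j.p.O) → b * c ∈ j.p.O ∧ ∃ r : ι → Z.F, (∀ l, r l ∈ (lp z).O) ∧
        j.p.π (b * c) = ∑ l, α (r l) * j.p.π (t l * c) := by
    rintro ι _ t _ ⟨r, hr, rfl⟩ ht
    simp only [Finset.sum_mul, mul_assoc]
    refine ⟨sum_mem fun l _ => mul_mem (h2 (hr l)) (ht l), fun l => i.p.π (r l),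
      fun l => i.π_mem (hr l), ?_⟩
    rw [Strat.Fac.π_sum _ fun l _ => mul_mem (h2 (hr l)) (ht l)]
    exact Finset.sum_congr rfl fun l _ => by rw [j.p.π_mul (h2 (hr l)) (ht l), h3 _ (hr l)]
  have h6 := fun l => h5 (Gens.inI_s (G := G) hA ha l) fun k => h4 k ▸ h0 k
  have h7 : ∀ {l}, j.p.π (s l * c) ≠ 0 → ∀ m, s m / s l ∈ j.p.O ∧
      j.p.π (s m / s l) = j.p.π (s m * c) / j.p.π (s l * c) := fun {l} hl m => by
    rw [← mul_div_mul_right _ _ hc0]
    exact ⟨Plc.div_mem (h6 m).1 hl, Plc.π_div (h6 m).1 hl⟩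
  have h8 : ∀ {x l}, Over (lp (i.map z)) (lp (j.map x)) s l → j.p.π (s l * c) ≠ 0 := by
    intro x l ho h8
    have h9 := j.p.π_mul (j.mem_O (((Gens.inI_g (G := G) hA ha k₀).mono ho.dom.le).div_mem ho.mem))
      (h6 l).1
    rw [h8, mul_zero, ← mul_assoc, div_mul_cancel₀ _ (hA.s_ne l), h4, div_self (G.ne k₀),
      Plc.π_one] at h9
    exact one_ne_zero h9
  have h9 : ∀ {x}, π.map x = z → ∃ l, Over (lp (i.map z)) (lp (j.map x)) s l := fun hx =>
    h1 hx ▸ Gens.exists_chart (h1 hx ▸ hA)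
  have h10 : ∀ {x l}, π.map x = z → j.p.π (s l * c) ≠ 0 →
      (∀ m, j.p.π (s m * c) / j.p.π (s l * c) ∈ (lp x).O) →
      Over (lp (i.map z)) (lp (j.map x)) s l := fun {x l} hx hl hm => by
    obtain ⟨l', ho⟩ := h9 hx
    refine ho.change (hA.s_ne l') ?_
    rw [← ev, j.ev_map (ho.mem l), (h7 (h8 ho) l).2]
    exact LP.ne_of_inv_mem ((h7 (h8 ho) l).2 ▸ j.π_mem (ho.mem l)) (div_ne_zero hl (h8 ho))
      (by rw [inv_div]; exact hm l')
  refine ⟨fun l => j.p.π (s l * c), ⟨fun k => ?_, fun l => ?_, fun x hx => ?_,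
    fun x x' l hx hx' hl hm hm' hv => ?_⟩, fun f => ?_⟩
  · simpa only [h4] using (h5 (Gens.inI_g (G := G) hA ha k) fun l => (h6 l).1).2
  · simpa only [h4] using (h6 l).2
  · obtain ⟨l, ho⟩ := h9 hx
    exact ⟨l, h8 ho, fun m => (h7 (h8 ho) m).2 ▸ j.π_mem (ho.mem m)⟩
  · have ho := h10 hx hl hm
    have ho' := h10 hx' hl hm'
    have h11 := ho.unique ho' fun m => by
      rw [← ev, ← ev, j.ev_map (ho.mem m), j.ev_map (ho'.mem m), (h7 hl m).2, hv]
    exact hj.1 (lp_injective h11)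
  · obtain ⟨x', h11, ho, -⟩ := Gens.exists_dir (G := G) (h := h) hA (l := 0) (ξ := fun _ => 1) rfl
    obtain ⟨x, rfl⟩ := hs x' (h11 ▸ hA.le)
    set S := Subfield.closure (range α ∪ {j.p.π (s 1 * c) / j.p.π (s 0 * c)}) with hS
    have h12 : ∀ r, α r ∈ S := fun r => Subfield.subset_closure (Or.inl ⟨r, rfl⟩)
    let W : Subalgebra ℂ F :=
      { carrier := {f | f ∈ j.p.O ∧ j.p.π f ∈ S}
        mul_mem' := fun h h' => ⟨mul_mem h.1 h'.1, j.p.π_mul h.1 h'.1 ▸ mul_mem h.2 h'.2⟩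
        add_mem' := fun h h' => ⟨add_mem h.1 h'.1, j.p.π_add h.1 h'.1 ▸ add_mem h.2 h'.2⟩
        algebraMap_mem' := fun r => ⟨algebraMap_mem _ r, by
          rw [j.p.π_alg, ← α.commutes]
          exact h12 _⟩ }
    have h13 : chB (lp (i.map z)).O s 0 ≤ W := chB_le (fun f hf => ⟨h2 hf, h3 f hf ▸ h12 _⟩)
      fun m => ⟨(h7 (h8 ho) m).1, (h7 (h8 ho) m).2 ▸ by
        revert m
        refine Fin.forall_fin_two.2 ⟨?_, Subfield.subset_closure (Or.inr rfl)⟩
        rw [div_self (h8 ho)]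
        exact one_mem _⟩
    have h14 : ∀ b ∈ (lp (j.map x)).O, j.p.π b ∈ S := fun b hb => by
      obtain ⟨u, hu, v, hv, h14, h15⟩ := ho.loc b hb
      have h16 := π_ne j (le_map j x) h14
      rw [← mul_div_cancel_right₀ (j.p.π b) h16, ← j.p.π_mul (j.mem_O hb) (h13 hv).1, h15]
      exact div_mem (h13 hu).2 (h13 hv).2
    obtain ⟨u, hu, v, hv, h15, h16⟩ := hj.birIm x f
    rw [← mul_div_cancel_right₀ f h15, h16]
    exact div_mem (h14 u hu) (h14 v hv)

/-- **the exceptional divisor is a bundle of lines** -/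
theorem exists_pb (hi : IsEmb i) (hj : IsEmb j)
    (hc : ∀ x, (G.r h).map (j.map x) = i.map (π.map x))
    (hs : ∀ x', (lp ((G.r h).map x')).O ≤ i.p.O → x' ∈ range j.map) (hd : E.dim = Z.dim + 1) :
    ∃ (α : Z.F →ₐ[ℂ] E.F) (lam : Fin (G.M + 1) → E.F),
      PB π α lam ∧ LPb j (mxf ℂ G.f) (mxf ℂ lam) := by
  obtain ⟨α, hp⟩ : Dmn π := dmn_of_surj fun z => by
    obtain ⟨x', h1⟩ := Gens.r_surjective (G := G) (h := h) two_pos (i.map z)
    obtain ⟨x, rfl⟩ := hs x' (h1 ▸ le_map i z)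
    exact ⟨x, hi.1 ((hc x).symm.trans h1)⟩
  obtain ⟨x₀⟩ : Nonempty E.Pt := inferInstance
  obtain ⟨k₀, h0⟩ := Gens.exists_gen (h := h) (j.map x₀)
  have h1 := exists_frame hj hc hs hp fun k => j.mem_O (h0 k)
  exact ⟨α, _, ⟨hp, hd, fun z => (h1 z).imp fun _ h => h.1, π.map x₀, h1 _⟩, _,
    lpbU_mxf j (gn_f h G) (G.ne k₀) fun k => j.mem_O (h0 k)⟩

theorem mem_range_of_isDv (hj : IsDv j (G.m • oP P - mxf ℂ G.f)) (x' : Pts (G.bl h))
    (hx : (lp ((G.r h).map x')).O ≤ i.p.O) : x' ∈ range j.map := by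
  by_contra h1
  obtain ⟨a, ha⟩ := exists_pat ((G.r h).map x')
  obtain ⟨k, hk⟩ := Gens.exists_gen x'
  have h2 := (hj.off x' h1).ev_div_ne (((at_mxf (x := x') (P.y_ne a) fun l =>
    (Gens.r_dom x').le (y_mem ha l)).nsmul G.m).sub (at_mxf (G.ne k) hk))
  rw [one_div, inv_div, ev, (Gens.r_dom x').eq _ (Gens.g_mem ha k)] at h2
  exact h2 (ev_eq_zero hx (G.van k a ((A_le ha).trans hx)))

theorem lh_exc {C : Th} (A : C.Ax) (hi : IsEmb i) {P' : PModel ℂ F} (hb : P' = G.bl h)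
    (ge : Chn.Ge P' P) {j : Hom E (sv P')} {e : BD ℂ F} (he : e = G.m • oP P - mxf ℂ G.f)
    (dv : IsDv j e) (comm : (Mor.comp (Chn.mor ge) j).map = (Mor.comp i π).map)
    (hd : E.dim = Z.dim + 1) (hZ : 0 < Z.dim) :
    C.LHAt π (-C.pb j (C.c1 (sv P') e)) 2 := by
  subst hb he
  have h1 : ∀ x, (Chn.mor ge).map (j.map x) = i.map (π.map x) := fun x => by
    simpa only [Mor.comp_map] using congrFun comm x
  obtain ⟨α, lam, h2, h3⟩ := exists_pb (π := π) hi dv.emb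
    (fun x => (Gens.r_eq (bir_dom (Chn.mor_p ge) _)).trans (h1 x)) (mem_range_of_isDv dv) hd
  have h4 := h2.lh A hZ (neg_mem (nsmul_mem (A.man.pb_dg i _ (A.man.hc_dg (sv P))) G.m))
  have h5 : C.c1 (sv (G.bl h)) (oP P) = C.pb (Chn.mor ge) (C.hc (sv P)) := by
    rw [A.man.c1_dmn (Chn.mor_p ge) oP_mem, pb_id]
  convert h4 using 1
  rw [A.man.c1_sub (nsmul_mem ge G.m) (mxf_mem (gn_f h G)), A.man.c1_nsmul ge, h5, map_sub,
    map_nsmul, A.man.pb_sq h1, A.man.c1_pb j _ (mxf_mem (gn_f h G)) _ h3, map_neg, map_nsmul,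
    neg_sub, sub_eq_add_neg]

/-- **Leray-Hirsch for the exceptional divisor of a blow-up** -/
theorem lh_bl {C : Th} (A : C.Ax) {K : Type} [Field K] [Algebra ℂ K] (b : Chn.Bw K)
    (h : SmC b.lo b.i.p 2 2) (g : Gens b.lo b.i.p) (hb : b.hi = g.bl h)
    (he : b.e = g.m • oP b.lo - mxf ℂ g.f) : b.LH C :=
  lh_exc A b.emb hb b.ge he b.dv b.comm (by rw [b.dimE, b.dimZ]) (by rw [b.dimZ]; decide)

end Crest.Agent.X262.Lh39
end
end

-- ▼ part X262/Blow/Smz
section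

/-!
# Row 262, BLOW (helper98), part Smz: bridges

* `exists_smC`   : from a subalgebra `O` (the form `Qt.SmZ`) to a place with `SmC`;
* `SmC.finrank_F`, `SmC.finrank_κ` : dimensions;
* `algInd_exc`, `transc_exc`, `rat_exc` : the function field of the exceptional divisor.
-/

set_option autoImplicit false
set_option linter.unusedSectionVars false
set_option linter.style.haveILetI false

open WithZero
open scoped KaehlerDifferential

noncomputable section

namespace Crest.Agent.X262.Blow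

open Crest.Agent.X277.Lef Crest.Agent.X277.Res.Out Crest.Agent.X277.AN.G1
  Crest.Agent.X277.Res.Log Crest.Agent.X277.Strat.Fac MvPolynomial

variable {F κ K : Type} [Field F] [Field κ] [Field K] [Algebra ℂ F] [Algebra ℂ κ] [Algebra ℂ K]
  {q : Plc F κ} {p : Plc F K} {v : Valuation F ℤᵐ⁰} {P : PModel ℂ F} {c d : ℕ}

theorem inI_iff_span {ι : Type} [Fintype ι] {O : Subalgebra ℂ F} {s : ι → F} {a : F} :
    InI O s a ↔ a ∈ Submodule.span O (Set.range s) := by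
  rw [Submodule.mem_span_range_iff_exists_fun]
  exact ⟨fun ⟨r, hr, h⟩ => ⟨fun l => ⟨r l, hr l⟩, h.symm⟩,
    fun ⟨r, h⟩ => ⟨fun l => r l, fun l => (r l).2, h.symm⟩⟩

/-- the residue map of a local subalgebra -/
theorem exists_plc (O : Subalgebra ℂ F) [IsLocalRing O] :
    ∃ (κ : Type) (_ : Field κ) (_ : Algebra ℂ κ) (q : Plc F κ), q.O = O ∧
      ∀ z, ∃ f ∈ q.O, q.π f = z := by
  let ψ : O →ₐ[ℂ] IsLocalRing.ResidueField O :=
    Ideal.Quotient.mkₐ ℂ (IsLocalRing.maximalIdeal O)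
  refine ⟨IsLocalRing.ResidueField O, inferInstance, inferInstance, plcAt ψ,
    le_antisymm ?_ (le_plcAt ψ), fun z => ?_⟩
  · rintro f ⟨a, b, hb, h1⟩
    have h2 : Un O b := not_not.1 fun h3 =>
      hb (Ideal.Quotient.eq_zero_iff_mem.2 ((van_iff_mem_max b).1 ⟨b.2, h3⟩))
    rw [← mul_inv_cancel_right₀ h2.1 f, h1]
    exact mul_mem a.2 h2.2.2
  · obtain ⟨a, rfl⟩ := Ideal.Quotient.mk_surjective z
    exact ⟨a, le_plcAt ψ a.2, plcAt_π ψ a⟩

/-- the three fields of `Qt.SmZ` for the ring of a surjective place -/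
theorem smC_of_smZ {n : ℕ} (hn : c + d = n) (hs : ∀ z, ∃ f ∈ q.O, q.π f = z)
    (h1 : ∃ x : Pts P, (lp x).O ≤ q.O)
    (h2 : ∀ x : Pts P, (lp x).O ≤ q.O → ∀ f ∈ q.O, ∃ b ∈ (lp x).O, Un q.O b ∧ b * f ∈ (lp x).O)
    (h3 : ∀ x : Pts P, (lp x).O ≤ q.O → ∃ (t : Fin n → F) (σ : Fin c → Fin n),
      Coords (lp x).O t ∧ Function.Injective σ ∧
        ∀ a ∈ (lp x).O, Van q.O a ↔ a ∈ Submodule.span (lp x).O (Set.range (t ∘ σ))) :
    SmC P q c d where
  surj := hs
  ne := h1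
  loc x hx f hf := by
    obtain ⟨b, hb, h4, h5⟩ := h2 x hx f hf
    exact ⟨_, h5, b, hb, un_plc.1 h4, mul_comm _ _⟩
  crd x hx := by
    obtain ⟨t, σ, h4, h5, h6⟩ := h3 x hx
    refine ⟨_, exists_ad hn hx h4 h5 fun a ha => ?_⟩
    rw [inI_iff_span, ← show _ ↔ a ∈ Submodule.span (lp x).O (Set.range fun l => t (σ l)) from
      h6 a ha, van_plc]
    exact (and_iff_right (hx ha)).symm

/-- from the form `Qt.SmZ` to a smooth centre -/
theorem exists_smC {O : Subalgebra ℂ F} {n : ℕ} (hn : c + d = n)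
    (h1 : ∃ x : Pts P, (lp x).O ≤ O)
    (h2 : ∀ x : Pts P, (lp x).O ≤ O → ∀ f ∈ O, ∃ b ∈ (lp x).O, Un O b ∧ b * f ∈ (lp x).O)
    (h3 : ∀ x : Pts P, (lp x).O ≤ O → ∃ (t : Fin n → F) (σ : Fin c → Fin n),
      Coords (lp x).O t ∧ Function.Injective σ ∧
        ∀ a ∈ (lp x).O, Van O a ↔ a ∈ Submodule.span (lp x).O (Set.range (t ∘ σ))) :
    ∃ (κ : Type) (_ : Field κ) (_ : Algebra ℂ κ) (q : Plc F κ), q.O = O ∧ SmC P q c d := by
  have : IsLocalRing O := by
    obtain ⟨x, hx⟩ := h1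
    obtain ⟨t, σ, -, -, h4⟩ := h3 x hx
    refine IsLocalRing.of_nonunits_add fun f g hf hg => ?_
    rw [← van_iff_nonunit] at hf hg ⊢
    obtain ⟨b, hb, h5, h6⟩ := h2 x hx f f.2
    obtain ⟨b', hb', h5', h6'⟩ := h2 x hx g g.2
    have h7 := add_mem ((h4 _ (mul_mem hb' h6)).1 (Van.mul_left h5'.2.1 (Van.mul_left h5.2.1 hf)))
      ((h4 _ (mul_mem hb h6')).1 (Van.mul_left h5.2.1 (Van.mul_left h5'.2.1 hg)))
    refine ⟨(f + g).2, fun h8 =>
      ((h4 _ (add_mem (mul_mem hb' h6) (mul_mem hb h6'))).2 h7).2 ?_⟩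
    rw [show b' * (b * f) + b * (b' * g) = b * b' * ((f + g : O) : F) by push_cast; ring]
    exact (h5.mul h5').mul h8
  obtain ⟨κ, _, _, q, rfl, hs⟩ := exists_plc O
  exact ⟨κ, _, _, q, rfl, smC_of_smZ hn hs h1 h2 h3⟩

theorem SmC.finrank_F (h : SmC P q c d) : Module.finrank F Ω[F⁄ℂ] = c + d := by
  obtain ⟨b⟩ := h.exists_basis
  rw [Module.finrank_eq_card_basis b, Fintype.card_fin]

theorem SmC.finrank_κ (h : SmC P q c d) : Module.finrank κ Ω[κ⁄ℂ] = d := by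
  obtain ⟨b⟩ := h.exists_basis'
  rw [Module.finrank_eq_card_basis b, Fintype.card_fin]

variable (h : SmC P q c d) (hv : IsOrd q v) (hp : ExcP v p)
  {ι : Type} [Fintype ι] [DecidableEq ι] {s : ι → F}

/-- the affine fibre coordinates are algebraically independent -/
theorem ind_exc' (hs : CoI q.O s) (l : ι) {H : MvPolynomial {a // a ≠ l} κ}
    (h0 : eval₂ (iota h hv hp : κ →+* K) (fun a => p.π (s a.1 / s l)) H = 0) : H = 0 := by
  obtain ⟨k, H', hH, h1⟩ := exists_homog l (rename Subtype.val H)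
  have h2 := ind_exc h hv hp hs l hH (by
    rw [eval₂_eq_of_dvd h1 _ (by rw [div_self (hs.ne_zero l), Plc.π_one]), eval₂_rename]
    exact h0)
  have h3 := eval₂_eq_of_dvd h1 (C : κ →+* MvPolynomial {a // a ≠ l} κ)
    (ξ := fun a => if h : a = l then 1 else X ⟨a, h⟩) (dif_pos rfl)
  rw [h2, eval₂_zero, eval₂_rename] at h3
  have h4 : ((fun a => if h : a = l then 1 else X ⟨a, h⟩) ∘ Subtype.val :
      {a // a ≠ l} → MvPolynomial {a // a ≠ l} κ) = X := funext fun a => dif_neg a.2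
  rw [h4, eval₂_eta] at h3
  exact h3.symm

theorem algInd_exc (hs : CoI q.O s) (l : ι) :
    letI : Algebra κ K := (iota h hv hp : κ →+* K).toAlgebra
    AlgebraicIndependent κ fun a : {a // a ≠ l} => p.π (s a.1 / s l) := by
  letI : Algebra κ K := (iota h hv hp : κ →+* K).toAlgebra
  exact algebraicIndependent_iff.2 fun H h0 => ind_exc' h hv hp hs l h0

theorem transc_exc (hs : CoI q.O s) {l a : ι} (hal : a ≠ l) :
    letI : Algebra κ K := (iota h hv hp : κ →+* K).toAlgebra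
    Transcendental κ (p.π (s a / s l)) := by
  letI : Algebra κ K := (iota h hv hp : κ →+* K).toAlgebra
  exact (algInd_exc h hv hp hs l).transcendental ⟨a, hal⟩

/-- in codimension two the exceptional divisor is ruled -/
theorem rat_exc {s : Fin 2 → F} (hs : CoI q.O s) : ∃ e : K ≃ₐ[ℂ] RatFunc κ,
    (∀ z, e (iota h hv hp z) = RatFunc.C z) ∧ e (p.π (s 1 / s 0)) = RatFunc.X := by
  letI : Algebra κ K := (iota h hv hp : κ →+* K).toAlgebra
  haveI : IsScalarTower ℂ κ K :=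
    IsScalarTower.of_algebraMap_eq fun c => ((iota h hv hp).commutes c).symm
  have ht := transc_exc h hv hp hs (l := 0) (a := 1) (by decide)
  have h1 : IntermediateField.adjoin κ {p.π (s 1 / s 0)} = ⊤ := by
    have h2 : ∀ A : MvPolynomial (Fin 2) κ, eval₂ (iota h hv hp : κ →+* K)
        (fun a => p.π (s a / s 0)) A ∈ IntermediateField.adjoin κ {p.π (s 1 / s 0)} := by
      intro A
      induction A using MvPolynomial.induction_on with
      | C a => rw [eval₂_C]; exact IntermediateField.algebraMap_mem _ a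
      | add A B hA hB => rw [eval₂_add]; exact add_mem hA hB
      | mul_X A a hA =>
        rw [eval₂_mul, eval₂_X]
        refine mul_mem hA ?_
        fin_cases a
        · change p.π (s 0 / s 0) ∈ _
          rw [div_self (hs.ne_zero 0), Plc.π_one]
          exact one_mem _
        · exact IntermediateField.mem_adjoin_simple_self _ _
    refine eq_top_iff.2 fun g _ => ?_
    obtain ⟨A, B, h3, h4⟩ := gen_exc h hv hp hs 0 g
    rw [eq_div_of_mul_eq h3 h4]
    exact div_mem (h2 A) (h2 B)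
  let e : RatFunc κ ≃ₐ[κ] K := ((RatFunc.algEquivOfTranscendental _ ht).trans
    (IntermediateField.equivOfEq h1)).trans IntermediateField.topEquiv
  exact ⟨e.symm.restrictScalars ℂ, fun z => e.symm.commutes z,
    e.symm_apply_eq.2 (RatFunc.algEquivOfTranscendental_X _ ht).symm⟩

end Crest.Agent.X262.Blow
end
end

-- ▼ part X262/Lh39/Bw
section

/-!
# Row 262, LH (helper39), part 4: the blow-up of a smooth surface in a smooth fourfold

* `ofGens h G hv` : the blow-up `G.bl h` as a `Chn.Bw`;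
* `blowGStmt`, `blowStmt`.
-/

set_option autoImplicit false

open Set WithZero

noncomputable section

namespace Crest.Agent.X262.Lh39

open Crest.Agent.X277 Crest.Agent.X277.Lef Crest.Agent.X277.AN.G1 Crest.Agent.X277.BD
open Crest.Agent.X277.BD.Br (At oP at_mxf mxf_mem oP_mem)
open Crest.Agent.X277.BD.Cyc (Rf)
open Crest.Agent.X277.Pst (Prm loc)
open Crest.Agent.X277.Res.Out (Van)
open Crest.Agent.X277.Res.Log (vr mem_vr)
open Crest.Agent.X262.Coh Crest.Agent.X262.Blow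

variable {F κ : Type} [Field F] [Algebra ℂ F] [Field κ] [Algebra ℂ κ] {P : PModel ℂ F}
  {q : Plc F κ} {c d : ℕ} {v : Valuation F ℤᵐ⁰}

/-- the residue map of a valuation -/
def rsd (hv : ∀ c : ℂ, v (algebraMap ℂ F c) ≤ 1) : vr v hv →ₐ[ℂ] Rf (rz v hv) where
  toFun a := IsLocalRing.residue (rz v hv).1 ⟨a, a.2⟩
  map_one' := map_one (IsLocalRing.residue (rz v hv).1)
  map_mul' a b := map_mul (IsLocalRing.residue (rz v hv).1) ⟨a, a.2⟩ ⟨b, b.2⟩
  map_zero' := map_zero (IsLocalRing.residue (rz v hv).1)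
  map_add' a b := map_add (IsLocalRing.residue (rz v hv).1) ⟨a, a.2⟩ ⟨b, b.2⟩
  commutes' _ := rfl

theorem excP_rsd (hv : ∀ c : ℂ, v (algebraMap ℂ F c) ≤ 1) : ExcP v (plcAt (rsd hv)) :=
  excP_plcAt (fun _ => mem_vr) _ (fun z => by
    obtain ⟨a, rfl⟩ := IsLocalRing.residue_surjective (R := (rz v hv).1) z
    exact ⟨⟨a, a.2⟩, rfl⟩) fun a ha =>
      (IsLocalRing.residue_eq_zero_iff (R := (rz v hv).1) ⟨a, a.2⟩).2
        ((Valuation.mem_maximalIdeal_iff _ v).2 ha)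

variable {h : SmC P q c d} {G : Gens P q}

theorem ge_bl (h : SmC P q c d) (G : Gens P q) : Chn.Ge (G.bl h) P := mxf_mem fun x' => by
  obtain ⟨a, ha⟩ := exists_pat ((G.r h).map x')
  exact ⟨a, P.y_ne a, fun l => (Gens.r_dom x').le (y_mem ha l)⟩

theorem at_e {x' : Pts (G.bl h)} {a : Fin (P.N + 1)} {k : Fin (G.M + 1)}
    (ha : (G.r h).map x' ∈ pat P a) (hk : ∀ l, G.f l / G.f k ∈ (lp x').O) :
    At (G.m • oP P - mxf ℂ G.f) x' (G.g a k)⁻¹ := by
  rw [inv_div]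
  exact ((at_mxf (x := x') (P.y_ne a) fun l => (Gens.r_dom x').le (y_mem ha l)).nsmul G.m).sub
    (at_mxf (G.ne k) hk)

theorem isEmb_md {Z : PModel ℂ κ} (hZ : Md q P Z) : IsEmb (X := sv Z) (Y := sv P) hZ.mor :=
  ⟨hZ.injective, fun z g hg => (hZ.ov z).surj g hg⟩

/-- the exceptional divisor -/
theorem isDv_exc {K : Type} [Field K] [Algebra ℂ K] {p : Plc F K} {E : PModel ℂ K}
    (hv : IsOrd q v) (hp : ExcP v p) (hE : Md p (G.bl h) E) :
    IsDv (X := sv E) (Y := sv (G.bl h)) hE.mor (G.m • oP P - mxf ℂ G.f) where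
  emb := isEmb_md hE
  off y hy := by
    obtain ⟨a, ha⟩ := exists_pat ((G.r h).map y)
    obtain ⟨k, hk⟩ := Gens.exists_gen (h := h) y
    have h1 := (at_e ha hk).mul_unit (hv.ev_g_ne (mt hp.le_iff.2 (mt hE.mem_range.2 hy)) ha hk)
    rwa [mul_inv_cancel₀ (G.g_ne a k)] at h1
  eqn x := by
    obtain ⟨a, ha⟩ := exists_pat ((G.r h).map (hE.mor.map x))
    obtain ⟨k, hk⟩ := Gens.exists_gen (h := h) (hE.mor.map x)
    have h1 := hv.eqn_g (hp.le_iff.1 (hE.ov x).le) ha hk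
    refine ⟨_, h1.mem, at_e ha hk, fun f hf => (hp.eq_iff (h1.loc.le f hf)).trans
      ⟨h1.div f hf, fun h2 => ?_⟩⟩
    rw [← div_mul_cancel₀ f (G.g_ne a k), map_mul, h1.val]
    exact (mul_le_of_le_one_left' (h1.loc.le _ h2)).trans_lt (by
      rw [← exp_zero, exp_lt_exp]; decide)

theorem prm_bl (hv : IsOrd q v) (hc : 0 < c) (W : RZ ℂ F) :
    Prm (oP (G.bl h)) W ↔ W = rz v hv.triv ∨ Prm (oP P) W := by
  have := Geo.eft P
  refine ⟨fun h1 => ?_, ?_⟩
  · rcases (hv.isPD_bl G h hc).1 (Geo.isPD_nv h1) with h2 | h2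
    · refine Or.inl ?_
      subst h2
      exact (Geo.rz_nv h1.dvs).symm
    · exact Or.inr ((Geo.prm_iff_isPD h1.dvs).2 h2)
  · rintro (rfl | h1)
    exacts [Geo.prm_of_isPD (hv.isPD G h hc), Geo.prm_up (ge_bl h G) h1]

theorem pri_bl (h : SmC P q c d) (G : Gens P q) (W : RZ ℂ F) (hW : ∀ f ∈ q.O, f ∈ W.1) :
    ∃ g, Van q.O g ∧ g ≠ 0 ∧ ∀ f, Van q.O f → f / g ∈ loc (oP (G.bl h)) W := by
  have := Geo.eft P
  obtain ⟨x, hx⟩ := h.ne
  obtain ⟨a, ha⟩ := exists_pat x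
  obtain ⟨x', h1⟩ := Geo.exists_ov (P := G.bl h) W
  obtain ⟨k, hk⟩ := Gens.exists_gen (h := h) x'
  have h2 : (lp x).O ≤ loc (oP (G.bl h)) W := fun f hf =>
    (Geo.car_of_On (ge_bl h G)).loc_le W (Geo.lp_le_loc (fun f hf => hW f (hx hf)) hf)
  refine ⟨G.g a k, van_plc.2 ⟨hx (Gens.g_mem ha k), G.van k a ((A_le ha).trans hx)⟩, G.g_ne a k,
    fun f hf => ?_⟩
  obtain ⟨h3, h4⟩ := van_plc.1 hf
  obtain ⟨u, hu, t, ht, h5, h6⟩ := h.loc x hx f h3
  have h7 := ((G.gen a x ha u hu fun _ => by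
    rw [← h6, q.π_mul h3 (hx ht), h4, zero_mul]).mono h2).div_mem (g := G.g a k) fun l =>
      G.g_div a l k ▸ Geo.lp_le_loc h1 (hk l)
  have h8 := mul_mem h7 (Neg.inv_mem_loc (h2 ht) (Cns.un_iff_val.1
    ⟨Plc.ne_zero_of_ne h5, hW _ (hx ht), hW _ (q.inv_mem h5)⟩))
  rwa [← h6, ← div_eq_mul_inv, div_right_comm, mul_div_cancel_right₀ _ (Plc.ne_zero_of_ne h5)]
    at h8

theorem lcl_md (h : SmC P q c d) {Z : PModel ℂ κ} (hZ : Md q P Z) (z : Pts Z) (f : F)
    (hf : f ∈ q.O) : ∃ c ∈ (lp (hZ.mor.map z)).O, q.π c ≠ 0 ∧ c * f ∈ (lp (hZ.mor.map z)).O := by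
  obtain ⟨u, hu, t, ht, h1, h2⟩ := h.loc _ (hZ.ov z).le f hf
  exact ⟨t, ht, h1, by rwa [mul_comm, h2]⟩

theorem rat_md {K : Type} [Field K] [Algebra ℂ K] {p : Plc F K} (h : SmC P q 2 d)
    (hv : IsOrd q v) (hp : ExcP v p) : Nonempty (K ≃ₐ[ℂ] RatFunc κ) := by
  obtain ⟨x, hx⟩ := h.ne
  obtain ⟨s, w, ha⟩ := h.crd x hx
  exact ⟨(rat_exc h hv hp (ha.coI h)).choose⟩

theorem mor_map (h : SmC P q c d) (G : Gens P q) (x' : Pts (G.bl h)) :
    Mor.map (P' := G.bl h) (P := P) (Chn.mor (ge_bl h G)) x' = (G.r h).map x' :=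
  (Gens.r_eq (h := h) (x' := x') (Form88.bir_dom (W := G.bl h) (Y := P)
    (μ := Chn.mor (ge_bl h G)) rfl x')).symm

theorem comm_md {K : Type} [Field K] [Algebra ℂ K] {p : Plc F K} (h : SmC P q c d)
    (G : Gens P q) (hv : IsOrd q v) (hp : ExcP v p) {E : PModel ℂ K} (hE : Md p (G.bl h) E)
    {Z : PModel ℂ κ} (hZ : Md q P Z) :
    (Mor.comp (P'' := E) (P' := G.bl h) (P := P) (Chn.mor (ge_bl h G)) hE.mor).map =
      (Mor.comp hZ.mor (prj hv hp hE hZ)).map := funext fun x =>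
  ((Mor.comp_map (P'' := E) (P' := G.bl h) (P := P) (Chn.mor (ge_bl h G)) hE.mor x).trans
    ((mor_map h G _).trans (prj_comm hv hp hE hZ x).symm)).trans (Mor.comp_map _ _ x).symm

/-- **the blow-up** -/
def ofGens (h : SmC P q 2 2) (G : Gens P q) (hv : IsOrd q v) {p : Plc F (Rf (rz v hv.triv))}
    (hp : ExcP v p) {E : PModel ℂ (Rf (rz v hv.triv))} (hE : Md p (G.bl h) E) {Z : PModel ℂ κ}
    (hZ : Md q P Z) : Chn.Bw F where
  lo := P
  hi := G.bl h
  ge := ge_bl h G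
  Z := sv Z
  E := sv E
  i := hZ.mor
  j := hE.mor
  π := prj hv hp hE hZ
  e := G.m • oP P - mxf ℂ G.f
  V := rz v hv.triv
  dimK := h.finrank_F
  dimE := (smC_exc G h hv hp two_pos (d' := 3) rfl).finrank_κ
  dimZ := h.finrank_κ
  emb := isEmb_md hZ
  dv := isDv_exc hv hp hE
  comm := comm_md h G hv hp hE hZ
  along := hp.mem
  lcl := lcl_md h hZ
  prm := prm_bl hv two_pos
  nprm := mt (Geo.isPD_iff_prm hv.triv (hv.nrm h two_pos)).2 (hv.not_isPD h le_rfl)
  pri := pri_bl h G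
  rat := rat_md h hv hp

theorem blowGStmt {C : Th} (A : C.Ax) : Bl53.BlowGStmt C := fun K _ _ V O hO => by
  obtain ⟨κ, _, _, q, rfl, h⟩ := exists_smC (c := 2) (d := 2) rfl hO.ne hO.loc hO.crd
  obtain ⟨G⟩ := h.exists_gens two_pos
  obtain ⟨v, hv⟩ := h.exists_ord two_pos
  have hp := excP_rsd hv.triv
  exact ⟨ofGens h G hv hp (smC_exc G h hv hp two_pos (d' := 3) rfl).md h.md, rfl, rfl,
    lh_bl A _ h G rfl rfl, h, G, rfl, rfl⟩


end Crest.Agent.X262.Lh39
end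
end

-- ▼ part X262/Emb5/Defs
section

/-!
# Row 262, road B, EMB adapter (helper5): one more factor, class level

* `opt m t` : the embedding `m` with one more factor `t`;
* `Step V`  : the invariants of `m` are the sums of the invariants of `opt m t`.
-/

set_option autoImplicit false

noncomputable section

namespace Crest.Agent.X262.Emb5

open Crest.Agent.X277 Crest.Agent.X277.BD
open Crest.Agent.X262.Coh Crest.Agent.X262.Gwb

variable {Y : SV}

/-- one more factor -/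
def opt (m : Emb Y) (t : Tup Y.F) (ht : t.Reg Y) (hn : Nontrivial t.io) : Emb Y where
  J := Option m.J
  T j := j.elim t m.T
  reg j := by cases j; exacts [ht, m.reg _]
  emb := End36.IsE.mono m.emb some fun _ => rfl
  nt j := by cases j; exacts [hn, m.nt _]
  cod := End36.rs_cod (μ := idH Y) (T' := fun j : Option m.J => j.elim t m.T)
    (Option.some_injective _) (fun _ => End36.rs_id _) m.cod

/-- the invariants of `m` are the sums of the invariants of `opt m t` -/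
def Step {C : Coh.Th} {B : Hb.Th} (V : Vir C B) : Prop :=
  ∀ (Y : SV) (m : Emb Y) (t : Tup Y.F) (ht : t.Reg Y) (hn : Nontrivial t.io) (d : m.J → ℕ),
    ∃ N₀ : ℕ, ∀ l : Multiset (C.H Y),
      (∀ n, N₀ < n → (V.num (opt m t ht hn)).gw (fun j : Option m.J => j.elim n d) l = 0) ∧
      (V.num m).gw d l =
        ∑ n ∈ Finset.range (N₀ + 1), (V.num (opt m t ht hn)).gw (fun j : Option m.J => j.elim n d) l

end Crest.Agent.X262.Emb5
end
end

-- ▼ part X262/Emb5/Graph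
section

/-!
# Row 262, road B, EMB adapter (helper5): local formulas for a morphism

* `Fr w z f`    : `f = P / Q` with multihomogeneous `P`, `Q` and `Q z ≠ 0`;
* `fr_of_mem`   : every function which is regular at a point of the closure of `w` is such;
* `Fml m t q κ` : `q` is a formula for the tuple `t`;  `exists_fml`, `exists_fin_fml`;
* `mh_aeval`    : substitution of multihomogeneous polynomials.
-/

set_option autoImplicit false

noncomputable section

namespace Crest.Agent.X262.Emb5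

open Crest.Agent.X277 Crest.Agent.X277.Lef Crest.Agent.X277.AN.G1 Crest.Agent.X277.BD
  Crest.Agent.X277.BD.Br Crest.Agent.X262.Coh MvPolynomial
open Crest.Agent.X262.Gwb Crest.Agent.X262.Vb
open Crest.Agent.X262.Hb64 (IsPt KP exists_isPt)

theorem wh_aeval {σ τ M N : Type} [AddCommMonoid M] [AddCommMonoid N] {w : σ → M} {w' : τ → N}
    (ψ : M →+ N) {f : σ → MvPolynomial τ ℂ} (hf : ∀ i, (f i).IsWeightedHomogeneous w' (ψ (w i)))
    {G : MvPolynomial σ ℂ} {κ : M} (h : G.IsWeightedHomogeneous w κ) :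
    (aeval f G).IsWeightedHomogeneous w' (ψ κ) := by
  induction h using IsWeightedHomogeneous.induction_on with
  | zero => rw [map_zero]; exact isWeightedHomogeneous_zero _ _ _
  | add p q _ _ hp hq => rw [map_add]; exact hp.add hq
  | monomial d r hr =>
    rw [aeval_monomial, ← hr, Finsupp.weight_apply, Finsupp.sum, map_sum]
    refine IsWeightedHomogeneous.C_mul (IsWeightedHomogeneous.prod _ _ _ fun i _ => ?_) r
    rw [map_nsmul]
    exact (hf i).pow _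

variable {Y : SV} {m : Pre Y} {K : Type} [Field K] [Algebra ℂ K]

/-- `f` is the quotient `P / Q`, also at the point `w` with coordinates `z` -/
def FrD (w : KP Y K) (z : Pnt m.io K) (Q : MvPolynomial (Vr m.io) ℂ) (κ : m.J → ℕ) (f : Y.F) :
    Prop :=
  ∃ P, MH P κ ∧ f * pv m.y Q = pv m.y P ∧ w.p.π f * pv z Q = pv z P

/-- `f` is a quotient of multihomogeneous polynomials -/
def Fr (w : KP Y K) (z : Pnt m.io K) (f : Y.F) : Prop :=
  f ∈ w.p.O ∧ ∃ Q κ, MH Q κ ∧ pv z Q ≠ 0 ∧ FrD w z Q κ f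

variable {w : KP Y K} {z : Pnt m.io K}

theorem FrD.mul {Q Q' : MvPolynomial (Vr m.io) ℂ} {κ κ' : m.J → ℕ} {f : Y.F} (h : FrD w z Q κ f)
    (h' : MH Q' κ') : FrD w z (Q * Q') (κ + κ') f := by
  obtain ⟨P, h1, h2, h3⟩ := h
  refine ⟨P * Q', h1.mul h', ?_, ?_⟩
  · simp only [pv, map_mul] at h2 ⊢
    rw [← h2, mul_assoc]
  · simp only [pv, map_mul] at h3 ⊢
    rw [← h3, mul_assoc]

/-- common denominators -/
theorem exists_den {ι : Type} [Fintype ι] {f : ι → Y.F} (h : ∀ a, Fr w z (f a)) :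
    ∃ Q κ, MH Q κ ∧ pv z Q ≠ 0 ∧ ∀ a, FrD w z Q κ (f a) := by
  classical
  choose Q κ h1 h2 h3 using fun a => (h a).2
  refine ⟨∏ a, Q a, ∑ a, κ a, IsWeightedHomogeneous.prod _ _ _ fun a _ => h1 a, ?_, fun a => ?_⟩
  · rw [pv, map_prod]
    exact Finset.prod_ne_zero_iff.2 fun a _ => h2 a
  · rw [← Finset.mul_prod_erase _ _ (Finset.mem_univ a),
      ← Finset.add_sum_erase _ _ (Finset.mem_univ a)]
    exact (h3 a).mul (IsWeightedHomogeneous.prod _ _ _ fun a _ => h1 a)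

theorem fr_adj (h : IsPt m w z) (hz : NZ z) {x : Y.Pt} (hx : (lp x).O ≤ w.p.O) {f : Y.F}
    (hf : f ∈ Algebra.adjoin ℂ (crdAt m.T x)) : Fr w z f := by
  induction hf using Algebra.adjoin_induction with
  | mem a ha =>
    obtain ⟨j, i, i', h1, rfl⟩ := ha
    have h2 := h.ne_of_at hz hx h1
    refine ⟨(h j i i' h2).1, X ⟨j, i'⟩, _, isWeightedHomogeneous_X ℂ _ _, by simpa [pv] using h2,
      X ⟨j, i⟩, isWeightedHomogeneous_X ℂ _ (⟨j, i⟩ : Vr m.io), ?_, ?_⟩
    · simp only [pv, aeval_X]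
      exact div_mul_cancel₀ _ h1.ne
    · simp only [pv, aeval_X]
      exact (congrArg (· * _) (h j i i' h2).2).trans (div_mul_cancel₀ _ h2)
  | algebraMap c =>
    exact ⟨algebraMap_mem _ c, 1, 0, isWeightedHomogeneous_one ℂ _, by simp [pv], C c,
      isWeightedHomogeneous_C _ _, by simp [pv], by simp [pv, Plc.π_alg]⟩
  | add a b _ _ ha hb =>
    obtain ⟨Q, κ, h1, h2, h3⟩ := exists_den (f := ![a, b]) (Fin.forall_fin_two.2 ⟨ha, hb⟩)
    obtain ⟨P, h4, h5, h6⟩ := h3 0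
    obtain ⟨P', h4', h5', h6'⟩ := h3 1
    refine ⟨add_mem ha.1 hb.1, Q, κ, h1, h2, P + P', h4.add h4', ?_, ?_⟩
    · exact (add_mul _ _ _).trans ((congrArg₂ (· + ·) h5 h5').trans (map_add _ _ _).symm)
    · rw [w.p.π_add ha.1 hb.1]
      exact (add_mul _ _ _).trans ((congrArg₂ (· + ·) h6 h6').trans (map_add _ _ _).symm)
  | mul a b _ _ ha hb =>
    obtain ⟨ha, Q, κ, h1, h2, P, h4, h5, h6⟩ := ha
    obtain ⟨hb, Q', κ', h1', h2', P', h4', h5', h6'⟩ := hb
    refine ⟨mul_mem ha hb, Q * Q', κ + κ', h1.mul h1', ?_, P * P', h4.mul h4', ?_, ?_⟩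
    · rw [pv, map_mul]
      exact mul_ne_zero h2 h2'
    · simp only [pv, map_mul] at h5 h5' ⊢
      rw [← h5, ← h5', mul_mul_mul_comm]
    · simp only [pv, map_mul] at h6 h6' ⊢
      rw [w.p.π_mul ha hb, ← h6, ← h6', mul_mul_mul_comm]

/-- **regular functions are quotients of multihomogeneous polynomials** -/
theorem fr_of_mem (h : IsPt m w z) (hz : NZ z) {x : Y.Pt} (hx : (lp x).O ≤ w.p.O) {f : Y.F}
    (hf : f ∈ (lp x).O) : Fr w z f := by
  obtain ⟨a, ha, c, hc, h3, rfl⟩ := m.emb x f hf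
  have h5 : w.p.π c ≠ 0 := Strat.Fac.π_ne hx (Res.Log.un_iff.2 h3)
  have ha := fr_adj h hz hx ha
  have hc := fr_adj h hz hx hc
  obtain ⟨Q, κ, -, h2, h4⟩ := exists_den (f := ![f * c, c]) (Fin.forall_fin_two.2 ⟨ha, hc⟩)
  obtain ⟨P, h6, h7, h8⟩ := h4 0
  obtain ⟨P', h6', h7', h8'⟩ := h4 1
  refine ⟨hx hf, P', κ, h6', h8' ▸ mul_ne_zero h5 h2, P, h6, ?_, ?_⟩
  · rw [← h7, ← h7']
    exact (mul_assoc _ _ _).symm
  · rw [← h8, ← h8', ← mul_assoc]
    exact congrArg (· * _) (w.p.π_mul (hx hf) hc.1).symm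

/-- `q` is a formula of multidegree `κ` for the tuple `t` -/
def Fml (m : Pre Y) (t : Tup Y.F) (q : t.io → MvPolynomial (Vr m.io) ℂ) (κ : m.J → ℕ) : Prop :=
  (∀ a, MH (q a) κ) ∧ ∃ c, ∀ a, pv m.y (q a) = c * t.y a

/-- a formula near a given point -/
theorem exists_fml {t : Tup Y.F} (ht : t.Reg Y) (hz : NZ z) (h : m.On z) :
    ∃ q κ, Fml m t q κ ∧ ∃ a, pv z (q a) ≠ 0 := by
  obtain ⟨w, hw⟩ := exists_isPt (m := m) hz h
  obtain ⟨x, hx⟩ := w.pt
  obtain ⟨i, hi⟩ := End36.exists_at ht x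
  obtain ⟨Q, κ, -, h2, h3⟩ := exists_den fun a => fr_of_mem hw hz hx (End36.div_mem_at hi a)
  choose P h4 h5 h6 using h3
  refine ⟨P, κ, ⟨h4, pv m.y Q / t.y i, fun a => ?_⟩, i, ?_⟩
  · rw [← h5]
    ring
  · rwa [← h6, div_self hi.ne, Plc.π_one, one_mul]

/-- **finitely many formulas cover the variety** -/
theorem exists_fin_fml (m : Pre Y) {t : Tup Y.F} (ht : t.Reg Y) :
    ∃ (L : Type) (_ : Fintype L) (q : L → t.io → MvPolynomial (Vr m.io) ℂ) (κ : L → m.J → ℕ),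
      (∀ l, Fml m t (q l) (κ l)) ∧ ∀ (K : Type) [Field K] [Algebra ℂ K] (z : Pnt m.io K), NZ z →
        m.On z → ∃ l a, pv z (q l a) ≠ 0 := by
  obtain ⟨s, hs, e⟩ := (Submodule.fg_span_iff_fg_span_finset_subset _).1
    (IsNoetherian.noetherian (Ideal.span {G | ∃ q κ a, Fml m t q κ ∧ G = q a}))
  choose q κ a h1 h2 using fun G : s => hs G.2
  refine ⟨s, inferInstance, q, κ, h1, fun K _ _ z hz h => ?_⟩
  by_contra! h3
  obtain ⟨q₀, κ₀, h4, a₀, h5⟩ := exists_fml ht hz h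
  have h6 : Ideal.span (s : Set (MvPolynomial (Vr m.io) ℂ)) ≤
      RingHom.ker (aeval fun v : Vr m.io => z v.1 v.2 : _ →ₐ[ℂ] K) :=
    Ideal.span_le.2 fun G hG => (congrArg (pv z) (h2 ⟨G, hG⟩)).trans (h3 _ _)
  exact h5 (h6 (e.le (Ideal.subset_span ⟨q₀, κ₀, a₀, h4, rfl⟩)))

end Crest.Agent.X262.Emb5
end
end

-- ▼ part X262/Emb5/Main
section

/-!
# Row 262, road B, EMB adapter (helper5): the step

* `exists_gr` : the target of `opt m t` is the graph of `t` over the target of `m`;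
* `step_of`   : `Emb.EmbStmt → Step V`.
-/

set_option autoImplicit false
set_option linter.unusedSectionVars false

noncomputable section

namespace Crest.Agent.X262.Emb5

open Crest.Agent.X277 Crest.Agent.X277.BD Crest.Agent.X262.Coh MvPolynomial
open Crest.Agent.X262.Gwb Crest.Agent.X262.Vb Crest.Agent.X262.Qn
open Crest.Agent.X262.Emb (bs prP exP exd upq prF Gr cp' EmbStmt)

section Gen

variable {J : Type} [Fintype J] [DecidableEq J] {io : Option J → Type} [∀ j, Fintype (io j)]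
  [∀ j, DecidableEq (io j)] {E : Type} [Field E] [Algebra ℂ E]

theorem pv_upq (y : Pnt io E) (q : MvPolynomial (Vr (bs io)) ℂ) : pv y (upq q) = pv (prP y) q :=
  aeval_rename _ _ _

theorem mh_upq {q : MvPolynomial (Vr (bs io)) ℂ} {κ : J → ℕ} (h : MH q κ) :
    MH (upq q) (∑ k, κ k • Pi.single (some k) 1) :=
  mh_rename (io' := io) some (fun _ => id) h

/-- substitution of the formula `q` for the new variables -/
def sbs (q : io none → MvPolynomial (Vr (bs io)) ℂ) : Vr io → MvPolynomial (Vr (bs io)) ℂ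
  | ⟨none, a⟩ => q a
  | ⟨some j, i⟩ => X ⟨j, i⟩

theorem pv_sbs (q : io none → MvPolynomial (Vr (bs io)) ℂ) (y : Pnt (bs io) E)
    (G : MvPolynomial (Vr io) ℂ) :
    pv y (aeval (sbs q) G) = pv (exP y fun a => pv y (q a)) G := by
  refine (comp_aeval_apply _ _ G).trans (congrArg (fun f => aeval f G) (_root_.funext ?_))
  rintro ⟨_ | j, i⟩
  · rfl
  · exact aeval_X _ _

theorem mh_sbs {q : io none → MvPolynomial (Vr (bs io)) ℂ} {μ : J → ℕ} (hq : ∀ a, MH (q a) μ)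
    {G : MvPolynomial (Vr io) ℂ} {κ : Option J → ℕ} (h : MH G κ) :
    ∃ κ', MH (aeval (sbs q) G) κ' := by
  let ψ : (Option J → ℕ) →ₗ[ℕ] (J → ℕ) :=
    Fintype.linearCombination ℕ fun j : Option J => j.elim μ fun j => Pi.single j 1
  refine ⟨_, wh_aeval ψ.toAddMonoidHom ?_ h⟩
  rintro ⟨j, i⟩
  rw [LinearMap.toAddMonoidHom_coe, Fintype.linearCombination_apply_single, one_smul]
  cases j
  · exact hq i
  · exact isWeightedHomogeneous_X ℂ _ _

variable {A A' : Type} [Fintype A] [Fintype A'] {T : Tgt (bs io) A} {T' : Tgt io A'}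

theorem on_prP (h : ∀ a, upq (T.F a) ∈ Ideal.span (Set.range T'.F)) {y : Pnt io E}
    (hy : T'.On y) : T.On (prP y) := fun a =>
  (pv_upq y _).symm.trans ((Ideal.span_le.2 (by rintro _ ⟨b, rfl⟩; exact hy b) :
    Ideal.span (Set.range T'.F) ≤ RingHom.ker (aeval fun v : Vr io => y v.1 v.2 : _ →ₐ[ℂ] E)) (h a))

theorem mcls_prF {B : Hb.Th} (h : ∀ a, upq (T.F a) ∈ Ideal.span (Set.range T'.F)) {M : Type}
    {Φ : MFam B (bs io) M} (hΦ : MCls B T Φ) : MCls B T' (prF Φ) :=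
  ⟨fun E _ _ _ y c h1 h2 h3 => hΦ.scl E (fun q => prP (y q)) (fun q j => c q (some j))
      (fun _ _ => h1 _ _) (fun q _ => h2 q _) fun q => on_prP h (h3 q),
    fun K E _ _ _ _ _ _ p y h1 h2 => hΦ.nat K E p (fun q => prP (y q)) (fun q _ => h1 q _)
      fun q => on_prP h (h2 q)⟩

end Gen

variable {Y : SV} (m : Gwb.Emb Y) (t : Tup Y.F) (ht : t.Reg Y) (hn : Nontrivial t.io)

theorem idF (a : Fin m.exists_tgt.choose) :
    upq (io := (opt m t ht hn).io) (m.tgt.F a) ∈ Ideal.span (Set.range (opt m t ht hn).tgt.F) :=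
  (opt m t ht hn).tgt_isEq.ge (Syz.mem_hI (mh_upq (io := (opt m t ht hn).io) (m.tgt.hom a))
    ((pv_upq (opt m t ht hn).y _).trans (Pre.on_iff.2 m.on_y a)))

/-- **the graph** -/
theorem exists_gr (d : m.J → ℕ) :
    Nonempty (Gr (io := (opt m t ht hn).io) m.tgt (opt m t ht hn).tgt d) := by
  obtain ⟨L, _, q, κ, h1, h2⟩ := exists_fin_fml m.toPre ht
  refine ⟨⟨L, κ, q, fun l => (h1 l).1, fun E _ _ _ s h3 _ h4 x =>
    h2 E _ (nz_ev s h3 x) (Pre.on_iff.1 (h4 x)), fun E _ _ y l _ h4 _ => ?_, idF m t ht hn,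
    fun l a b => ?_⟩⟩
  · refine (Pre.on_iff (m := (opt m t ht hn).toPre)).2 fun G κ' hG h0 => ?_
    obtain ⟨c, hc⟩ := (h1 l).2
    obtain ⟨κ₁, h5⟩ := mh_sbs (io := (opt m t ht hn).io) (h1 l).1 hG
    refine (pv_sbs (io := (opt m t ht hn).io) (q l) y G).symm.trans (Pre.on_iff.1 h4 _ κ₁ h5 ?_)
    refine (pv_sbs (io := (opt m t ht hn).io) (q l) m.y G).trans ?_
    have h6 := Node22.pv_scl hG (fun j : Option m.J => j.elim c fun _ => 1) (opt m t ht hn).y
    rw [h0, mul_zero] at h6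
    refine Eq.trans (congrArg (fun z => pv z G) (_root_.funext fun j => _root_.funext fun i => ?_)) h6
    cases j
    · exact hc i
    · exact (one_mul _).symm
  · obtain ⟨c, hc⟩ := (h1 l).2
    have h3 : ∀ a b, MH (X ⟨none, a⟩ * upq (io := (opt m t ht hn).io) (q l b)) _ := fun a b =>
      (isWeightedHomogeneous_X ℂ _ _).mul (mh_upq (io := (opt m t ht hn).io) ((h1 l).1 b))
    have h4 : ∀ a b, pv (opt m t ht hn).y (X ⟨none, a⟩ * upq (io := (opt m t ht hn).io) (q l b)) =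
        t.y a * (c * t.y b) := fun a b => (map_mul _ _ _).trans
      (congrArg₂ (· * ·) (aeval_X _ _) ((pv_upq (opt m t ht hn).y _).trans (hc b)))
    refine (opt m t ht hn).tgt_isEq.ge (Syz.mem_hI ((h3 a b).sub (h3 b a)) ?_)
    refine (map_sub _ _ _).trans ((congrArg₂ (· - ·) (h4 a b) (h4 b a)).trans ?_)
    ring

variable {C : Coh.Th} {B : Hb.Th} (V : Vir C B)
include V

theorem cod_opt : (opt m t ht hn).toPre.cod = cp' (opt m t ht hn).io m.toPre.cod := by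
  have h1 := (V.gen Y m.toPre).dm
  have h2 : adim (opt m t ht hn).io = (Fintype.card t.io - 1) + adim m.io := Fintype.sum_option _
  have h3 : cp' (opt m t ht hn).io m.toPre.cod = m.toPre.cod + (Fintype.card t.io - 1) := rfl
  rw [h3, Pre.cod, h2]
  change Y.dim + _ = _ at h1
  omega

theorem ev_opt (E : Type) [Field E] [Algebra ℂ E] [Algebra.EssFiniteType ℂ E]
    (z : Pnt (opt m t ht hn).io E) (h1 : NZ z) (h2 : (opt m t ht hn).On z) (a : C.H Y) :
    V.I.ev (opt m t ht hn).toPre E z a = V.I.ev m.toPre E (prP (io := (opt m t ht hn).io) z) a := by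
  let D : RsD (idH Y) m.toPre (opt m t ht hn).toPre some :=
    ⟨fun _ => Equiv.refl _, fun _ => 1, fun _ => 1, fun _ _ => Algebra.mem_top,
      fun _ _ => by simp [Cns.idM_p]; rfl⟩
  have h3 := V.hI.rs D E z h1 h2 a
  rwa [V.man.pb_id] at h3

theorem good_opt (d : m.J → ℕ) (n : ℕ) :
    Good (opt m t ht hn).tgt (cp' (opt m t ht hn).io m.toPre.cod) (exd d n) := by
  have h := V.good (opt m t ht hn) (exd d n)
  rwa [cod_opt m t ht hn V] at h

theorem gw_opt (d : m.J → ℕ) (n : ℕ) {M : Type} [Fintype M] (a : M → C.H Y) :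
    (V.num (opt m t ht hn)).gw (fun j : Option m.J => j.elim n d) (Finset.univ.val.map a) =
      GW B (opt m t ht hn).tgt (exd d n)
        (prF (io := (opt m t ht hn).io) (prd fun q => (V.I.e m.toPre).fam (a q))) := by
  have h1 : (fun j : Option m.J => j.elim n d) = exd d n :=
    _root_.funext fun j => by cases j <;> rfl
  have h2 := V.a0 (opt m t ht hn) (exd d n)
  rw [h1]
  exact (Ev.gw_eq h2 a).trans (GW_congr h2 (Ev.mcls (V.evAx (opt m t ht hn)) a)
    (mcls_prF (idF m t ht hn) (Ev.mcls (V.evAx m) a)) fun E _ _ _ y h3 h4 =>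
      Finset.prod_congr rfl fun q _ => ev_opt m t ht hn V E (y q) (h3 q) (Pre.on_iff.1 (h4 q)) (a q))

/-- **one more factor** -/
theorem step_of (hE : EmbStmt) : Step V := by
  intro Y m t ht hn d
  obtain ⟨G⟩ := exists_gr m t ht hn d
  have h0 := hE B V.hB (io := (opt m t ht hn).io) m.tgt (opt m t ht hn).tgt m.toPre.cod d
    (opt m t ht hn).nt (V.good m d) (good_opt m t ht hn V d) G
  obtain ⟨N, hN⟩ := h0
  refine ⟨N, fun l => ?_⟩
  obtain ⟨M, _, _, a, rfl, -⟩ := Ev.exists_idx l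
  have h1 : MCls B m.tgt (prd fun q => (V.I.e m.toPre).fam (a q)) := Ev.mcls (V.evAx m) a
  have h2 := hN (M := M) (prd fun q => (V.I.e m.toPre).fam (a q)) h1
  refine ⟨fun n h => (gw_opt m t ht hn V d n a).trans (h2.1 n h), ?_⟩
  rw [Finset.sum_congr rfl fun n _ => gw_opt m t ht hn V d n a]
  exact (Ev.gw_eq (V.a0 m d) a).trans h2.2

end Crest.Agent.X262.Emb5
end
end

-- ▼ part X262/EmbA/Main
section

/-!
# Row 262, road B, EMB adapter (helper1): from one more factor to `Gw.EMB`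

* `interp`, `Ref`, `Ref.trans` : refinement of gradings of numbers with a divisor equation;
* `gw_bij` : the numbers do not depend on the numbering of the factors;
* `emb_of_step` : `Step V → EqiStmt → V.gw.EMB`.
-/

set_option autoImplicit false
set_option linter.unusedSectionVars false

noncomputable section

namespace Crest.Agent.X262.EmbA

open Crest.Agent.X277 Crest.Agent.X277.BD
open Crest.Agent.X262.Coh Crest.Agent.X262.Vb Crest.Agent.X262.Qn Crest.Agent.X262.Gwb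
open Crest.Agent.X262.End66 Crest.Agent.X262.Emb5
open Finset

section Formal

variable {J₀ J₁ J H : Type}

/-- the divisor equation separates the degrees -/
theorem interp {h : J → H} {f : (J → ℕ) → Multiset H → ℂ}
    (hf : ∀ d j l, 3 ≤ Multiset.card l → f d (h j ::ₘ l) = d j * f d l) (S : Finset (J → ℕ))
    (c : (J → ℕ) → ℂ) (h0 : ∀ l, 3 ≤ Multiset.card l → ∑ d ∈ S, c d * f d l = 0) :
    ∀ d ∈ S, ∀ l, 3 ≤ Multiset.card l → c d * f d l = 0 := by
  induction S using Finset.cons_induction generalizing c with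
  | empty => simp
  | cons a S ha ih =>
    simp only [sum_cons] at h0
    have key : ∀ d ∈ S, ∀ l, 3 ≤ Multiset.card l → c d * f d l = 0 := fun d hd l hl => by
      obtain ⟨j, hj⟩ := Function.ne_iff.1 (show d ≠ a from fun e => ha (e ▸ hd))
      have h1 := ih (fun e => ((e j : ℂ) - a j) * c e) (fun l hl => by
        have h2 := h0 (h j ::ₘ l) (by simp; omega)
        simp only [hf _ j l hl] at h2
        have h3 : ∑ e ∈ S, ((e j : ℂ) - a j) * c e * f e l =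
            ∑ e ∈ S, c e * (e j * f e l) - a j * ∑ e ∈ S, c e * f e l := by
          rw [mul_sum, ← sum_sub_distrib]
          exact sum_congr rfl fun e _ => by ring
        linear_combination h3 + h2 - (a j : ℂ) * h0 l hl) d hd l hl
      rw [mul_assoc, mul_eq_zero, sub_eq_zero, Nat.cast_inj] at h1
      exact h1.resolve_left hj
    refine (forall_mem_cons _ _).2 ⟨fun l hl => ?_, key⟩
    have h1 := h0 l hl
    rwa [sum_eq_zero fun d hd => key d hd l hl, add_zero] at h1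

/-- the numbers `f` refine the numbers `f₀` along `g` -/
def Ref (f₀ : (J₀ → ℕ) → Multiset H → ℂ) (f : (J → ℕ) → Multiset H → ℂ) (g : J₀ → J) : Prop :=
  ∀ d₀, ∃ S : Finset (J → ℕ), (∀ d ∈ S, ∀ k, d (g k) = d₀ k) ∧ ∀ l, 3 ≤ Multiset.card l →
    (∀ d, (∀ k, d (g k) = d₀ k) → d ∉ S → f d l = 0) ∧ f₀ d₀ l = ∑ d ∈ S, f d l

theorem Ref.trans {f₀ : (J₀ → ℕ) → Multiset H → ℂ} {f₁ : (J₁ → ℕ) → Multiset H → ℂ}
    {f : (J → ℕ) → Multiset H → ℂ} {g₁ : J₀ → J₁} {g₂ : J₁ → J} (h1 : Ref f₀ f₁ g₁)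
    (h2 : Ref f₁ f g₂) {h : J → H}
    (hf : ∀ d j l, 3 ≤ Multiset.card l → f d (h j ::ₘ l) = d j * f d l) :
    Ref f₀ f fun k => g₂ (g₁ k) := fun d₀ => by
  classical
  choose S₂ h3 h4 using h2
  obtain ⟨S₁, h5, h6⟩ := h1 d₀
  refine ⟨S₁.biUnion S₂, fun d hd k => ?_, fun l hl => ⟨fun d hd hS => ?_, ?_⟩⟩
  · obtain ⟨d₁, h7, h8⟩ := mem_biUnion.1 hd
    rw [h3 d₁ d h8, h5 d₁ h7]
  · by_cases h7 : d ∈ S₂ fun k => d (g₂ k)
    · have h8 : (fun k => d (g₂ k)) ∉ S₁ := fun h8 => hS (mem_biUnion.2 ⟨_, h8, h7⟩)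
      simpa using interp hf _ (fun _ => 1) (fun l hl => by
        simp only [one_mul]
        rw [← (h4 _ l hl).2, (h6 l hl).1 _ hd h8]) d h7 l hl
    · exact (h4 _ l hl).1 d (fun _ => rfl) h7
  · rw [sum_biUnion fun a _ b _ hab => disjoint_left.2 fun d ha hb =>
      hab (funext fun k => (h3 a d ha k).symm.trans (h3 b d hb k)), (h6 l hl).2]
    exact sum_congr rfl fun d₁ _ => (h4 d₁ l hl).2

end Formal

section Rx

variable {J : Type} [Fintype J] [DecidableEq J] {io : J → Type} [∀ j, Fintype (io j)]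
  [∀ j, DecidableEq (io j)] {J' : Type} [Fintype J'] [DecidableEq J'] {io' : J' → Type}
  [∀ j, Fintype (io' j)] [∀ j, DecidableEq (io' j)] (r : Rx io io')

theorem mh_of_rename {q : MvPolynomial (Vr io) ℂ} {κ : J' → ℕ}
    (h : MH (MvPolynomial.rename r.vr q) κ) : MH q fun j => κ (r.e j) := by
  intro s hs
  have h1 := h (d := s.mapDomain r.vr)
    (by rwa [MvPolynomial.coeff_rename_mapDomain _ r.vr.injective])
  have h2 := r.mh (q := MvPolynomial.monomial s 1)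
    (MvPolynomial.isWeightedHomogeneous_monomial _ _ _ rfl) (d := s.mapDomain r.vr)
    (by rw [MvPolynomial.coeff_rename_mapDomain _ r.vr.injective]; simp)
  funext j
  simp only [← h1, h2, Equiv.symm_apply_apply]

end Rx

variable {Y : SV}

/-- equal tuples -/
def tupE {F : Type} {t t' : Tup F} (h : t = t') : t.io ≃ t'.io := Equiv.cast (congrArg Tup.io h)

theorem tupE_y {F : Type} {t t' : Tup F} (h : t = t') (i : t.io) : t'.y (tupE h i) = t.y i := by
  subst h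
  rfl

section Bij

variable {m₀ m : Pre Y} (r : Rx m₀.io m.io) (hr : r.pt m.y = m₀.y)
include hr

theorem same_tgt : Same m.tgt (r.tgt m₀.tgt) := by
  refine ⟨fun b => loc_of_mem (m.tgt_isEq.ge (Syz.mem_hI ((r.tgt m₀.tgt).hom b) ?_)),
    fun a => loc_of_mem ?_⟩
  · exact (r.on_tgt m₀.tgt m.y).2 (hr ▸ Pre.on_iff.2 Pre.on_y) b
  · obtain ⟨q, hq⟩ := (MvPolynomial.renameEquiv ℂ r.vr).surjective (m.tgt.F a)
    have h0 : MvPolynomial.rename r.vr q = m.tgt.F a := hq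
    have h1 : q ∈ Ideal.span (Set.range m₀.tgt.F) :=
      m₀.tgt_isEq.ge (Syz.mem_hI (mh_of_rename r (h0 ▸ m.tgt.hom a)) (by
        have h2 := r.pv_rename m.y q
        rw [hr, h0, Pre.on_iff.2 Pre.on_y a] at h2
        exact h2.symm))
    have h2 := Ideal.mem_map_of_mem (MvPolynomial.rename r.vr) h1
    rwa [Ideal.map_span, ← Set.range_comp, h0] at h2

/-- the data of the identity -/
def rsD : RsD (idH Y) m₀ m r.e where
  e := r.ei
  u _ := 1
  c _ := 1
  mem _ _ := Algebra.mem_top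
  eq k i := by
    rw [div_one, one_mul]
    exact congrFun (congrFun hr k) i

end Bij

variable {C : Coh.Th} {B : Hb.Th} (V : Vir C B)

/-- **renumbering** -/
theorem gw_bij (hE : EqiStmt) {m₀ m : Emb Y} (r : Rx m₀.toPre.io m.toPre.io)
    (hr : r.pt m.toPre.y = m₀.toPre.y) (d : m.J → ℕ) (l : Multiset (C.H Y)) :
    (V.num m₀).gw (fun j => d (r.e j)) l = (V.num m).gw d l := by
  obtain ⟨M, _, _, a, rfl, -⟩ := Ev.exists_idx l
  rw [Ev.gw_eq (V.a0 m₀ _), Ev.gw_eq (V.a0 m d), ← r.gw_tgt,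
    ← hE B V.hB _ _ _ d (rk_of_good (V.good m d)) (same_tgt r hr)]
  have hD := fun {E : Type} [Field E] [Algebra ℂ E] {z : Pnt m.toPre.io E} (h : m.tgt.On z) =>
    (Pre.on_iff.2 ((rsD r hr).on (Pre.on_iff.1 h)) : m₀.tgt.On (r.pt z))
  refine GW_congr (V.a0 m d) (mcls_prd (α := fun q E _ _ y => V.I.ev m₀.toPre E (r.pt y) (a q))
    fun q => ⟨fun E _ _ _ y c h1 h2 h3 => ?_, fun K E _ _ _ _ _ _ p y h1 h2 => ?_⟩)
    (Ev.mcls (V.evAx m) a) fun E _ _ _ y h1 h2 => prod_congr rfl fun q _ => ?_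
  · exact (V.hI.cls m₀.toPre (a q)).scl E (r.pt y) (fun j => c (r.e j)) (fun _ => h1 _)
      ((r.nz_pt y).2 h2) (hD h3)
  · refine (V.hI.cls m₀.toPre (a q)).nat K E p (r.pt y) (fun j => ⟨fun _ => (h1 _).1 _, ?_⟩) (hD h2)
    exact (r.ei j).surjective.exists.1 (h1 (r.e j)).2
  · have h3 := V.hI.rs (rsD r hr) E (y q) (h1 q) (Pre.on_iff.1 (h2 q)) (a q)
    rw [V.man.pb_id] at h3
    exact h3.symm

theorem ref_bij (hE : EqiStmt) {m₀ m : Emb Y} {g : m₀.J → m.J} (hg : Function.Bijective g)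
    (h : ∀ k, m₀.T k = m.T (g k)) : Ref (V.num m₀).gw (V.num m).gw g := fun d₀ => by
  let e := Equiv.ofBijective g hg
  have h1 : ∀ k, d₀ (e.symm (g k)) = d₀ k := fun k => congrArg d₀ (e.symm_apply_apply k)
  refine ⟨{fun j => d₀ (e.symm j)}, fun d hd k => mem_singleton.1 hd ▸ h1 k,
    fun l _ => ⟨fun d hd hS => (hS (mem_singleton.2 (funext fun j => ?_))).elim, ?_⟩⟩
  · rw [← hd]
    exact congrArg d (e.apply_symm_apply j).symm
  · rw [sum_singleton, ← gw_bij V hE ⟨e, fun k => tupE (h k)⟩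
      (funext fun k => funext (tupE_y (h k)))]
    exact congrArg ((V.num m₀).gw · l) (funext fun k => (h1 k).symm)

theorem ref_opt (hS : Step V) (m : Emb Y) (t : Tup Y.F) (ht : t.Reg Y) (hn : Nontrivial t.io) :
    Ref (V.num m).gw (V.num (opt m t ht hn)).gw some := fun d₀ => by
  obtain ⟨N, hN⟩ := hS Y m t ht hn d₀
  let φ : ℕ ↪ (Option m.J → ℕ) := ⟨fun n j => j.elim n d₀, fun _ _ h => congrFun h none⟩
  refine ⟨(range (N + 1)).map φ, fun d hd k => ?_, fun l _ => ⟨fun d hd h => ?_, ?_⟩⟩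
  · obtain ⟨n, -, rfl⟩ := mem_map.1 hd
    rfl
  · have h1 : d = φ (d none) := funext fun j => by cases j; exacts [rfl, hd _]
    rw [h1]
    refine (hN l).1 _ (not_le.1 fun h2 => h (mem_map.2 ⟨_, ?_, h1.symm⟩))
    exact mem_range.2 (Nat.lt_succ_of_le h2)
  · exact (hN l).2.trans (sum_map _ φ fun d => (V.num (opt m t ht hn)).gw d l).symm

theorem ref_all (hS : Step V) (hE : EqiStmt) (m : Emb Y) (n : ℕ) : ∀ (m₀ : Emb Y)
    (g : m₀.J → m.J), Function.Injective g → (∀ k, m₀.T k = m.T (g k)) →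
    Fintype.card m.J = Fintype.card m₀.J + n → Ref (V.num m₀).gw (V.num m).gw g := by
  induction n with
  | zero =>
    exact fun m₀ g hg h hc =>
      ref_bij V hE ((Fintype.bijective_iff_injective_and_card g).2 ⟨hg, hc.symm⟩) h
  | succ n ih =>
    intro m₀ g hg h hc
    obtain ⟨j, hj⟩ : ∃ j, ∀ k, g k ≠ j := by
      by_contra! h0
      have := Fintype.card_le_of_surjective g h0
      omega
    refine (ref_opt V hS m₀ (m.T j) (m.reg j) (m.nt j)).trans
      (ih _ (fun k : Option m₀.J => k.elim j g) ?_ (fun k => by cases k; exacts [rfl, h _]) ?_)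
      fun d j l hl => (V.numAx m).div d j l hl
    · rintro (_ | a) (_ | b) hab
      exacts [rfl, (hj b hab.symm).elim, (hj a hab).elim, congrArg some (hg hab)]
    · change _ = Fintype.card (Option m₀.J) + n
      rw [Fintype.card_option]
      omega

/-- **EMB** from one more factor -/
theorem emb_of_step (hS : Step V) (hE : EqiStmt) : V.gw.EMB := fun m₀ m g hg h d₀ l => by
  rcases lt_or_ge (Multiset.card l) 2 with hl | hl
  · exact ⟨∅, by simp, fun d _ _ => V.low m d l hl, V.low m₀ d₀ l hl⟩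
  obtain ⟨S, h1, h2⟩ := ref_all V hS hE m _ m₀ g hg h
    (Nat.add_sub_cancel' (Fintype.card_le_of_injective g hg)).symm d₀
  have h3 : ∀ y, 3 ≤ Multiset.card (y ::ₘ l) := fun y => by simp; omega
  refine ⟨S.map Finsupp.equivFunOnFinite.symm.toEmbedding, fun d hd => ?_, fun d hd hs => ?_,
    V.pd.ext fun y => ?_⟩
  · obtain ⟨e, he, rfl⟩ := mem_map.1 hd
    exact h1 e he
  · refine (V.pd _).2 _ fun y => ?_
    rw [mul_comm, V.itg_op m d hl]
    exact (h2 _ (h3 y)).1 d hd fun h4 => hs (mem_map.2 ⟨_, h4, by simp⟩)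
  · rw [mul_comm, V.itg_op m₀ d₀ hl, (h2 _ (h3 y)).2, sum_map, sum_mul, map_sum]
    exact sum_congr rfl fun e _ => by rw [mul_comm, V.itg_op m _ hl]; rfl

end Crest.Agent.X262.EmbA
end
end

-- ▼ part X262/PD/Diag
section

/-!
# Row 262, road B, PD (helper97): the Kuenneth formula for `dgc`

* `PtP B T y₀` : `dgc (y₁, y)` at an independent generic point `y` integrates to evaluation at `y₁`;
* `DgcP B T`   : `dgc` is a class on the square of the target;
* `diag_of_pt` : `Dlt`, `PtP`, `DgcP` give `Vb.Diag`.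
-/

set_option autoImplicit false
set_option linter.unusedSectionVars false

noncomputable section

namespace Crest.Agent.X262.PD.Dg

open Crest.Agent.X277 Crest.Agent.X277.BD Crest.Agent.X277.Pst Crest.Agent.X277.BD.Cyc
open Crest.Agent.X262.Hb Crest.Agent.X262.Vb Crest.Agent.X262.PD.Pr
open Crest.Agent.X262.Node22 (scl)

variable {J : Type} [Fintype J] [DecidableEq J] {io : J → Type} [∀ j, Fintype (io j)]
  [∀ j, DecidableEq (io j)] {A : Type} [Fintype A] (B : Th) (T : Tgt io A)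
  {K : Type} [Field K] [Algebra ℂ K]

/-- `dgc (y₁, y)`, `y` an independent generic point, is dual to the point `y₁` -/
def PtP (y₀ : Pnt io K) : Prop :=
  ∀ (F L : Type) [Field F] [Algebra ℂ F] [Algebra.EssFiniteType ℂ F] [Field L] [Algebra ℂ L]
    [Algebra.EssFiniteType ℂ L] (β : F →ₐ[ℂ] L) (γ : K →ₐ[ℂ] L), Prd β γ →
    ∀ Ψ : MFam B io (Fin 2), MCls B T Ψ → ∀ y₁ w : Pnt io F, NZ y₁ → T.On y₁ → NZ w → T.On w →
    ∀ x : B.H F, B.itg L (B.pb (LP.hom β) x * dgc B T (mpt β y₁) (mpt γ y₀) *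
      Ψ L ![mpt β w, mpt γ y₀]) = B.itg F (x * Ψ F ![w, y₁])

/-- `dgc` is a class on the square of the target -/
def DgcP : Prop := MCls B T (M := Fin 2) fun _ _ _ y => dgc B T (y 0) (y 1)

variable {B T}
variable {E F : Type} [Field E] [Algebra ℂ E] [Algebra.EssFiniteType ℂ E] [Field F] [Algebra ℂ F]
  [Algebra.EssFiniteType ℂ F]

theorem nz_mpt (α : E →ₐ[ℂ] F) {y : Pnt io E} (h : NZ y) : NZ (mpt α y) := (nz_map α).2 h

theorem on_mpt (α : E →ₐ[ℂ] F) {y : Pnt io E} (h : T.On y) : T.On (mpt α y) := (on_map T α).2 h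

theorem mpt_comp {L : Type} [Field L] [Algebra ℂ L] (α : E →ₐ[ℂ] F) (β : F →ₐ[ℂ] L)
    (y : Pnt io E) : mpt β (mpt α y) = mpt (β.comp α) y := rfl

theorem cls_hom {e : Fam B io} (he : Cls B T e) (α : E →ₐ[ℂ] F) {y : Pnt io E} (h : NZ y)
    (hO : T.On y) : B.pb (LP.hom α) (e E y) = e F (mpt α y) := by
  rw [he.nat E F _ y (prim_hom α h) hO, redP_hom]
  rfl

theorem mcls_snd {e : Fam B io} (he : Cls B T e) : MCls B T (M := Fin 2) fun E _ _ y => e E (y 1) :=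
  ⟨fun E _ _ _ y c h1 h2 h3 => he.scl E (y 1) (c 1) (h1 1) (h2 1) (h3 1),
    fun K E _ _ _ _ _ _ p y h1 h2 => he.nat K E p (y 1) (h1 1) (h2 1)⟩

namespace DgcP

variable (hg : DgcP B T) {y y' : Pnt io E}
include hg

theorem red (p : LP E F) (h : Prim p.V y) (h' : Prim p.V y') (hO : T.On y) (hO' : T.On y') :
    B.pb p (dgc B T y y') = dgc B T (redP p.toPl y) (redP p.toPl y') :=
  hg.nat E F p ![y, y'] (Fin.forall_fin_two.2 ⟨h, h'⟩) (Fin.forall_fin_two.2 ⟨hO, hO'⟩)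

theorem hom (α : E →ₐ[ℂ] F) (h : NZ y) (h' : NZ y') (hO : T.On y) (hO' : T.On y') :
    B.pb (LP.hom α) (dgc B T y y') = dgc B T (mpt α y) (mpt α y') := by
  rw [hg.red _ (prim_hom α h) (prim_hom α h') hO hO', redP_hom, redP_hom]
  rfl

theorem smul {c c' : J → E} (hc : ∀ j, c j ≠ 0) (hc' : ∀ j, c' j ≠ 0) (h : NZ y) (h' : NZ y')
    (hO : T.On y) (hO' : T.On y') : dgc B T (scl c y) (scl c' y') = dgc B T y y' :=
  hg.scl E ![y, y'] ![c, c'] (Fin.forall_fin_two.2 ⟨hc, hc'⟩) (Fin.forall_fin_two.2 ⟨h, h'⟩)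
    (Fin.forall_fin_two.2 ⟨hO, hO'⟩)

/-- the classes at two points with the same reduction have the same restriction -/
theorem meet (p : LP E F) {w : Pnt io E} (hw : NZ w) (h : NZ y) (h' : NZ y') (hOw : T.On w)
    (hO : T.On y) (hO' : T.On y') (hm : Meet p.V y y') :
    B.pb p (dgc B T w y') = B.pb p (dgc B T w y) := by
  obtain ⟨c, c', h1, h2, h3⟩ := hm
  change Prim p.V (scl c y) at h1
  change Prim p.V (scl c' y') at h2
  choose d hd using fun j => p.V.exists_v ((ln w j).val p.V)⁻¹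
  have h4 : Prim p.V (scl d w) := prim_scl hw hd
  have key : ∀ {c : J → E} {y : Pnt io E}, Prim p.V (scl c y) → ∀ j, c j ≠ 0 := fun h j =>
    (h.nz j).elim fun _ hi => left_ne_zero_of_mul hi
  have h5 : redP p.toPl (scl c' y') = redP p.toPl (scl c y) := by
    funext j i
    have h6 := (Pl.r_eq_zero (p := p.toPl) (sub_mem ((h1 j).1 i) ((h2 j).1 i))).2 (h3 j i)
    rw [Pl.r_sub ((h1 j).1 i) ((h2 j).1 i), sub_eq_zero] at h6
    exact h6.symm
  rw [← hg.smul (key h4) (key h2) hw h' hOw hO', ← hg.smul (key h4) (key h1) hw h hOw hO,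
    hg.red p h4 h2 ((on_scl_iff T (key h4)).2 hOw) ((on_scl_iff T (key h2)).2 hO'),
    hg.red p h4 h1 ((on_scl_iff T (key h4)).2 hOw) ((on_scl_iff T (key h1)).2 hO), h5]

end DgcP

theorem diag_of_pt (hB : B.Ax) [Algebra.EssFiniteType ℂ K] {y₀ : Pnt io K} (h0 : NZ y₀)
    (hO : T.On y₀) {ι : Type} [Fintype ι] {e e' : ι → Fam B io} (he : ∀ l, Cls B T (e l))
    (he' : ∀ l, Cls B T (e' l))
    {δ : ∀ (L : Type) [Field L] [Algebra ℂ L], (K →ₐ[ℂ] L) → (K →ₐ[ℂ] L) → B.H L}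
    (hD : Dlt B y₀ (fun l => e l K y₀) (fun l => e' l K y₀) δ)
    (h1 : ∑ l, B.itg K (e' l K y₀) • e l K y₀ = 1) (hp : PtP B T y₀) (hg : DgcP B T) :
    Diag B T e e' := by
  intro K₁ K₂ L _ _ _ _ _ _ _ _ _ α₁ α₂ hL y₁ y₂ n₁ o₁ n₂ o₂ x₁ x₂
  obtain ⟨M, _, _, _, β, γ, hM⟩ := exists_prd L K
  obtain ⟨N, _, _, _, μ, γ', hN⟩ := exists_prd M K
  obtain ⟨p₁, p₂, p₃⟩ := prd_split (a := μ.comp (β.comp α₁)) (b := μ.comp γ)
    (c := μ.comp (β.comp α₂)) (d := γ') (by rw [hN.1, hM.1, hL.1]; ring) (by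
      rw [cps, cps, sup_sup_sup_comm, ← AlgHom.map_fieldRange (β.comp α₁),
        ← AlgHom.map_fieldRange (β.comp α₂), ← AlgHom.map_fieldRange γ, ← sup_assoc,
        ← IntermediateField.map_sup, ← IntermediateField.map_sup, ← AlgHom.map_fieldRange α₁,
        ← AlgHom.map_fieldRange α₂, ← IntermediateField.map_sup, hL.2,
        ← AlgHom.fieldRange_eq_map, hM.2, ← AlgHom.fieldRange_eq_map, hN.2])
  -- (a) the right hand side
  have ha := hD.kun _ _ N _ _ p₃ (inr _ _) (inr _ _)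
    (B.pb (LP.hom (inl _ _)) x₁ * dgc B T (mpt (inl _ _) y₁) (mpt (inr _ _) y₀))
    (B.pb (LP.hom (inl _ _)) x₂ * dgc B T (mpt (inl _ _) y₂) (mpt (inr _ _) y₀))
  simp only [cls_hom (he _) _ h0 hO, cls_hom (he' _) _ h0 hO] at ha
  have ha1 := fun l => hp K₁ _ _ _ p₁ _ (mcls_snd (he l)) y₁ y₁ n₁ o₁ n₁ o₁ x₁
  have ha2 := fun l => hp K₂ _ _ _ p₂ _ (mcls_snd (he' l)) y₂ y₂ n₂ o₂ n₂ o₂ x₂
  simp only [Matrix.cons_val_one, Matrix.cons_val_zero] at ha1 ha2
  simp only [ha1, ha2] at ha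
  rw [map_mul (B.pb _), map_mul (B.pb _), hB.pb_hom_hom, hB.pb_hom_hom,
    hg.hom _ (nz_mpt _ n₁) (nz_mpt _ h0) (on_mpt _ o₁) (on_mpt _ hO),
    hg.hom _ (nz_mpt _ n₂) (nz_mpt _ h0) (on_mpt _ o₂) (on_mpt _ hO), mpt_comp, mpt_comp,
    mpt_comp, mpt_comp, val_inl, val_inl, val_inr, val_inr] at ha
  -- (b) the left hand side
  have n₁' := nz_mpt α₁ n₁
  have n₂' := nz_mpt α₂ n₂
  have o₁' := on_mpt α₁ o₁
  have o₂' := on_mpt α₂ o₂
  have hb := hp L M β γ hM _ hg _ _ n₂' o₂' n₁' o₁'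
    (B.pb (LP.hom α₁) x₁ * B.pb (LP.hom α₂) x₂)
  simp only [Matrix.cons_val_one, Matrix.cons_val_zero] at hb
  have hc := hD.kun M K N μ γ' hN γ (AlgHom.id ℂ K)
    (B.pb (LP.hom β) (B.pb (LP.hom α₁) x₁ * B.pb (LP.hom α₂) x₂) *
      dgc B T (mpt β (mpt α₂ y₂)) (mpt γ y₀) * dgc B T (mpt β (mpt α₁ y₁)) (mpt γ y₀)) 1
  have hd : ∀ z : B.H M, ∑ l, B.itg M (z * B.pb (LP.hom γ) (e l K y₀)) * B.itg K (e' l K y₀) =
      B.itg M z := fun z => by
    conv_rhs => rw [← mul_one z, ← map_one (B.pb (LP.hom γ)), ← h1]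
    simp only [map_sum, map_smul, Finset.mul_sum, mul_smul_comm, smul_eq_mul, mul_comm]
  simp only [hB.pb_id, one_mul, hd, map_one, mul_one, AlgHom.comp_id] at hc
  have hs := hD.sup M K N μ γ' hN γ (AlgHom.id ℂ K)
    (B.pb (LP.hom (μ.comp (β.comp α₁))) x₁ * B.pb (LP.hom (μ.comp (β.comp α₂))) x₂ *
      dgc B T (mpt (μ.comp (β.comp α₁)) y₁) (mpt (μ.comp γ) y₀) *
      (dgc B T (mpt (μ.comp (β.comp α₂)) y₂) (mpt γ' y₀) -
        dgc B T (mpt (μ.comp (β.comp α₂)) y₂) (mpt (μ.comp γ) y₀))) fun E _ _ _ p hm => by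
      rw [AlgHom.comp_id] at hm
      rw [map_mul, map_sub, hg.meet p (nz_mpt _ n₂) (nz_mpt _ h0) (nz_mpt _ h0) (on_mpt _ o₂)
        (on_mpt _ hO) (on_mpt _ hO) hm, sub_self, mul_zero]
  rw [mul_sub, sub_mul, map_sub, sub_eq_zero, AlgHom.comp_id] at hs
  rw [hb, map_mul (B.pb _), map_mul (B.pb _), map_mul (B.pb _), map_mul (B.pb _), hB.pb_hom_hom,
    hB.pb_hom_hom, hB.pb_hom_hom, hB.pb_hom_hom,
    hg.hom _ (nz_mpt _ n₁') (nz_mpt _ h0) (on_mpt _ o₁') (on_mpt _ hO),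
    hg.hom _ (nz_mpt _ n₂') (nz_mpt _ h0) (on_mpt _ o₂') (on_mpt _ hO)] at hc
  simp only [mpt_comp, AlgHom.comp_assoc] at hc
  rw [← ha]
  refine hc.symm.trans ((congrArg _ ?_).trans (hs.symm.trans (congrArg _ ?_))) <;> ring

end Crest.Agent.X262.PD.Dg
end
end

-- ▼ part X262/PD/Dlt
section

/-!
# Row 262, PD (helper97): the class of the diagonal at pairs of generic points

* `prod_same`, `pair_pmap` : field valued points of a product;
* `exists_lp` : a local ring with residue map which is a valuation ring is a place;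
* `supp_dmn`  : the pull-back of the diagonal class along a dominant map is supported on divisors;
* `dl C Y`, `dlt` : `Hb.Dlt` for the theory `Hb64.th C`;  `exists_dual` : dual bases.
-/

set_option autoImplicit false
set_option linter.unusedSectionVars false
set_option linter.style.haveILetI false

noncomputable section

namespace Crest.Agent.X262.PD.Dl

open Crest.Agent.X277 Crest.Agent.X277.Lef Crest.Agent.X277.AN.G1 Crest.Agent.X277.BD
open Crest.Agent.X262.Coh Crest.Agent.X262.Hb64 Crest.Agent.X262.Hb64.KP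
open Crest.Agent.R274.Prod1_134 (isPF)

variable {X Y X' Y' A : SV} {K E L : Type} [Field K] [Algebra ℂ K] [Field E] [Algebra ℂ E]
  [Field L] [Algebra ℂ L]

/-- a point of a product is determined by its projections -/
theorem prod_same {w w' : KP (X.prod Y) K} (h1 : (w.map (fst X Y)).Same (w'.map (fst X Y)))
    (h2 : (w.map (snd X Y)).Same (w'.map (snd X Y))) : w.Same w' := by
  obtain ⟨x, hx⟩ := w.pt
  obtain ⟨i, hi⟩ := exists_pat x
  obtain ⟨h3, h4⟩ := (Cns.mk_mem_pat (isPF ℂ X.F Y.F)).1 ((Cns.mk_fst_snd _ x).symm ▸ hi)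
  have h5 := fun j => h1.at (x := (fst X Y).map x)
    (fun _ hf => ⟨(fst X Y).mem_O hf, hx ((fst X Y).π_mem hf)⟩) (y_mem h3 j)
  have h6 := fun j => h2.at (x := (snd X Y).map x)
    (fun _ hf => ⟨(snd X Y).mem_O hf, hx ((snd X Y).π_mem hf)⟩) (y_mem h4 j)
  refine same_of_chart (i := i) (fun j => hx (y_mem hi j)) (fun j => ?_) fun j => ?_
  · rw [Cns.prod_y_div]
    exact mul_mem (h5 _).1.2 (h6 _).1.2
  · rw [Cns.prod_y_div]
    exact (w.p.π_mul (hx ((fst X Y).π_mem (y_mem h3 _))) (hx ((snd X Y).π_mem (y_mem h4 _)))).trans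
      ((congrArg₂ _ (h5 _).2 (h6 _).2).trans (w'.p.π_mul (h5 _).1.2 (h6 _).1.2).symm)

theorem same_tri {μ : Hom Y X} {ν : Hom A Y} {τ : Hom A X} (h : ∀ z, μ.map (ν.map z) = τ.map z)
    (w : KP A K) : ((w.map ν).map μ).Same (w.map τ) := by
  rw [← map_comp]
  exact same_of_map_eq (funext fun z => by rw [Mor.comp_map, h]) w

theorem pair_pmap (w : KP X K) (w' : KP Y K) (μ : Hom X X') (ν : Hom Y Y') :
    ((w.pair w').map (pmap μ ν)).Same ((w.map μ).pair (w'.map ν)) := by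
  refine prod_same ?_ ?_
  · refine (same_tri (τ := Mor.comp μ (fst X Y)) (fun z => ?_) _).trans ?_
    · rw [Form88.fst_pmap, Mor.comp_map]
    · rw [map_comp]
      exact ((pair_fst w w').map μ).trans (pair_fst _ _).symm
  · refine (same_tri (τ := Mor.comp ν (snd X Y)) (fun z => ?_) _).trans ?_
    · rw [Form88.snd_pmap, Mor.comp_map]
    · rw [map_comp]
      exact ((pair_snd w w').map ν).trans (pair_snd _ _).symm

/-- a local ring with residue map which is a valuation ring is a place -/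
theorem exists_lp (q : Plc L E) (h : ∀ f, f ∈ q.O ∨ f⁻¹ ∈ q.O) : ∃ p : Hb.LP L E, plc p = q := by
  let V : RZ ℂ L := ⟨{ q.O.toSubring with mem_or_inv_mem' := h }, q.O.algebraMap_mem⟩
  have h1 : ∀ x : V.1, q.π x = 0 ↔ V.v x < 1 := fun x => by
    rw [← not_iff_not, not_lt]
    refine ⟨fun h0 => ?_, fun h0 h2 => ?_⟩
    · have h2 := RZ.le_one_iff.2 (show (x : L)⁻¹ ∈ V.1 from q.inv_mem h0)
      rwa [map_inv₀, inv_le_one₀ (V.v.pos_iff.2 (Plc.ne_zero_of_ne h0))] at h2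
    · have h3 : (x : L) ≠ 0 := fun h3 => by simp [h3] at h0
      have h4 : (x : L)⁻¹ ∈ q.O := RZ.le_one_iff (V := V).1 (by
        rw [map_inv₀]; exact inv_le_one_of_one_le₀ h0)
      have h5 := q.π_mul x.2 h4
      rw [mul_inv_cancel₀ h3, h2, zero_mul, q.π_one] at h5
      exact one_ne_zero h5
  let p : Pl ℂ L ℂ E := ⟨V, q.hom.toRingHom, h1, fun c => ⟨c, q.π_alg c⟩⟩
  have h2 : ∀ f, p.r f = q.π f := fun f => by
    by_cases hf : f ∈ q.O
    · exact p.r_eq hf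
    · exact (dif_neg hf).trans (q.π_off hf).symm
  exact ⟨⟨p, fun c => (h2 _).trans (q.π_alg c)⟩, plc_ext (fun _ => Iff.rfl) h2⟩

theorem exists_lp_dv {v : Hom X Y} {e : BD ℂ Y.F} (h : IsDv v e) :
    ∃ p : Hb.LP Y.F X.F, plc p = v.p := by
  obtain ⟨ν, -, hν⟩ := h.val
  refine exists_lp _ fun f => ?_
  rw [hν, hν, map_inv₀]
  exact (le_total (ν f) 1).imp id inv_le_one_of_one_le₀

section Meet

variable {J : Type} [Fintype J] [DecidableEq J] {io : J → Type} [∀ j, Fintype (io j)]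
  [∀ j, DecidableEq (io j)]

theorem meet_of_same {y₀ : Vb.Pnt io Y.F} (hy : ∀ j, Cns.Gn Y.P (y₀ j)) {γ γ' : Y.F →ₐ[ℂ] L}
    {p : Hb.LP L E} (h : ((gen Y γ).red p).Same ((gen Y γ').red p)) :
    Hb.Meet p.V (Hb.mpt γ y₀) (Hb.mpt γ' y₀) := by
  obtain ⟨x, h1, h2, h3⟩ := h
  choose i hi hi' using fun j => hy j x
  have h4 : ∀ (τ : Y.F →ₐ[ℂ] L) j l, (τ (y₀ j (i j)))⁻¹ * τ (y₀ j l) = τ (y₀ j l / y₀ j (i j)) :=
    fun τ j l => by rw [map_div₀, div_eq_inv_mul]
  refine ⟨fun j => (γ (y₀ j (i j)))⁻¹, fun j => (γ' (y₀ j (i j)))⁻¹,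
    fun j => ⟨fun l => ?_, i j, ?_⟩, fun j => ⟨fun l => ?_, i j, ?_⟩, fun j l => ?_⟩ <;>
    simp only [h4]
  · exact (h1 (hi' j l)).2
  · rw [div_self (hi j), map_one, map_one]
  · exact (h2 (hi' j l)).2
  · rw [div_self (hi j), map_one, map_one]
  · have h5 : γ (y₀ j l / y₀ j (i j)) ∈ p.V.1 := (h1 (hi' j l)).2
    have h6 : γ' (y₀ j l / y₀ j (i j)) ∈ p.V.1 := (h2 (hi' j l)).2
    rw [← Pl.r_eq_zero (sub_mem h5 h6), Pl.r_sub h5 h6, sub_eq_zero]
    exact h3 _ (hi' j l)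

end Meet

variable {C : Th}

/-- the pull-back of the diagonal class along a dominant morphism kills the classes which die on
the smooth divisors over the diagonal -/
theorem supp_dmn (man : C.MAN) (pd : C.PD) (dbl : C.DBL) (bc1 : C.BC1) (hY : 0 < Y.dim)
    {ρ : Hom A (Y.prod Y)} (hρ : Dmn ρ) {x : C.H A}
    (h : ∀ (M : PModel ℂ A.F) (π : Hom (sv M) A), π.p = Plc.ofHom (AlgHom.id ℂ A.F) →
      ∀ (G : SV) (v : Hom G (sv M)) (e : BD ℂ A.F), IsDv v e →
      (∀ z, (fst Y Y).map (ρ.map (π.map (v.map z))) = (snd Y Y).map (ρ.map (π.map (v.map z)))) →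
      C.pb v (C.pb π x) = 0) : x * C.pb ρ (C.push (dia Y) 1) = 0 := by
  obtain ⟨B, E, b, j, a, ⟨β, hb, hβ⟩, hj, h1, γ, h2⟩ := dbl Y hY
  obtain ⟨α, hα⟩ := hρ
  let ε := AlgEquiv.ofBijective β ⟨β.toRingHom.injective, hβ⟩
  obtain ⟨M, π, u, h3, h4, ι, _, G, v, e, m, w, h5, h6, h7⟩ :=
    Form88.exists_bc (A := A) hj (α.comp ε.symm.toAlgHom)
  have h8 : (Mor.comp b u).map = (Mor.comp ρ π).map := (Form88.map_congr fun x f _ => by
    refine ⟨⟨hb ▸ Algebra.mem_top, h4 ▸ Algebra.mem_top⟩, ?_⟩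
    change u.p.π (b.p.π f) = π.p.π (ρ.p.π f)
    rw [h4, hb, h3, hα]
    exact congrArg α (ε.symm_apply_apply f))
  refine pd.pb_inj man (Form88.bim_id h3).dmn ?_
  rw [map_zero, map_mul, ← man.pb_comp, ← man.pb_congr _ _ h8, man.pb_comp, h2,
    bc1 j a u G v e m w hj h5 h6 h7, Finset.mul_sum]
  refine Finset.sum_eq_zero fun i _ => ?_
  rw [mul_smul_comm, ← pd.push_proj', h M π h3 _ _ _ (h5 i) fun z => ?_, zero_mul, map_zero,
    smul_zero]
  have h9 := (h1 _).2 ⟨(w i).map z, rfl⟩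
  rwa [← Mor.comp_map j, h7 i, Mor.comp_map, ← Mor.comp_map b, h8, Mor.comp_map,
    Form88.mem_range_dia] at h9


variable (C) [hC : Ok C]

/-- the diagonal class at a pair of generic points -/
def dl (Y : SV) (L : Type) [Field L] [Algebra ℂ L] (γ γ' : Y.F →ₐ[ℂ] L) : HH C L :=
  ev C ((gen Y γ).pair (gen Y γ')) (C.push (dia Y) 1)

/-- a model on which a class lives and a dominant rational map is a morphism -/
theorem exists_model [Algebra.EssFiniteType ℂ K] (α : Y.F →ₐ[ℂ] K) (x : HH C K) :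
    ∃ (P : PModel ℂ K) (μ : Hom (sv P) Y) (a : C.H (sv P)), μ.p = Plc.ofHom α ∧
      x = ev C (gen (sv P) (AlgHom.id ℂ K)) a := by
  obtain ⟨b, hb⟩ := exists_bd (gen Y α)
  obtain ⟨P, a, h1, h2⟩ := exists_ev_id C x {b}
  obtain ⟨μ, hμ⟩ := hb P (h1 b (Finset.mem_singleton_self b))
  exact ⟨P, μ, a, hμ, h2⟩

theorem dl_eq {μ : Hom X Y} {ν : Hom X' Y} {α : Y.F →ₐ[ℂ] X.F} {α' : Y.F →ₐ[ℂ] X'.F}
    (hμ : μ.p = Plc.ofHom α) (hν : ν.p = Plc.ofHom α') (β : X.F →ₐ[ℂ] L) (β' : X'.F →ₐ[ℂ] L) :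
    dl C Y L (β.comp α) (β'.comp α') =
      ev C ((gen X β).pair (gen X' β')) (C.pb (pmap μ ν) (C.push (dia Y) 1)) := by
  rw [dl, ← gen_map hμ, ← gen_map hν]
  exact ev_of_same C (pair_pmap _ _ μ ν) _

theorem itgH_mul_pb {R : PModel ℂ K} {τ : Hom (sv R) Y} {α : Y.F →ₐ[ℂ] K}
    (hτ : τ.p = Plc.ofHom α) (c : C.H (sv R)) (y : C.H Y) :
    itgH C K (ev C (gen (sv R) (AlgHom.id ℂ K)) c *
      pbH C (Hb.LP.hom α) (ev C (gen Y (AlgHom.id ℂ Y.F)) y)) = C.itg Y (C.push τ c * y) := by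
  rw [pbH_gen, AlgHom.comp_id, ← AlgHom.id_comp α, ← gen_map hτ, ev_map, ← map_mul, itgH_id,
    hC.pd.push_spec]

variable {J : Type} [Fintype J] [DecidableEq J] {io : J → Type} [∀ j, Fintype (io j)]
  [∀ j, DecidableEq (io j)] [Algebra.EssFiniteType ℂ K] [Algebra.EssFiniteType ℂ E]
  [Algebra.EssFiniteType ℂ L] {β₁ : K →ₐ[ℂ] L} {β₂ : E →ₐ[ℂ] L}

theorem dl_kun (diag : C.DIAG) {ι : Type} [Fintype ι] {e e' : ι → C.H Y}
    (he : ∀ a b, C.itg Y (a * b) = ∑ l, C.itg Y (a * e l) * C.itg Y (b * e' l))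
    (h : Hb.Prd β₁ β₂) (α₁ : Y.F →ₐ[ℂ] K) (α₂ : Y.F →ₐ[ℂ] E) (x₁ : HH C K) (x₂ : HH C E) :
    itgH C L (pbH C (Hb.LP.hom β₁) x₁ * pbH C (Hb.LP.hom β₂) x₂ *
      dl C Y L (β₁.comp α₁) (β₂.comp α₂)) =
      ∑ l, itgH C K (x₁ * pbH C (Hb.LP.hom α₁) (ev C (gen Y (AlgHom.id ℂ Y.F)) (e l))) *
        itgH C E (x₂ * pbH C (Hb.LP.hom α₂) (ev C (gen Y (AlgHom.id ℂ Y.F)) (e' l))) := by
  obtain ⟨P, μ, a, hμ, rfl⟩ := exists_model C α₁ x₁
  obtain ⟨Q, ν, b, hν, rfl⟩ := exists_model C α₂ x₂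
  obtain ⟨γ, h1, h2⟩ := exists_prd C (X := sv P) (Y := sv Q) h
  simp only [itgH_mul_pb C hμ, itgH_mul_pb C hν]
  rw [← he, ← diag, dl_eq C hμ hν, pbH_gen, pbH_gen, AlgHom.comp_id, AlgHom.comp_id,
    ev_of_same C (pair_fst (gen (sv P) β₁) (gen (sv Q) β₂)),
    ev_of_same C (pair_snd (gen (sv P) β₁) (gen (sv Q) β₂)), ← map_mul, ← map_mul, h2, itgH_gen,
    deg_of_surj h1, Nat.cast_one, one_mul]

theorem dl_sup (dbl : C.DBL) (bc1 : C.BC1) {y₀ : Vb.Pnt io Y.F} (hy : ∀ j, Cns.Gn Y.P (y₀ j))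
    (h : Hb.Prd β₁ β₂) (α₁ : Y.F →ₐ[ℂ] K) (α₂ : Y.F →ₐ[ℂ] E) (x : HH C L)
    (hx : ∀ (E' : Type) [Field E'] [Algebra ℂ E'] [Algebra.EssFiniteType ℂ E'] (p : Hb.LP L E'),
      Hb.Meet p.V (Hb.mpt (β₁.comp α₁) y₀) (Hb.mpt (β₂.comp α₂) y₀) → pbH C p x = 0) :
    x * dl C Y L (β₁.comp α₁) (β₂.comp α₂) = 0 := by
  rcases Nat.eq_zero_or_pos Y.dim with hY | hY
  · haveI : Algebra.IsAlgebraic ℂ Y.F :=
      trdeg_eq_zero_iff.1 (by rw [trdeg_eq_dim, show dim ℂ Y.F = 0 from hY, Nat.cast_zero])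
    have h1 : β₁.comp α₁ = β₂.comp α₂ := AlgHom.ext fun f => by
      obtain ⟨c, rfl⟩ := (IsAlgClosed.algebraMap_bijective_of_isIntegral (k := ℂ)).2 f
      rw [AlgHom.commutes, AlgHom.commutes]
    rw [(pbH_id C x).symm.trans (hx L _ (meet_of_same hy (.of_eq (by rw [h1])))), zero_mul]
  obtain ⟨P, μ, -, hμ, -⟩ := exists_model C α₁ 0
  obtain ⟨Q, ν, -, hν, -⟩ := exists_model C α₂ 0
  obtain ⟨γ, h1, h2⟩ := exists_prd C (X := sv P) (Y := sv Q) h
  obtain ⟨R, σ, a, hσ, rfl⟩ := exists_model C γ x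
  have h3 : (gen (sv R) (AlgHom.id ℂ L)).map σ = (gen (sv P) β₁).pair (gen (sv Q) β₂) := by
    rw [gen_map hσ, AlgHom.id_comp, h2]
  rw [dl_eq C hμ hν, ← h3, ev_map, ← map_mul, ← hC.man.pb_comp,
    supp_dmn hC.man hC.pd dbl bc1 hY ?_ fun M π hπ G v e hv hz => ?_, map_zero]
  · exact Form88.dmn_iff.2 (by
      rw [funext (Mor.comp_map _ _)]
      exact (Form88.dmn_iff.1 (Dmn.pmap ⟨_, hμ⟩ ⟨_, hν⟩)).comp (Form88.dmn_iff.1 ⟨_, hσ⟩))
  obtain ⟨p, hp⟩ := exists_lp_dv hv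
  have h4 : (gen (sv M) (AlgHom.id ℂ L)).map π = gen (sv R) (AlgHom.id ℂ L) := gen_map hπ _
  have h5 : (gen (sv M) (AlgHom.id ℂ L)).red p = (gen G (AlgHom.id ℂ G.F)).map v :=
    KP.ext (((comp_id _).trans hp).trans (gen_id_map v).symm)
  have h6 : ((((gen G (AlgHom.id ℂ G.F)).map v).map π).map (Mor.comp (pmap μ ν) σ)).Same
      (((gen Y (β₁.comp α₁)).pair (gen Y (β₂.comp α₂))).red p) := by
    rw [← h5, ← red_map, ← red_map, h4, map_comp, h3, ← gen_map hμ, ← gen_map hν]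
    exact (pair_pmap _ _ μ ν).red p
  refine ev_id_injective C G.P ?_
  rw [map_zero, ← ev_map, ← h5, ← pbH_ev, ← ev_map, h4]
  refine hx _ p (meet_of_same hy ?_)
  refine ((pair_fst _ (gen Y (β₂.comp α₂))).red p).symm.trans (Same.trans ?_
    ((pair_snd (gen Y (β₁.comp α₁)) _).red p))
  rw [red_map, red_map]
  refine (h6.map _).symm.trans (Same.trans ?_ (h6.map _))
  simp only [← map_comp]
  exact same_of_map_eq (funext fun z => by simpa only [Mor.comp_map] using hz z) _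

/-- **the diagonal class** -/
theorem dlt (diag : C.DIAG) (dbl : C.DBL) (bc1 : C.BC1) {y₀ : Vb.Pnt io Y.F}
    (hy : ∀ j, Cns.Gn Y.P (y₀ j)) {ι : Type} [Fintype ι] {e e' : ι → C.H Y}
    (he : ∀ a b, C.itg Y (a * b) = ∑ l, C.itg Y (a * e l) * C.itg Y (b * e' l)) :
    Hb.Dlt (th C) y₀ (fun l => ev C (gen Y (AlgHom.id ℂ Y.F)) (e l))
      (fun l => ev C (gen Y (AlgHom.id ℂ Y.F)) (e' l)) (dl C Y) where
  kun _ _ _ _ _ _ _ _ _ _ _ _ _ _ h α₁ α₂ x₁ x₂ := dl_kun C diag he h α₁ α₂ x₁ x₂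
  sup _ _ L _ _ _ _ _ _ _ _ _ _ _ h α₁ α₂ x hx :=
    (congrArg (itgH C L) (dl_sup C dbl bc1 hy h α₁ α₂ x hx)).trans (map_zero _)

end Crest.Agent.X262.PD.Dl
end
end

-- ▼ part X262/Hb64/Vir
section

/-!
# Row 262, road B, Hb64 (helper64), part 8: `smoStmt`, `genStmt`, `vir'`
-/

set_option autoImplicit false

noncomputable section

namespace Crest.Agent.X262.Hb64

open Crest.Agent.X262.Coh

theorem smoStmt : Gwb.SmoStmt := fun _ m => Syz.Cut.smo_emb m m.toPre.tgt_isEq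

theorem genStmt : Gwb.GenStmt := fun _ m =>
  Syz.Cut.genPt (show Syz.Cut m.tgt (Syz.py m) from m.tgt_isEq) (Syz.nz_py m) (Syz.gen_py m)

/-- the inputs of the invariants for the instance, without the statements on the target -/
def vir' (C : Coh.Th) [Ok C]
    (hd : ∀ {Y : SV} (m : Gwb.Emb Y) {ι : Type} [Fintype ι] (u u' : ι → C.H Y),
    (∀ a b, C.itg Y (a * b) = ∑ l, C.itg Y (a * u l) * C.itg Y (b * u' l)) →
    Vb.Diag (th C) m.tgt (fun l => ((inst C).e m.toPre).fam (u l))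
      fun l => ((inst C).e m.toPre).fam (u' l))
    (ax0 : Vb.Ax0Stmt) (axS : Vb.AxSStmt) (deg0 : Vb.Deg0Stmt) (wdvv : Vb.WdvvStmt) :
    Gwb.Vir C (th C) := vir C hd smoStmt genStmt ax0 axS deg0 wdvv

end Crest.Agent.X262.Hb64
end
end

-- ▼ part X262/PD/Hd
section

/-!
# Row 262, road B, PD (helper97): the diagonal axiom of the evaluation

* `PtStmt` : the field-level input (no cohomology of varieties);
* `hd_of`  : the hypothesis `hd` of `Hb64.inst_ax`, `Hb64.vir'`;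
* `virOf`  : `Gwb.Vir C (th C)`.
-/

set_option autoImplicit false

noncomputable section

namespace Crest.Agent.X262.PD.Dg

open Crest.Agent.X277 Crest.Agent.X262.Coh Crest.Agent.X262.Hb64 Crest.Agent.X262.Vb

/-- the class `dgc` is dual to the point -/
def PtStmt : Prop :=
  ∀ (B : Hb.Th), B.Ax → ∀ {J : Type} [Fintype J] [DecidableEq J] {io : J → Type}
    [∀ j, Fintype (io j)] [∀ j, DecidableEq (io j)] {A : Type} [Fintype A] (T : Tgt io A) (c : ℕ),
    Smo T c → ∀ {K : Type} [Field K] [Algebra ℂ K] [Algebra.EssFiniteType ℂ K] (y₀ : Pnt io K),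
    GenPt T c y₀ → PtP B T y₀

variable (C : Coh.Th) [hC : Ok C]

theorem sum_dual {Y : SV} {ι : Type} [Fintype ι] {u u' : ι → C.H Y}
    (he : ∀ a b, C.itg Y (a * b) = ∑ l, C.itg Y (a * u l) * C.itg Y (b * u' l)) :
    ∑ l, C.itg Y (u' l) • u l = 1 := by
  refine sub_eq_zero.1 ((hC.pd Y).2 _ fun a => ?_)
  rw [sub_mul, map_sub, mul_comm 1 a, he a 1, Finset.sum_mul, map_sum, sub_eq_zero]
  refine Finset.sum_congr rfl fun l _ => ?_
  rw [smul_mul_assoc, map_smul, smul_eq_mul, one_mul, mul_comm (u l), mul_comm]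

theorem hd_of (diag : C.DIAG) (dbl : C.DBL) (bc1 : C.BC1) (hp : PtStmt) {Y : SV}
    (m : Gwb.Emb Y) {ι : Type} [Fintype ι] (u u' : ι → C.H Y)
    (he : ∀ a b, C.itg Y (a * b) = ∑ l, C.itg Y (a * u l) * C.itg Y (b * u' l)) :
    Diag (th C) m.tgt (fun l => ((inst C).e m.toPre).fam (u l))
      fun l => ((inst C).e m.toPre).fam (u' l) := by
  have cls : ∀ a, Cls (th C) m.tgt (((inst C).e m.toPre).fam a) := fun a =>
    ⟨fun _ _ _ _ _ _ hc hz h => evP_scl C hz (Gwb.Pre.on_iff.1 h) hc a,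
      fun _ _ _ _ _ _ _ _ p _ hp h => evP_red C p hp (Gwb.Pre.on_iff.1 h) a⟩
  have g := genStmt Y m.toPre
  have h0 : ∀ a, ((inst C).e m.toPre).fam a Y.F m.y = ev C (gen Y (AlgHom.id ℂ Y.F)) a :=
    evP_gen C m.toPre (AlgHom.id ℂ Y.F)
  refine diag_of_pt (th_ax C) g.nz g.on (fun _ => cls _) (fun _ => cls _) (δ := Dl.dl C Y) ?_ ?_
    (hp _ (th_ax C) _ _ (smoStmt Y m) _ g) ((th_ax C).mcls_dgc (smoStmt Y m) 0 1)
  · simp only [h0]
    exact Dl.dlt C diag dbl bc1 (fun j => BD.Br.gn_of_mem (m.reg j).1 (m.reg j).2) he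
  · have h1 : ∀ a, (th C).itg Y.F (((inst C).e m.toPre).fam a Y.F m.y) = C.itg Y a :=
      itg_evP C m.toPre
    simp only [h1]
    simp only [h0]
    have h2 := congrArg (ev C (gen Y (AlgHom.id ℂ Y.F))) (sum_dual C he)
    rw [map_sum, map_one] at h2
    simp only [map_smul] at h2
    exact h2

/-- the inputs of the invariants for the instance -/
def virOf (diag : C.DIAG) (dbl : C.DBL) (bc1 : C.BC1) (hp : PtStmt)
    (ax0 : Ax0Stmt) (axS : AxSStmt) (deg0 : Deg0Stmt) (wdvv : WdvvStmt) : Gwb.Vir C (th C) :=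
  vir' C (hd_of C diag dbl bc1 hp) ax0 axS deg0 wdvv

end Crest.Agent.X262.PD.Dg
end
end

-- ▼ part X262/Hb/Mult
section

/-!
# Row 262, road B, Hb (helper61), part 7: a smooth point has multiplicity one

* `mult`       : `(-E)^n = -1` for the exceptional divisor over a point with `n` local parameters;
* `exists_gen` : local parameters from the Jacobian criterion;
* `mult_jac`   : both together.
-/

set_option autoImplicit false
set_option linter.unusedSectionVars false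

noncomputable section

namespace Crest.Agent.X262.Hb

open Crest.Agent.X277 Crest.Agent.X277.BD Crest.Agent.X277.Pst Crest.Agent.X277.BD.Cyc
open Crest.Agent.X277.Neg (nv)
open Crest.Agent.X262.Geo Crest.Agent.X262.Tr89 MvPolynomial WithZero
open List (replicate)
open IntermediateField (adjoin)
open Set (range)

variable {k L E σ ι : Type} [Field k] [Field L] [Field E] [Algebra k L] [Algebra k E] [Fintype σ]
  [Fintype ι] {τ : σ → L} {s : ι → MvPolynomial σ k} {W : RZ k L} {x : MvPolynomial σ k}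
  {a b : BD k L}

theorem lin_rs_congr (p : Pl k L k E) (h : ∀ W : RZ k L, W.1 ≤ p.V.1 → a.val W = b.val W) :
    Lin (p.rs a) (p.rs b) := by
  have h1 : p.V.v (a.gen p.V) = b.val p.V := (v_gen a _).trans (h _ le_rfl)
  have h2 : p.rs a = p.res (b - pr k (a.gen p.V)) := ext' fun Z => by
    rw [Pl.val_res_gen (Pl.val_sub_gen h1)]
    refine Pl.val_res (Pl.val_sub_gen (v_gen a _)) ?_
    rw [v_gen, val_sub, val_sub, h _ (Pl.cm_le Z)]
  exact h2 ▸ (Pl.lin_rs h1).symm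

theorem lin_rs_mxf (p : Pl k L k E) {y : ι → L} {i : ι} (h0 : y i ≠ 0)
    (h : ∀ j, p.V.v (y j) ≤ p.V.v (y i)) :
    Lin (p.rs (mxf k y)) (mxf k fun j => p.r (y j / y i)) := by
  classical
  have h4 : mxf k y - pr k (y i) = mxf k fun j => y j / y i := by
    refine eq_mxf (fun j => (mem_Sec_sub_pr h0).2 (by
      rw [div_mul_cancel₀ _ h0]; exact mem_Sec_mxf y j)) fun W => ?_
    obtain ⟨j, hj⟩ := exists_val_mxf (k := k) ⟨i, h0⟩ W
    exact ⟨j, by rw [map_div₀, hj, val_sub, val_pr h0]⟩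
  have h6 := Pl.lin_rs (p := p) (val_mxf h0 h).symm
  rwa [h4, mxf, mxf, Pl.res_mx (p := p) (fun z hz => by
    obtain ⟨j, -, rfl⟩ := Finset.mem_image.1 hz
    exact (RZ.le_iff h0).1 (h j)) ⟨1, by simpa using ⟨i, div_self h0⟩, map_one _⟩,
    Finset.image_image] at h6

theorem lt_one_of_le {V : RZ k L} (h : W.1 ≤ V.1) {z : L} (hz : V.v z < 1) : W.v z < 1 :=
  lt_of_not_ge fun h1 => hz.not_ge (by
    simpa using RZ.le_of_le h (x := (1 : L)) (y := z) (by simpa using h1))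

/-- the valuation is centred at the origin -/
def Cen (W : RZ k L) (τ : σ → L) : Prop := ∀ i, W.v (τ i) < 1

namespace Cen

variable (h : Cen W τ)
include h

theorem mono {W' : RZ k L} (hW : W'.1 ≤ W.1) : Cen W' τ := fun i => lt_one_of_le hW (h i)

theorem mem (x : MvPolynomial σ k) : aeval τ x ∈ W.1 :=
  (r_aeval (lnr_plV W) (fun i => RZ.le_one_iff.1 (h i).le) x).1

theorem r_eq (x : MvPolynomial σ k) :
    (plV W).r (aeval τ x) = algebraMap k _ (aeval (0 : σ → k) x) := by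
  rw [(r_aeval (lnr_plV W) (fun i => RZ.le_one_iff.1 (h i).le) x).2, ← aeval_algebraMap_apply]
  congr 2
  funext i
  rw [(Pl.r_eq_zero (p := plV W) (RZ.le_one_iff.1 (h i).le)).2 (h i)]
  simp

theorem lt_iff (x : MvPolynomial σ k) : W.v (aeval τ x) < 1 ↔ x ∈ idl k (0 : σ → k) := by
  refine (Pl.r_eq_zero (p := plV W) (h.mem x)).symm.trans ?_
  rw [h.r_eq, map_eq_zero]
  rfl

theorem le_of_span {γ : W.1.ValueGroup} (hs : ∀ j, W.v (aeval τ (s j)) ≤ γ)
    (hx : x ∈ Ideal.span (range s)) : W.v (aeval τ x) ≤ γ := by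
  induction hx using Submodule.span_induction with
  | mem y hy =>
    obtain ⟨j, rfl⟩ := hy
    exact hs j
  | zero => simp
  | add y z _ _ hy hz =>
    rw [map_add]
    exact (W.v.map_add _ _).trans (max_le hy hz)
  | smul c y _ hy =>
    rw [smul_eq_mul, map_mul, map_mul]
    exact (mul_le_of_le_one_left' (RZ.le_one_iff.2 (h.mem c))).trans hy

theorem le_of_gen (hg : Gen (evH k τ) (idl k (0 : σ → k)) s) {γ : W.1.ValueGroup}
    (hs : ∀ j, W.v (aeval τ (s j)) ≤ γ) (hx : x ∈ idl k (0 : σ → k)) : W.v (aeval τ x) ≤ γ := by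
  obtain ⟨g, h1, z, h2, h3⟩ := hg x hx
  have h4 : W.v (aeval τ g) = 1 :=
    (RZ.le_one_iff.2 (h.mem g)).antisymm (not_lt.1 ((h.lt_iff g).not.2 h1))
  have h5 := h.le_of_span hs (pow_one (Ideal.span (range s)) ▸ h2)
  have h6 : aeval τ g * aeval τ x = aeval τ z := h3
  rwa [← h6, map_mul, h4, one_mul] at h5

end Cen

theorem gen_X (τ : σ → L) : Gen (evH k τ) (idl k (0 : σ → k)) X := fun x hx => by
  refine Ord.of_mem (RingHom.ker_isPrime _) ?_
  have h : ∀ y : MvPolynomial σ k, y - C (aeval (0 : σ → k) y) ∈ Ideal.span (range X) := fun y => by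
    induction y using MvPolynomial.induction_on with
    | C c => simp
    | add p q hp hq =>
      rw [map_add, map_add, add_sub_add_comm]
      exact add_mem hp hq
    | mul_X p i _ =>
      simpa using Ideal.mul_mem_left _ p (Ideal.subset_span (Set.mem_range_self i))
  have h1 := h x
  rwa [show aeval (0 : σ → k) x = 0 from hx, map_zero, sub_zero, ← pow_one (Ideal.span _)] at h1

theorem Cen.val_eq (h : Cen W τ) (hg : Gen (evH k τ) (idl k (0 : σ → k)) s)
    (hs : ∀ j, s j ∈ idl k (0 : σ → k)) (h0 : ∃ i, τ i ≠ 0) : (∃ j, aeval τ (s j) ≠ 0) ∧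
    (mxf k τ).val W = (mxf k fun j => aeval τ (s j)).val W := by
  obtain ⟨i, hi⟩ := exists_val_mxf (k := k) h0 W
  have hX : (X i : MvPolynomial σ k) ∈ idl k (0 : σ → k) := by simp [RingHom.mem_ker]
  have h1 : ∃ j, aeval τ (s j) ≠ 0 := by
    by_contra h2
    push Not at h2
    have h3 := h.le_of_gen hg (γ := 0) (fun j => by simp [h2 j]) hX
    rw [aeval_X, hi] at h3
    exact (val_pos _ _).not_ge h3
  obtain ⟨j, hj⟩ := exists_val_mxf (k := k) h1 W
  refine ⟨h1, le_antisymm ?_ ?_⟩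
  · simpa [hi] using h.le_of_gen hg (fun j => mem_Sec_mxf (fun j => aeval τ (s j)) j W) hX
  · rw [← hj]
    exact h.le_of_gen (gen_X τ) (fun i => by simpa using mem_Sec_mxf τ i W) (hs j)

theorem cen_of_val (h0 : ∃ i, τ i ≠ 0) : (mxf k τ ⊓ 0).val W ≠ 1 ↔ Cen W τ := by
  rw [val_inf, val_zero, Ne, min_eq_right_iff, not_le]
  obtain ⟨i, hi⟩ := exists_val_mxf (k := k) h0 W
  exact ⟨fun h j => (mem_Sec_mxf τ j W).trans_lt h, fun h => hi ▸ h i⟩

theorem Cen.val_inf (h : Cen W τ) (h0 : ∃ i, τ i ≠ 0) :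
    (mxf k τ ⊓ 0).val W = (mxf k τ).val W := by
  obtain ⟨i, hi⟩ := exists_val_mxf (k := k) h0 W
  rw [BD.val_inf, val_zero, min_eq_left (hi ▸ (h i).le)]

theorem Cen.r_eval₂ (h : Cen W τ) {u : ι → L} (hu : ∀ j, u j ∈ W.1)
    (G : MvPolynomial ι (MvPolynomial σ k)) : eval₂ (evH k τ) u G ∈ W.1 ∧
      (plV W).r (eval₂ (evH k τ) u G) =
        aeval (fun j => (plV W).r (u j)) (map (evH k (0 : σ → k)) G) := by
  induction G using MvPolynomial.induction_on with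
  | C c =>
    rw [eval₂_C, map_C, aeval_C]
    exact ⟨h.mem c, h.r_eq c⟩
  | add p q hp hq =>
    rw [eval₂_add, map_add, map_add, Pl.r_add (p := plV W) hp.1 hq.1, hp.2, hq.2]
    exact ⟨add_mem hp.1 hq.1, rfl⟩
  | mul_X p i hp =>
    rw [eval₂_mul, eval₂_X, map_mul, map_mul, map_X, aeval_X, Pl.r_mul (p := plV W) hp.1 (hu i),
      hp.2]
    exact ⟨mul_mem hp.1 (hu i), rfl⟩

theorem aeval_mem_of (S : Subalgebra k L) {u : ι → L} (h : ∀ j, u j ∈ S) (G : MvPolynomial ι k) :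
    aeval u G ∈ S := by
  induction G using MvPolynomial.induction_on with
  | C c => simp
  | add p q hp hq => exact map_add (aeval u) p q ▸ add_mem hp hq
  | mul_X p i hp =>
    rw [map_mul, aeval_X]
    exact mul_mem hp (h i)

variable [CharZero k] [Algebra.EssFiniteType k L] {m : ℕ}

theorem exists_ne (hK : adjoin k (range τ) = ⊤) (hd : dim k L ≠ 0) : ∃ i, τ i ≠ 0 := by
  by_contra h
  push Not at h
  refine hd (Nat.le_zero.1 (Lin62.dim_le_card (k := k) (s := (Empty.elim : Empty → L))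
    (top_unique (hK ▸ IntermediateField.adjoin_le_iff.2 ?_))))
  rintro _ ⟨i, rfl⟩
  rw [h i]
  exact zero_mem _

section Main

variable {s : Fin (m + 1) → MvPolynomial σ k} (hK : adjoin k (range τ) = ⊤) (hd : dim k L = m + 1)
  (hg : Gen (evH k τ) (idl k (0 : σ → k)) s) (hs : ∀ j, s j ∈ idl k (0 : σ → k))
  {V : RZ k L}

include hK hd hg hs

/-- a component of the exceptional divisor of nonzero degree is the order at the point -/
theorem exists_tr (hV : Dvs V) (h : Cen V τ) (h1 : Geo.dg V (replicate m (mxf k τ ⊓ 0)) ≠ 0) :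
    ∃ t, TR (nv V) (evH k τ) (idl k (0 : σ → k)) s t ∧ V.v t = (mxf k τ ⊓ 0).val V ∧
      Geo.dg V (replicate m (mxf k τ ⊓ 0)) = 1 := by
  have := essFT_Rf hV
  have h0 := exists_ne hK (by omega)
  obtain ⟨i, hi⟩ := exists_val_mxf (k := k) (h.val_eq hg hs h0).1 V
  have ht : aeval τ (s i) ≠ 0 := ne_of_val hi
  have h2 : ∀ j, V.v (aeval τ (s j)) ≤ V.v (aeval τ (s i)) := fun j =>
    hi ▸ mem_Sec_mxf (fun j => aeval τ (s j)) j V
  have h3 : ∀ j, aeval τ (s j) / aeval τ (s i) ∈ V.1 := fun j => (RZ.le_iff ht).1 (h2 j)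
  set u : Fin (m + 1) → Rf V := fun j => (plV V).r (aeval τ (s j) / aeval τ (s i)) with hu
  have h4 : Geo.dg V (replicate m (mxf k τ ⊓ 0)) = bnum (replicate m (mxf k u)) := by
    rw [Geo.dg_eq, List.map_replicate]
    refine bnum_rep ((lin_rs_congr (plV V) fun W hW => ?_).trans
      (lin_rs_mxf (plV V) (y := fun j => aeval τ (s j)) ht h2)) m
    rw [(h.mono hW).val_inf h0, ((h.mono hW).val_eq hg hs h0).2]
  have h5 : u i ≠ 0 := by simp [hu, div_self ht]
  have h6 : PInd k u := pind_of_dim h5 (le_dim_of_bnum h5 (h4 ▸ h1))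
  have h7 : TR (nv V) (evH k τ) (idl k (0 : σ → k)) s (aeval τ (s i)) :=
    ⟨fun x => (nv_le_one hV).2 (h.mem x), fun x => (nv_lt_one hV).trans (h.lt_iff x), ht,
      (nv_lt_one hV).2 ((h.lt_iff _).2 (hs i)), fun j => (nv_le_iff hV).2 (h2 j),
      fun e G hG h8 l => by
        have h9 := h.r_eval₂ h3 G
        have h10 := h6 e _ (hG.map _) (h9.2.symm.trans
          ((Pl.r_eq_zero (p := plV V) h9.1).2 ((nv_lt_one hV).1 h8)))
        simpa [coeff_map] using congrArg (coeff l) h10⟩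
  refine ⟨_, h7, by rw [hi, h.val_inf h0, (h.val_eq hg hs h0).2], h4.trans ?_⟩
  refine bnum_proj (h6.ne 0) (eq_top_iff.2 fun z _ => ?_) (by
    have := dim_Rf' hV
    omega)
  obtain ⟨z, rfl⟩ := surj_plV V z
  rw [← (plV V).r_coe]
  by_cases h8 : (plV V).r z = 0
  · rw [h8]
    exact zero_mem _
  obtain ⟨e, G, H, hG, hH, -, h9, h10⟩ := h7.exists_quot hg (frc_evH hK)
    ((nv_eq_one hV).2 (Pl.r_ne_zero_iff.1 h8))
  have key : ∀ G : MvPolynomial (Fin (m + 1)) k, G.IsHomogeneous e → aeval u G / u 0 ^ e ∈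
      adjoin k (range fun j : Fin m => u j.succ / u 0) := fun G hG => by
    rw [eq_smul_cons (h6.ne 0), Brg.Hyp0.aeval_smul hG, ← eq_smul_cons (h6.ne 0),
      mul_div_cancel_left₀ _ (pow_ne_zero _ (h6.ne 0))]
    have h11 : ∀ j, (Fin.cons 1 fun i => u i.succ / u 0 : Fin (m + 1) → Rf V) j ∈
        adjoin k (range fun j : Fin m => u j.succ / u 0) := fun j =>
      Fin.cases (one_mem _) (fun j => IntermediateField.subset_adjoin _ _ ⟨j, rfl⟩) j
    exact aeval_mem_of (adjoin k _).toSubalgebra h11 G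
  rw [((congrArg (plV V).r h10).trans
    (Pl.r_div (p := plV V) (h.r_eval₂ h3 G).1 ((nv_eq_one hV).1 h9))).trans
    (congrArg₂ (· / ·) (h.r_eval₂ h3 G).2 (h.r_eval₂ h3 H).2),
    ← div_div_div_cancel_right₀ (pow_ne_zero e (h6.ne 0))]
  exact div_mem (key _ (hG.map _)) (key _ (hH.map _))

omit hg hs in
theorem exists_dg (hc : ∃ W : RZ k L, Cen W τ) :
    ∃ V, Dvs V ∧ Cen V τ ∧ Geo.dg V (replicate m (mxf k τ ⊓ 0)) ≠ 0 := by
  have h0 := exists_ne hK (by omega)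
  have h1 : Free (mxf k τ ⊔ 0) := (free_mxf τ).sup Free.zero
  have h2 : (mxf k τ ⊔ 0).sf = ⊤ := top_unique (hK ▸ IntermediateField.adjoin_le_iff.2 (by
    rintro _ ⟨i, rfl⟩
    simpa using div_mem_sf (Sec_mono le_sup_left (mem_Sec_mxf τ i))
      (Sec_mono le_sup_right (one_mem_Sec (k := k) (F := L)))))
  have h3 := (isMod_iff_va.2 (va_of_alg h1 (by rw [h2]; infer_instance))).add (free_mxf τ)
  have h4 : Mod.Car (mxf k τ ⊔ 0 + mxf k τ) (mxf k τ ⊓ 0) := by
    have h5 := (Mod.car_add_right h1 (free_mxf τ)).sub (Mod.car_add_left h1 (free_mxf τ))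
    rwa [show mxf k τ - (mxf k τ ⊔ 0) = mxf k τ ⊓ 0 by
      rw [sub_eq_iff_eq_add, inf_add_sup, add_zero]] at h5
  obtain ⟨W, hW⟩ := hc
  have h5 : ∃ V, Prm (mxf k τ ⊔ 0 + mxf k τ) V ∧ od V (mxf k τ ⊓ 0) ≠ od V 0 := by
    by_contra h6
    push Not at h6
    exact (cen_of_val h0).2 hW (by rw [eq_of_od h3 h4 Mod.Car.zero h6, val_zero])
  obtain ⟨V, h6, h7⟩ := h5
  have h8 : Cen V τ := (cen_of_val h0).1 ((od_eq_iff h6.dvs).not.1 h7)
  refine ⟨V, h6.dvs, h8, ?_⟩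
  have := essFT_Rf h6.dvs
  have h9 := dg_pos h3 h6 hd
  rw [Geo.dg_eq, List.map_replicate] at h9 ⊢
  rw [bnum_rep (lin_rs_congr (plV V) (b := mxf k τ ⊔ 0 + mxf k τ) fun W hW => ?_)]
  · exact h9.ne'
  · obtain ⟨i, hi⟩ := exists_val_mxf (k := k) h0 W
    rw [(h8.mono hW).val_inf h0, val_add, val_sup, val_zero,
      max_eq_right (hi ▸ (h8.mono hW i).le), one_mul]

/-- **multiplicity one** -/
theorem mult (hc : ∃ W : RZ k L, Cen W τ) : bnum (replicate (m + 1) (mxf k τ ⊓ 0)) = -1 := by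
  have h0 := exists_ne hK (by omega)
  obtain ⟨V, hV, h1, h2⟩ := exists_dg hK hd hc
  obtain ⟨t, h3, h4, h5⟩ := exists_tr hK hd hg hs hV h1 h2
  rw [List.replicate_succ, bnum_single hV fun W hW h6 h7 => ?_, h5, od_of_gen hV h4,
    h3.unif hg (frc_evH hK) (nv_unif hV), log_exp, mul_one]
  obtain ⟨t', h8, -⟩ := exists_tr hK hd hg hs hW
    ((cen_of_val h0).1 ((od_eq_zero hW).not.1 h6)) h7
  exact Subtype.ext (ValuationSubring.ext _ _ fun z => (nv_le_one hW).symm.trans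
    ((h8.le_one_iff h3 hg (frc_evH hK) z).trans (nv_le_one hV)))

end Main

omit [CharZero k] [Algebra.EssFiniteType k L] in
theorem exists_cen (h : ∀ x : MvPolynomial σ k, aeval τ x = 0 → aeval (0 : σ → k) x = 0) :
    ∃ W : RZ k L, Cen W τ := by
  have := RingHom.ker_isPrime (evH k (0 : σ → k))
  obtain ⟨V, h1, h2⟩ := Ends.exists_centre (evH k τ) (idl k (0 : σ → k)) h
  exact ⟨⟨V, fun c => by simpa using h1 (C c)⟩, fun i => by
    simpa using (h2 (X i)).2 (by simp [RingHom.mem_ker])⟩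

theorem exists_compl {k M : Type} [Field k] [AddCommGroup M] [Module k M] [Module.Finite k M]
    (U : Submodule k M) {n : ℕ} (h : Module.finrank k M ≤ Module.finrank k U + n) :
    ∃ w : Fin n → M, Submodule.span k (range w) ⊔ U = ⊤ := by
  obtain ⟨U', hU⟩ := U.exists_isCompl
  have h1 := Submodule.finrank_add_eq_of_isCompl hU
  let b := Module.finBasis k U'
  refine ⟨fun a => if h : a.1 < Module.finrank k U' then b ⟨a, h⟩ else 0, top_unique ?_⟩
  rw [← hU.symm.sup_eq_top]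
  refine sup_le_sup_right (fun x hx => ?_) _
  have h2 := congrArg Subtype.val (b.sum_repr ⟨x, hx⟩)
  simp only [AddSubmonoidClass.coe_finsetSum, SetLike.val_smul] at h2
  rw [← h2]
  exact sum_mem fun i _ => Submodule.smul_mem _ _ (Submodule.subset_span
    ⟨⟨i, by omega⟩, by simp⟩)

omit [Algebra.EssFiniteType k L] in
/-- local parameters from the Jacobian criterion -/
theorem exists_gen {q : ι → MvPolynomial σ k} (h1 : ∀ a, aeval τ (q a) = 0)
    (h2 : ∀ a, aeval (0 : σ → k) (q a) = 0) {n : ℕ} (h3 : Fintype.card σ ≤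
      Module.finrank k (Submodule.span k (range fun a => grd (0 : σ → k) (q a))) + n) :
    ∃ s : Fin n → MvPolynomial σ k, (∀ j, s j ∈ idl k (0 : σ → k)) ∧
      Gen (evH k τ) (idl k (0 : σ → k)) s := by
  classical
  obtain ⟨w, hw⟩ := exists_compl _ ((Module.finrank_fintype_fun_eq_card k).trans_le h3)
  let s : Fin n → MvPolynomial σ k := fun j => ∑ i, C (w j i) * X i
  have h4 : ∀ j, aeval (0 : σ → k) (s j) = 0 := fun j => by simp [s]
  have h5 : ∀ j, grd (0 : σ → k) (s j) = w j := fun j => funext fun i => by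
    simp [s, grd, Pi.single_apply]
  refine ⟨s, h4, fun x hx => ?_⟩
  obtain ⟨g, h6, h7⟩ := gen_of_span (η := (0 : σ → k)) (s := Sum.elim s q)
    (eq_top_iff.2 fun z _ => IntermediateField.algebraMap_mem _ z)
    (fun a => by rcases a with a | a; exacts [h4 a, h2 a]) (fun y _ => by
      refine (hw.ge.trans ?_) Submodule.mem_top
      refine sup_le (Submodule.span_mono ?_) (Submodule.span_mono ?_)
      · rintro _ ⟨j, rfl⟩
        exact ⟨Sum.inl j, h5 j⟩
      · rintro _ ⟨j, rfl⟩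
        exact ⟨Sum.inr j, rfl⟩) hx
  rw [Set.Sum.elim_range, Ideal.span_union] at h7
  obtain ⟨z, hz, z', hz', h8⟩ := Submodule.mem_sup.1 h7
  have h9 : z' ∈ idl k τ := Ideal.span_le.2 (by rintro _ ⟨a, rfl⟩; exact h1 a) hz'
  exact ⟨g, h6, z, by rwa [pow_one], by
    rw [← map_mul, ← h8, map_add, RingHom.mem_ker.1 h9, add_zero]⟩

theorem mult_jac (hK : adjoin k (range τ) = ⊤) (hd : dim k L = m + 1)
    (hc : ∀ x : MvPolynomial σ k, aeval τ x = 0 → aeval (0 : σ → k) x = 0)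
    {q : ι → MvPolynomial σ k} (h1 : ∀ a, aeval τ (q a) = 0) (h3 : Fintype.card σ ≤
      Module.finrank k (Submodule.span k (range fun a => grd (0 : σ → k) (q a))) + (m + 1)) :
    bnum (replicate (m + 1) (mxf k τ ⊓ 0)) = -1 := by
  obtain ⟨s, hs, hg⟩ := exists_gen h1 (fun a => hc _ (h1 a)) h3
  exact mult hK hd hg hs (exists_cen hc)

end Crest.Agent.X262.Hb
end
end

-- ▼ part X262/Hb/Pnt
section

/-!
# Row 262, road B, Hb (helper61), part 8: the diagonal class at a generic point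

`pt_dgc` : `∫_{F K} dgc (y₁, y₀) Ψ = ∫_F ψ` if `y₀` is the generic point of the target and `Ψ`
restricts to `ψ` wherever the two points meet.
-/

set_option autoImplicit false
set_option linter.unusedSectionVars false

noncomputable section

namespace Crest.Agent.X262.Hb

open Crest.Agent.X277 Crest.Agent.X277.BD Crest.Agent.X277.Pst Crest.Agent.X277.BD.Cyc
open Crest.Agent.X262.Vb Module
open Crest.Agent.X262.Node22 (scl vec vsc wg dl da Par Dg gD wg_apply vsc_apply)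
open Crest.Agent.X262.Tr89 (grd pc)
open Crest.Agent.R274.Prod1_134 (IsPF)
open Algebra.TensorProduct (productMap)
open scoped TensorProduct
open List (replicate)

variable {J : Type} [Fintype J] [DecidableEq J] {io : J → Type} [∀ j, Fintype (io j)]
  [∀ j, DecidableEq (io j)] {A : Type} [Fintype A] {F K L : Type} [Field F] [Algebra ℂ F] [Field K]
  [Algebra ℂ K] [Field L] [Algebra ℂ L] {T : Tgt io A} {B : Th} {c : ℕ} {y₀ : Pnt io K}
  {y₁ : Pnt io F} {i₀ : ∀ j, io j} {γ : K →ₐ[ℂ] L}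

theorem genPt_scl (h : GenPt T c y₀) {a : J → K} (ha : ∀ j, a j ≠ 0) : GenPt T c (scl a y₀) where
  nz := Node22.nz_scl h.nz ha
  on := Node22.on_scl T h.on a
  gen := by simpa only [scl, mul_div_mul_left _ _ (ha _)] using h.gen
  dm := h.dm
  irr q κ h1 h2 := h.irr q κ h1 (by
    rw [Node22.pv_scl h1] at h2
    exact (mul_eq_zero.1 h2).resolve_left (Node22.chr_ne ha κ))

theorem genPt_ne (h : GenPt T c y₀) (h1 : NZ y₁) (hO : T.On y₁) {j : J} {i : io j}
    (hi : y₁ j i ≠ 0) : y₀ j i ≠ 0 := fun h0 => hi (by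
  simpa [pv] using h.irr (MvPolynomial.X ⟨j, i⟩) _ (MvPolynomial.isWeightedHomogeneous_X ℂ _ _)
    (by simpa [pv] using h0) F y₁ h1 hO)

theorem genPt_ker (h : GenPt T c y₀) (n₀ : ∀ j, y₀ j (i₀ j) = 1) (n₁ : ∀ j, y₁ j (i₀ j) = 1)
    (hO : T.On y₁) (g : MvPolynomial (Vr io) ℂ) (hg : pv y₀ g = 0) : pv y₁ g = 0 := by
  obtain ⟨E, G, hG, h1⟩ := Syz.exists_homog (blk := Sigma.fst) (c := fun j => ⟨j, i₀ j⟩)
    (fun _ => rfl) g
  have h2 := h1 K (vec y₀) 1 fun j => by simp [vec, n₀]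
  have h3 := h1 F (vec y₁) 1 fun j => by simp [vec, n₁]
  simp only [Pi.one_apply, one_mul, one_pow, Finset.prod_const_one] at h2 h3
  exact h3.trans (h.irr G E hG (h2.symm.trans hg) F y₁
    (fun j => ⟨i₀ j, n₁ j ▸ one_ne_zero⟩) hO)

theorem tensor_ker {R : Type} [CommRing R] [Algebra ℂ R] {β : F →ₐ[ℂ] L} (h : IsPF β γ)
    (φ : R →ₐ[ℂ] K) (ψ : R →ₐ[ℂ] F) (hk : ∀ r, φ r = 0 → ψ r = 0) (z : F ⊗[ℂ] R)
    (hz : productMap β (γ.comp φ) z = 0) : productMap (AlgHom.id ℂ F) ψ z = 0 := by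
  have h1 : ∀ z : F ⊗[ℂ] R, productMap β γ (φ.toLinearMap.lTensor F z) =
      productMap β (γ.comp φ) z := fun z => by
    induction z with
    | zero => simp
    | tmul x y => simp
    | add x y hx hy => simp only [map_add, hx, hy]
  have h2 : φ.toLinearMap.lTensor F z = 0 := h.inj (by rw [h1, hz, map_zero])
  obtain ⟨w, rfl⟩ := (Module.Flat.lTensor_exact F
    (LinearMap.exact_subtype_ker_map φ.toLinearMap) z).1 h2
  clear hz h2
  induction w with
  | zero => simp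
  | tmul x y => simp [hk y y.2]
  | add x y hx hy => simp only [map_add, hx, hy, add_zero]

section Shift

open MvPolynomial

variable {σ : Type} [Fintype σ] [DecidableEq σ]

/-- translation of the origin -/
def shf (y : σ → F) : MvPolynomial σ ℂ →ₐ[ℂ] MvPolynomial σ F := aeval fun v => X v + C (y v)

theorem aeval_shf {M : Type} [CommRing M] [Algebra ℂ M] [Algebra F M] [IsScalarTower ℂ F M]
    (y : σ → F) (t : σ → M) (g : MvPolynomial σ ℂ) :
    aeval t (shf y g) = aeval (fun v => t v + algebraMap F M (y v)) g := by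
  refine (comp_aeval_apply (fun v => X v + C (y v))
    ((aeval t : MvPolynomial σ F →ₐ[F] M).restrictScalars ℂ) g).trans ?_
  congr 2
  funext v
  change aeval t (X v + C (y v)) = _
  simp

theorem pderiv_shf (y : σ → F) (v : σ) (g : MvPolynomial σ ℂ) :
    pderiv v (shf y g) = shf y (pderiv v g) := by
  induction g using MvPolynomial.induction_on with
  | C a => simp [shf]
  | add p q hp hq => simp only [map_add, hp, hq]
  | mul_X p i hp =>
    rw [map_mul, Derivation.leibniz, Derivation.leibniz, hp]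
    by_cases h : i = v <;> simp [shf, h]

theorem grd_shf (y : σ → F) (g : MvPolynomial σ ℂ) (v : σ) :
    grd (0 : σ → F) (shf y g) v = aeval y (pderiv v g) := by
  simp [grd, pderiv_shf, aeval_shf]

end Shift

/-- the equations in the chart, centred at the point -/
def eqs (T : Tgt io A) (i₀ : ∀ j, io j) (y₁ : Pnt io F) : A ⊕ J → MvPolynomial (Vr io) F :=
  Sum.elim (fun a => shf (vec y₁) (T.F a)) fun j => MvPolynomial.X ⟨j, i₀ j⟩

theorem rank_eqs (hS : Smo T c) (n₁ : ∀ j, y₁ j (i₀ j) = 1) (hO : T.On y₁) {n : ℕ}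
    (hn : n + c = adim io) : Fintype.card (Vr io) ≤ finrank F (Submodule.span F
      (Set.range fun a => grd (0 : Vr io → F) (eqs T i₀ y₁ a))) + n := by
  have h0 : NZ y₁ := fun j => ⟨i₀ j, n₁ j ▸ one_ne_zero⟩
  let M : Matrix (A ⊕ J) (Vr io) F := Matrix.of fun a => grd (0 : Vr io → F) (eqs T i₀ y₁ a)
  have h1 := M.rank_eq_finrank_span_row
  have h2 := LinearMap.finrank_range_add_finrank_ker M.mulVecLin
  have h3 : LinearMap.ker M.mulVecLin ≤ LinearMap.ker (T.jac y₁) := fun w hw =>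
    funext fun a => by
      have := congrFun (LinearMap.mem_ker.1 hw) (Sum.inl a)
      rw [Node22.jac_apply]
      simpa [M, Matrix.mulVec, dotProduct, eqs, grd_shf] using this
  have h4 : LinearMap.ker M.mulVecLin ⊓ eul y₁ = ⊥ := eq_bot_iff.2 fun w hw => by
    obtain ⟨l, rfl⟩ := mem_eul.1 hw.2
    have h5 : ∀ j, l j = 0 := fun j => by
      have := congrFun (LinearMap.mem_ker.1 hw.1) (Sum.inr j)
      simpa [M, Matrix.mulVec, dotProduct, eqs, grd, Pi.single_apply, vec, n₁] using this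
    exact funext fun v => by simp [h5]
  have h5 := Submodule.finrank_sup_add_finrank_inf_eq (LinearMap.ker M.mulVecLin) (eul y₁)
  have h6 := Submodule.finrank_mono (sup_le h3 (eul_le hO))
  have h7 := finrank_ker_jac hS h0 hO
  have h8 : adim io + _ = _ := Node22.dimP_add h0
  rw [h4, finrank_bot, finrank_eul h0] at h5
  rw [finrank_fintype_fun_eq_card] at h2
  change _ ≤ finrank F (Submodule.span F (Set.range M.row)) + n
  rw [← h1, Matrix.rank]
  omega

theorem nm_dl {y z : Pnt io L} (ny : ∀ j, y j (i₀ j) = 1) (nz : ∀ j, z j (i₀ j) = 1) {V : RZ ℂ L}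
    (hz : ∀ j i, z j i ∈ V.1) {v : Vr io}
    (hv : ∀ w, V.v ((vec y - vec z) w) ≤ V.v ((vec y - vec z) v)) :
    nm (da z y) V (dl z y) = min (V.v ((vec y - vec z) v)) 1 := by
  have hP : Prim V z := fun j => ⟨hz j, i₀ j, by rw [nz, map_one]⟩
  have h1 : ∀ j, 1 ≤ (ln y j).val V := fun j => by simpa [ny] using le_ln y j (i₀ j) V
  have h2 : dl z y = wg (vec z) (vec y - vec z) := by
    rw [map_sub, (mem_eul_iff (τ := vec z) hP.nz).1 (mem_eul.2 ⟨1, by ext; simp⟩), sub_zero, dl]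
  refine le_antisymm (le_min (nm_le.2 fun x => ?_) (nm_dl_le _ _ _)) ?_
  · rw [da, val_add, hP.val_ln, one_mul, h2, wg_apply]
    refine le_trans ?_ (le_mul_of_one_le_right' (h1 _))
    refine (V.v.map_sub _ _).trans (max_le ?_ ?_) <;> rw [map_mul] <;>
      exact (mul_le_of_le_one_left' (RZ.le_one_iff.2 (hz _ _))).trans (hv _)
  · have h3 := le_nm (da z y) V (dl z y) ⟨v.1, i₀ v.1, v.2⟩
    have h4 : dl z y ⟨v.1, i₀ v.1, v.2⟩ = (vec y - vec z) v := by
      simp [dl, wg_apply, vec, ny, nz]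
    obtain ⟨i, hi⟩ := exists_ln (fun j => ⟨i₀ j, ny j ▸ one_ne_zero⟩ : NZ y) v.1 V
    have h5 : (ln y v.1).val V ≤ max (V.v ((vec y - vec z) v)) 1 := by
      rw [← hi, show y v.1 i = (vec y - vec z) ⟨v.1, i⟩ + z v.1 i by simp [vec]]
      exact (V.v.map_add _ _).trans (max_le_max (hv _) (RZ.le_one_iff.2 (hz _ _)))
    rw [h4, da, val_add, hP.val_ln, one_mul] at h3
    replace h3 := h3.trans (mul_le_mul_right h5 _)
    rcases le_total (V.v ((vec y - vec z) v)) 1 with h6 | h6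
    · rwa [max_eq_right h6, mul_one, ← min_eq_left h6] at h3
    · rw [max_eq_left h6, le_mul_iff_one_le_left (zero_lt_one.trans_le h6)] at h3
      exact (min_le_right _ _).trans h3

theorem meet_of_par {y z : Pnt io L} (hy : NZ y) (hz : NZ z) (h : Par y z) :
    Meet (LP.hom (AlgHom.id ℂ L)).V y z := by
  obtain ⟨a, ha, e⟩ := h
  refine ⟨1, a, prim_hom _ (Node22.nz_scl hy fun _ => one_ne_zero),
    prim_hom _ (Node22.nz_scl hz ha), fun j i => ?_⟩
  rw [e]
  simp [scl]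

section Tower

variable [Algebra F L] [IsScalarTower ℂ F L]

local notation "β" => IsScalarTower.toAlgHom ℂ F L

theorem up_dh {y : Pnt io L} (ny : ∀ j, y j (i₀ j) = 1) (n₁ : ∀ j, y₁ j (i₀ j) = 1)
    (h0 : ∃ v, (vec y - vec (mpt β y₁)) v ≠ 0) : dl (mpt β y₁) y ≠ 0 ∧
    up F (-dh (mpt β y₁) y) = mxf F (vec y - vec (mpt β y₁)) ⊓ 0 := by
  have nz : ∀ j, mpt β y₁ j (i₀ j) = 1 := fun j => by simp [mpt, n₁]
  have h1 : dl (mpt β y₁) y ≠ 0 := fun e => by
    obtain ⟨v, hv⟩ := h0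
    exact hv (by simpa [dl, wg_apply, vec, ny, nz] using congrFun e ⟨v.1, i₀ v.1, v.2⟩)
  refine ⟨h1, ext' fun W => ?_⟩
  obtain ⟨v, hv⟩ := exists_val_mxf (k := F) h0 W
  rw [val_up, dh_eq, neg_neg, val_sz h1, val_inf, val_zero, ← hv]
  exact nm_dl ny nz (V := W.dn ℂ) (fun j i => W.2 _) fun w =>
    (mem_Sec_mxf _ w W).trans_eq hv.symm

theorem adjoin_tau (h : GenPt T c y₀) (hP : IsPF β γ) :
    IntermediateField.adjoin F (Set.range (vec (mpt γ y₀) - vec (mpt β y₁))) = ⊤ := by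
  let S := IntermediateField.adjoin F (Set.range (vec (mpt γ y₀) - vec (mpt β y₁)))
  have h1 : ∀ j i, γ (y₀ j i) ∈ S := fun j i => by
    simpa [vec, mpt] using add_mem (IntermediateField.subset_adjoin F _ ⟨⟨j, i⟩, rfl⟩ : _ ∈ S)
      (S.algebraMap_mem (y₁ j i))
  have h2 : (⊤ : IntermediateField ℂ K) ≤ (S.restrictScalars ℂ).comap γ := by
    rw [← h.gen, IntermediateField.adjoin_le_iff]
    rintro _ ⟨j, i, i', rfl⟩
    change γ _ ∈ S
    rw [map_div₀]
    exact div_mem (h1 j i) (h1 j i')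
  have h3 : (⊤ : IntermediateField ℂ L) ≤ S.restrictScalars ℂ := by
    rw [← hP.adjoin_eq, IntermediateField.adjoin_le_iff]
    rintro _ (⟨x, rfl⟩ | ⟨x, rfl⟩)
    · exact S.algebraMap_mem x
    · exact h2 (IntermediateField.mem_top (x := x))
  exact eq_top_iff.2 fun x _ => h3 (IntermediateField.mem_top (x := x))

theorem clos_tau (h : GenPt T c y₀) (hP : IsPF β γ) (n₀ : ∀ j, y₀ j (i₀ j) = 1)
    (n₁ : ∀ j, y₁ j (i₀ j) = 1) (hO : T.On y₁) (x : MvPolynomial (Vr io) F)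
    (hx : MvPolynomial.aeval (vec (mpt γ y₀) - vec (mpt β y₁)) x = 0) :
    MvPolynomial.aeval (0 : Vr io → F) x = 0 := by
  have h1 : ∃ z : F ⊗[ℂ] MvPolynomial (Vr io) ℂ,
      productMap β (γ.comp (MvPolynomial.aeval (vec y₀))) z =
        MvPolynomial.aeval (vec (mpt γ y₀) - vec (mpt β y₁)) x ∧
      productMap (AlgHom.id ℂ F) (MvPolynomial.aeval (vec y₁)) z =
        MvPolynomial.aeval (0 : Vr io → F) x := by
    clear hx
    induction x using MvPolynomial.induction_on with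
    | C a => exact ⟨a ⊗ₜ 1, by simp, by simp⟩
    | add p q hp hq =>
      obtain ⟨z, h1, h2⟩ := hp
      obtain ⟨w, h3, h4⟩ := hq
      exact ⟨z + w, by rw [map_add, map_add, h1, h3], by rw [map_add, map_add, h2, h4]⟩
    | mul_X p v hp =>
      obtain ⟨z, h1, h2⟩ := hp
      exact ⟨z * (1 ⊗ₜ MvPolynomial.X v - vec y₁ v ⊗ₜ 1), by
        rw [map_mul, map_mul, h1]; simp [vec, mpt], by rw [map_mul, map_mul]; simp⟩
  obtain ⟨z, h2, h3⟩ := h1
  exact h3 ▸ tensor_ker hP _ _ (genPt_ker h n₀ n₁ hO) z (h2.trans hx)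

variable [Algebra.EssFiniteType ℂ F] [Algebra.EssFiniteType ℂ K] [Algebra.EssFiniteType ℂ L]
  [CharZero F] [Algebra.EssFiniteType F L]

theorem core_nor (hS : Smo T c) (h : GenPt T c y₀) (hP : IsPF β γ) (n₀ : ∀ j, y₀ j (i₀ j) = 1)
    (n₁ : ∀ j, y₁ j (i₀ j) = 1) (hO : T.On y₁) :
    (dim ℂ K = 0 → dl (mpt β y₁) (mpt γ y₀) = 0 ∧ Function.Surjective β) ∧
    ∀ m, dim ℂ K = m + 1 → dl (mpt β y₁) (mpt γ y₀) ≠ 0 ∧
      bnum (replicate (m + 1) (up F (-dh (mpt β y₁) (mpt γ y₀)))) = -1 := by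
  have h1 := adjoin_tau (y₁ := y₁) h hP
  have h2 := clos_tau h hP n₀ n₁ hO
  refine ⟨fun hd => ?_, fun m hd => ?_⟩
  · have : Algebra.IsAlgebraic ℂ K :=
      trdeg_eq_zero_iff.1 (by rw [trdeg_eq_dim, hd, Nat.cast_zero])
    have h3 : vec (mpt γ y₀) - vec (mpt β y₁) = 0 := funext fun v => by
      obtain ⟨a, ha⟩ := (IsAlgClosed.algebraMap_bijective_of_isIntegral (k := ℂ) (K := K)).2
        (vec y₀ v)
      have h4 : (vec (mpt γ y₀) - vec (mpt β y₁)) v =
          algebraMap F L (algebraMap ℂ F a - vec y₁ v) := by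
        rw [map_sub, ← IsScalarTower.algebraMap_apply, ← γ.commutes, ha]
        rfl
      have h5 := h2 (MvPolynomial.X v - MvPolynomial.C (algebraMap ℂ F a - vec y₁ v)) (by
        rw [map_sub, MvPolynomial.aeval_X, MvPolynomial.aeval_C, h4, sub_self])
      rw [map_sub, MvPolynomial.aeval_X, MvPolynomial.aeval_C, Pi.zero_apply, zero_sub,
        neg_eq_zero] at h5
      rw [h4, show algebraMap ℂ F a - vec y₁ v = 0 from h5, map_zero, Pi.zero_apply]
    refine ⟨?_, fun x => ?_⟩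
    · rw [dl, sub_eq_zero.1 h3]
      exact funext fun x => by simp [wg_apply, mul_comm]
    · have h4 : (⊤ : IntermediateField F L) ≤ ⊥ := by
        rw [← h1, h3, IntermediateField.adjoin_le_iff]
        rintro _ ⟨v, rfl⟩
        exact zero_mem _
      exact IntermediateField.mem_bot.1 (h4 (IntermediateField.mem_top (x := x)))
  · have h3 : dim F L = m + 1 := by
      have h4 := Wd.dim_pf hP
      rw [Loc.dim_tower ℂ F L] at h4
      omega
    obtain ⟨h4, h5⟩ := up_dh (y := mpt γ y₀) (fun j => by simp [mpt, n₀]) n₁ (exists_ne h1 (by omega))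
    refine ⟨h4, h5 ▸ mult_jac h1 h3 h2 (q := eqs T i₀ y₁) ?_ (rank_eqs hS n₁ hO (hd ▸ h.dm))⟩
    rintro (a | j)
    · refine (aeval_shf _ _ _).trans (Eq.trans ?_ ((on_map T γ).2 h.on a))
      simp [pv, vec, mapP, mpt]
    · simp [eqs, vec, mpt, n₀, n₁]

theorem core (hS : Smo T c) (h : GenPt T c y₀) (hP : IsPF β γ) (h₁ : NZ y₁) (hO : T.On y₁) :
    (dim ℂ K = 0 → dl (mpt β y₁) (mpt γ y₀) = 0 ∧ Function.Surjective β) ∧
    ∀ m, dim ℂ K = m + 1 → dl (mpt β y₁) (mpt γ y₀) ≠ 0 ∧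
      bnum (replicate (m + 1) (up F (-dh (mpt β y₁) (mpt γ y₀)))) = -1 := by
  choose i₀ hi using id h₁
  have h0 : ∀ j, y₀ j (i₀ j) ≠ 0 := fun j => genPt_ne h h₁ hO (hi j)
  have h1 := core_nor hS (genPt_scl h fun j => inv_ne_zero (h0 j)) hP
    (y₁ := scl (fun j => (y₁ j (i₀ j))⁻¹) y₁) (fun j => inv_mul_cancel₀ (h0 j))
    (fun j => inv_mul_cancel₀ (hi j)) (Node22.on_scl T hO _)
  have e₁ : mpt β (scl (fun j => (y₁ j (i₀ j))⁻¹) y₁) =
      scl (fun j => β (y₁ j (i₀ j))⁻¹) (mpt β y₁) := funext fun j => funext fun i => map_mul _ _ _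
  have e₀ : mpt γ (scl (fun j => (y₀ j (i₀ j))⁻¹) y₀) =
      scl (fun j => γ (y₀ j (i₀ j))⁻¹) (mpt γ y₀) := funext fun j => funext fun i => map_mul _ _ _
  have c₁ : ∀ j, β (y₁ j (i₀ j))⁻¹ ≠ 0 := fun j => (map_ne_zero _).2 (inv_ne_zero (hi j))
  have c₀ : ∀ j, γ (y₀ j (i₀ j))⁻¹ ≠ 0 := fun j => (map_ne_zero _).2 (inv_ne_zero (h0 j))
  rwa [e₁, e₀, Ne, dl_scl_eq_zero c₁ c₀,
    dh_scl (y := mpt β y₁) (y' := mpt γ y₀) ((nz_map β).2 h₁) ((nz_map γ).2 h.nz) c₁ c₀] at h1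

theorem cl_map (hB : B.Ax) (α : F →ₐ[ℂ] L) (s : List (BD ℂ F)) :
    (B.cl s).map (B.pb (LP.hom α) : B.H F →+* B.H L) = B.cl (s.map (pb α)) := by
  induction s with
  | nil => simp
  | cons b s ih =>
    rw [List.map_cons, Th.cl_cons, Th.cl_cons, Polynomial.map_mul, ih, Polynomial.map_sub,
      Polynomial.map_C, Polynomial.map_X, RingHom.coe_coe, hB.pb_c1_hom]

theorem pt_tower (hB : B.Ax) (hS : Smo T c) (h : GenPt T c y₀) (hP : IsPF β γ) (h₁ : NZ y₁)
    (hO : T.On y₁) (Ψ : B.H L) (ψ : B.H F)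
    (hΨ : ∀ (E : Type) [Field E] [Algebra ℂ E] [Algebra.EssFiniteType ℂ E] (p : LP L E),
      Meet p.V (mpt β y₁) (mpt γ y₀) → B.pb p Ψ = B.pb p (B.pb (LP.hom β) ψ)) :
    B.itg L (dgc B T (mpt β y₁) (mpt γ y₀) * Ψ) = B.itg F ψ := by
  obtain ⟨h1, h2⟩ := core hS h hP h₁ hO
  have z₁ : NZ (mpt β y₁) := (nz_map β).2 h₁
  have z₀ : NZ (mpt γ y₀) := (nz_map γ).2 h.nz
  obtain ⟨s, h3, h4⟩ := hB.exists_cl (a := fun v : Vr io => ln y₁ v.1) (eul_le hO)
  have h5 : s.length = dim ℂ K := by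
    have h6 := finrank_ker_jac hS h₁ hO
    have h7 : adim io + _ = _ := Node22.dimP_add h₁
    have h8 := h.dm
    rw [finrank_eul h₁] at h3
    omega
  have h6 : cT B T (mpt β y₁) = B.cl (s.map (pb β)) := by
    rw [← hB.cT_map hS β h₁ hO, cT, h4, cl_map hB]
  rcases hd : dim ℂ K with _ | m
  · obtain ⟨h7, h8⟩ := h1 hd
    have h9 := hΨ L _ (meet_of_par z₁ z₀ ((Node22.dl_eq_zero z₁ z₀).1 h7))
    rw [hB.pb_id, hB.pb_id] at h9
    rw [dgc, wdg_eq, if_pos h7, h6, List.length_eq_zero_iff.1 (h5.trans hd), h9]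
    simpa using hB.itg_equiv h8 ψ
  obtain ⟨h7, h8⟩ := h2 m hd
  have h9 : ∀ d : B.H L, (B.cl (s.map (pb β))).eval 0 - (B.cl (s.map (pb β))).eval d =
      d * (-(B.cl (s.map (pb β))).divX).eval d := fun d => by
    have h10 := congrArg (Polynomial.eval d) (Polynomial.X_mul_divX_add (B.cl (s.map (pb β))))
    rw [Polynomial.eval_add, Polynomial.eval_mul, Polynomial.eval_X, Polynomial.eval_C,
      Polynomial.coeff_zero_eq_eval_zero] at h10
    rw [Polynomial.eval_neg]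
    linear_combination h10
  have h10 : ∀ l : BD ℂ L, B.itg L ((B.cl (s.map (pb β))).eval (B.c1 l) * B.pb (LP.hom β) ψ) =
      bnum (replicate (m + 1) (up F (-l))) * B.itg F ψ := fun l => by
    rw [Tr89.eval_cl, Tr89.fib hB _ _ (by simp [h5, Wd.dim_pf hP, add_comm]), ← hd, ← h5]
    congr 3
    refine List.eq_replicate_iff.2 ⟨by simp, fun b hb => ?_⟩
    simp only [List.map_map, List.mem_map, Function.comp_apply] at hb
    obtain ⟨a, -, rfl⟩ := hb
    rw [map_sub, up_pb β fun _ => rfl, zero_sub, map_neg]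
  rw [dgc, wdg_eq, if_neg h7, h6, h9, mul_assoc,
    hB.mul_congr (y := _ * B.pb (LP.hom β) ψ) fun V hV h11 => ?_, ← mul_assoc, ← h9, sub_mul, map_sub, h10, h8, ← map_zero B.c1, h10, neg_zero, map_zero,
    List.replicate_succ, bnum_zero]
  · simp
  · have := Geo.essFT_Rf hV
    rw [map_mul, map_mul, hΨ _ (LP.at V) (meet_of_dh z₁ z₀ ((Geo.od_eq_zero hV).not.1 h11))]

end Tower

/-- **the diagonal class at a generic point** -/
theorem pt_dgc [Algebra.EssFiniteType ℂ F] [Algebra.EssFiniteType ℂ K] [Algebra.EssFiniteType ℂ L]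
    (hB : B.Ax) (hS : Smo T c) (h : GenPt T c y₀) {β : F →ₐ[ℂ] L} (hP : IsPF β γ) (h₁ : NZ y₁)
    (hO : T.On y₁) (Ψ : B.H L) (ψ : B.H F)
    (hΨ : ∀ (E : Type) [Field E] [Algebra ℂ E] [Algebra.EssFiniteType ℂ E] (p : LP L E),
      Meet p.V (mpt β y₁) (mpt γ y₀) → B.pb p Ψ = B.pb p (B.pb (LP.hom β) ψ)) :
    B.itg L (dgc B T (mpt β y₁) (mpt γ y₀) * Ψ) = B.itg F ψ := by
  let _ := β.toRingHom.toAlgebra
  have : IsScalarTower ℂ F L := IsScalarTower.of_algebraMap_eq fun c => (β.commutes c).symm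
  have : CharZero F := charZero_of_injective_algebraMap (algebraMap ℂ F).injective
  have : Algebra.EssFiniteType F L := Algebra.EssFiniteType.of_comp ℂ F L
  exact pt_tower hB hS h hP h₁ hO Ψ ψ hΨ

end Crest.Agent.X262.Hb
end
end

-- ▼ part X262/PD/Pt

/-!
# Row 262, road B, PD (helper97): `PtStmt` from `Hb.pt_dgc`
-/

set_option autoImplicit false
set_option linter.unusedSectionVars false

noncomputable section

namespace Crest.Agent.X262.PD.Dg

open Crest.Agent.X277 Crest.Agent.X277.BD Crest.Agent.X262.Hb Crest.Agent.X262.Vb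
open Crest.Agent.X262.Node22 (scl)

variable {J : Type} [Fintype J] [DecidableEq J] {io : J → Type} [∀ j, Fintype (io j)]
  [∀ j, DecidableEq (io j)] {A : Type} [Fintype A] {B : Th} {T : Tgt io A}
  {E F : Type} [Field E] [Algebra ℂ E] [Algebra.EssFiniteType ℂ E] [Field F] [Algebra ℂ F]
  [Algebra.EssFiniteType ℂ F] {Ψ : MFam B io (Fin 2)} {w y y' : Pnt io E}

theorem vec_scl (c c' : J → E) (w y : Pnt io E) :
    (fun q j i => ![c, c'] q j * ![w, y] q j i) = ![scl c w, scl c' y] :=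
  _root_.funext (Fin.forall_fin_two.2 ⟨rfl, rfl⟩)

theorem mcls_red (hΨ : MCls B T Ψ) (p : LP E F) (h : Prim p.V w) (h' : Prim p.V y) (hO : T.On w)
    (hO' : T.On y) : B.pb p (Ψ E ![w, y]) = Ψ F ![redP p.toPl w, redP p.toPl y] := by
  have e : (fun q => redP p.toPl (![w, y] q)) = ![redP p.toPl w, redP p.toPl y] :=
    _root_.funext (Fin.forall_fin_two.2 ⟨rfl, rfl⟩)
  rw [hΨ.nat E F p ![w, y] (Fin.forall_fin_two.2 ⟨h, h'⟩) (Fin.forall_fin_two.2 ⟨hO, hO'⟩), e]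

theorem mcls_scl (hΨ : MCls B T Ψ) {c c' : J → E} (hc : ∀ j, c j ≠ 0) (hc' : ∀ j, c' j ≠ 0)
    (h : NZ w) (h' : NZ y) (hO : T.On w) (hO' : T.On y) :
    Ψ E ![scl c w, scl c' y] = Ψ E ![w, y] := by
  rw [← vec_scl]
  exact hΨ.scl E _ _ (Fin.forall_fin_two.2 ⟨hc, hc'⟩) (Fin.forall_fin_two.2 ⟨h, h'⟩)
    (Fin.forall_fin_two.2 ⟨hO, hO'⟩)

theorem mcls_meet (hΨ : MCls B T Ψ) (p : LP E F) (hw : NZ w) (h : NZ y) (h' : NZ y') (hOw : T.On w)
    (hO : T.On y) (hO' : T.On y') (hm : Meet p.V y y') :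
    B.pb p (Ψ E ![w, y']) = B.pb p (Ψ E ![w, y]) := by
  obtain ⟨c, c', hc, hc', h1, h2, e⟩ := hm.exists
  obtain ⟨d, hd, h3⟩ := exists_prim hw p.V
  rw [← mcls_scl hΨ hd hc' hw h' hOw hO', ← mcls_scl hΨ hd hc hw h hOw hO,
    mcls_red hΨ p h3 h2 (Node22.on_scl T hOw _) (Node22.on_scl T hO' _),
    mcls_red hΨ p h3 h1 (Node22.on_scl T hOw _) (Node22.on_scl T hO _), e]

theorem mcls_hom (hΨ : MCls B T Ψ) (α : E →ₐ[ℂ] F) (h : NZ w) (h' : NZ y) (hO : T.On w)
    (hO' : T.On y) : B.pb (LP.hom α) (Ψ E ![w, y]) = Ψ F ![mpt α w, mpt α y] := by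
  rw [mcls_red hΨ _ (prim_hom α h) (prim_hom α h') hO hO', redP_hom, redP_hom]
  rfl

/-- **PT** -/
theorem ptStmt : PtStmt := by
  intro B hB J _ _ io _ _ A _ T c hS K _ _ _ y₀ g F L _ _ _ _ _ _ β γ hP Ψ hΨ y₁ w n₁ o₁ nw ow x
  rw [mul_comm (B.pb _ x), mul_assoc]
  refine pt_dgc hB hS g (Am12.isPF_of_prd hP) n₁ o₁ _ _ fun E _ _ _ p hm => ?_
  rw [map_mul (B.pb (LP.hom β)), mcls_hom hΨ β nw n₁ ow o₁, map_mul, map_mul,
    mcls_meet hΨ p (nz_mpt β nw) (nz_mpt β n₁) (nz_mpt γ g.nz) (on_mpt β ow) (on_mpt β o₁)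
      (on_mpt γ g.on) hm]

end Crest.Agent.X262.PD.Dg
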